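import Vale.Agent.P236C.Exec

noncomputable section

namespace Vale.Agent.P236C.D

def k1_0 : KP := KP.mk (nat_lit 90) (nat_lit 23) (nat_lit 180) (nat_lit 7) (nat_lit 100) [
  SI.mk (nat_lit 89) (nat_lit 23) (nat_lit 0) (nat_lit 0),
  SI.mk (nat_lit 90) (nat_lit 20) (nat_lit 1) (nat_lit 0),
  SI.mk (nat_lit 91) (nat_lit 17) (nat_lit 2) (nat_lit 0),
  SI.mk (nat_lit 92) (nat_lit 14) (nat_lit 3) (nat_lit 0),
  SI.mk (nat_lit 93) (nat_lit 11) (nat_lit 4) (nat_lit 0),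
  SI.mk (nat_lit 94) (nat_lit 8) (nat_lit 5) (nat_lit 0),
  SI.mk (nat_lit 95) (nat_lit 5) (nat_lit 6) (nat_lit 0),
  SI.mk (nat_lit 89) (nat_lit 13) (nat_lit 0) (nat_lit 1),
  SI.mk (nat_lit 90) (nat_lit 10) (nat_lit 1) (nat_lit 1),
  SI.mk (nat_lit 91) (nat_lit 7) (nat_lit 2) (nat_lit 1),
  SI.mk (nat_lit 92) (nat_lit 4) (nat_lit 3) (nat_lit 1),
  SI.mk (nat_lit 0) (nat_lit 0) (nat_lit 0) (nat_lit 0),
  SI.mk (nat_lit 0) (nat_lit 0) (nat_lit 0) (nat_lit 0),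
  SI.mk (nat_lit 0) (nat_lit 0) (nat_lit 0) (nat_lit 0),
  SI.mk (nat_lit 89) (nat_lit 3) (nat_lit 0) (nat_lit 2),
  SI.mk (nat_lit 87) (nat_lit 22) (nat_lit 0) (nat_lit 0),
  SI.mk (nat_lit 88) (nat_lit 19) (nat_lit 1) (nat_lit 0),
  SI.mk (nat_lit 89) (nat_lit 16) (nat_lit 2) (nat_lit 0),
  SI.mk (nat_lit 90) (nat_lit 13) (nat_lit 3) (nat_lit 0),
  SI.mk (nat_lit 91) (nat_lit 10) (nat_lit 4) (nat_lit 0),
  SI.mk (nat_lit 92) (nat_lit 7) (nat_lit 5) (nat_lit 0),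
  SI.mk (nat_lit 93) (nat_lit 4) (nat_lit 6) (nat_lit 0),
  SI.mk (nat_lit 87) (nat_lit 12) (nat_lit 0) (nat_lit 1),
  SI.mk (nat_lit 88) (nat_lit 9) (nat_lit 1) (nat_lit 1),
  SI.mk (nat_lit 89) (nat_lit 6) (nat_lit 2) (nat_lit 1),
  SI.mk (nat_lit 90) (nat_lit 3) (nat_lit 3) (nat_lit 1),
  SI.mk (nat_lit 0) (nat_lit 0) (nat_lit 0) (nat_lit 0),
  SI.mk (nat_lit 0) (nat_lit 0) (nat_lit 0) (nat_lit 0),
  SI.mk (nat_lit 0) (nat_lit 0) (nat_lit 0) (nat_lit 0),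
  SI.mk (nat_lit 87) (nat_lit 2) (nat_lit 0) (nat_lit 2)]

def q1_0 : List Nat := [nat_lit 22, nat_lit 21]

def b1_0 : List Nat := [nat_lit 0, nat_lit 15]

def k1_1 : KP := KP.mk (nat_lit 90) (nat_lit 21) (nat_lit 144) (nat_lit 7) (nat_lit 100) [
  SI.mk (nat_lit 89) (nat_lit 21) (nat_lit 0) (nat_lit 0),
  SI.mk (nat_lit 90) (nat_lit 18) (nat_lit 1) (nat_lit 0),
  SI.mk (nat_lit 91) (nat_lit 15) (nat_lit 2) (nat_lit 0),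
  SI.mk (nat_lit 92) (nat_lit 12) (nat_lit 3) (nat_lit 0),
  SI.mk (nat_lit 93) (nat_lit 9) (nat_lit 4) (nat_lit 0),
  SI.mk (nat_lit 94) (nat_lit 6) (nat_lit 5) (nat_lit 0),
  SI.mk (nat_lit 95) (nat_lit 3) (nat_lit 6) (nat_lit 0),
  SI.mk (nat_lit 89) (nat_lit 11) (nat_lit 0) (nat_lit 1),
  SI.mk (nat_lit 90) (nat_lit 8) (nat_lit 1) (nat_lit 1),
  SI.mk (nat_lit 91) (nat_lit 5) (nat_lit 2) (nat_lit 1),
  SI.mk (nat_lit 92) (nat_lit 2) (nat_lit 3) (nat_lit 1),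
  SI.mk (nat_lit 0) (nat_lit 0) (nat_lit 0) (nat_lit 0),
  SI.mk (nat_lit 0) (nat_lit 0) (nat_lit 0) (nat_lit 0),
  SI.mk (nat_lit 0) (nat_lit 0) (nat_lit 0) (nat_lit 0),
  SI.mk (nat_lit 89) (nat_lit 1) (nat_lit 0) (nat_lit 2),
  SI.mk (nat_lit 87) (nat_lit 16) (nat_lit 0) (nat_lit 0),
  SI.mk (nat_lit 88) (nat_lit 13) (nat_lit 1) (nat_lit 0),
  SI.mk (nat_lit 89) (nat_lit 10) (nat_lit 2) (nat_lit 0),
  SI.mk (nat_lit 90) (nat_lit 7) (nat_lit 3) (nat_lit 0),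
  SI.mk (nat_lit 91) (nat_lit 4) (nat_lit 4) (nat_lit 0),
  SI.mk (nat_lit 89) (nat_lit 3) (nat_lit 0) (nat_lit 0),
  SI.mk (nat_lit 0) (nat_lit 0) (nat_lit 0) (nat_lit 0),
  SI.mk (nat_lit 87) (nat_lit 6) (nat_lit 0) (nat_lit 1),
  SI.mk (nat_lit 88) (nat_lit 3) (nat_lit 1) (nat_lit 1)]

def q1_1 : List Nat := [nat_lit 0, nat_lit 0, nat_lit 20, nat_lit 15, nat_lit 2]

def b1_1 : List Nat := [nat_lit 0, nat_lit 0, nat_lit 0, nat_lit 15, nat_lit 20]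

def k2_0 : KP := KP.mk (nat_lit 90) (nat_lit 22) (nat_lit 360) (nat_lit 7) (nat_lit 100) [
  SI.mk (nat_lit 87) (nat_lit 22) (nat_lit 0) (nat_lit 0),
  SI.mk (nat_lit 88) (nat_lit 19) (nat_lit 1) (nat_lit 0),
  SI.mk (nat_lit 89) (nat_lit 16) (nat_lit 2) (nat_lit 0),
  SI.mk (nat_lit 90) (nat_lit 13) (nat_lit 3) (nat_lit 0),
  SI.mk (nat_lit 91) (nat_lit 10) (nat_lit 4) (nat_lit 0),
  SI.mk (nat_lit 92) (nat_lit 7) (nat_lit 5) (nat_lit 0),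
  SI.mk (nat_lit 93) (nat_lit 4) (nat_lit 6) (nat_lit 0),
  SI.mk (nat_lit 87) (nat_lit 12) (nat_lit 0) (nat_lit 1),
  SI.mk (nat_lit 88) (nat_lit 9) (nat_lit 1) (nat_lit 1),
  SI.mk (nat_lit 89) (nat_lit 6) (nat_lit 2) (nat_lit 1),
  SI.mk (nat_lit 90) (nat_lit 3) (nat_lit 3) (nat_lit 1),
  SI.mk (nat_lit 0) (nat_lit 0) (nat_lit 0) (nat_lit 0),
  SI.mk (nat_lit 0) (nat_lit 0) (nat_lit 0) (nat_lit 0),
  SI.mk (nat_lit 0) (nat_lit 0) (nat_lit 0) (nat_lit 0),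
  SI.mk (nat_lit 87) (nat_lit 2) (nat_lit 0) (nat_lit 2),
  SI.mk (nat_lit 89) (nat_lit 22) (nat_lit 0) (nat_lit 0),
  SI.mk (nat_lit 90) (nat_lit 19) (nat_lit 1) (nat_lit 0),
  SI.mk (nat_lit 91) (nat_lit 16) (nat_lit 2) (nat_lit 0),
  SI.mk (nat_lit 92) (nat_lit 13) (nat_lit 3) (nat_lit 0),
  SI.mk (nat_lit 93) (nat_lit 10) (nat_lit 4) (nat_lit 0),
  SI.mk (nat_lit 94) (nat_lit 7) (nat_lit 5) (nat_lit 0),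
  SI.mk (nat_lit 95) (nat_lit 4) (nat_lit 6) (nat_lit 0),
  SI.mk (nat_lit 89) (nat_lit 12) (nat_lit 0) (nat_lit 1),
  SI.mk (nat_lit 90) (nat_lit 9) (nat_lit 1) (nat_lit 1),
  SI.mk (nat_lit 91) (nat_lit 6) (nat_lit 2) (nat_lit 1),
  SI.mk (nat_lit 92) (nat_lit 3) (nat_lit 3) (nat_lit 1),
  SI.mk (nat_lit 0) (nat_lit 0) (nat_lit 0) (nat_lit 0),
  SI.mk (nat_lit 0) (nat_lit 0) (nat_lit 0) (nat_lit 0),
  SI.mk (nat_lit 0) (nat_lit 0) (nat_lit 0) (nat_lit 0),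
  SI.mk (nat_lit 89) (nat_lit 2) (nat_lit 0) (nat_lit 2),
  SI.mk (nat_lit 87) (nat_lit 21) (nat_lit 0) (nat_lit 0),
  SI.mk (nat_lit 88) (nat_lit 18) (nat_lit 1) (nat_lit 0),
  SI.mk (nat_lit 89) (nat_lit 15) (nat_lit 2) (nat_lit 0),
  SI.mk (nat_lit 90) (nat_lit 12) (nat_lit 3) (nat_lit 0),
  SI.mk (nat_lit 91) (nat_lit 9) (nat_lit 4) (nat_lit 0),
  SI.mk (nat_lit 92) (nat_lit 6) (nat_lit 5) (nat_lit 0),
  SI.mk (nat_lit 93) (nat_lit 3) (nat_lit 6) (nat_lit 0),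
  SI.mk (nat_lit 87) (nat_lit 11) (nat_lit 0) (nat_lit 1),
  SI.mk (nat_lit 88) (nat_lit 8) (nat_lit 1) (nat_lit 1),
  SI.mk (nat_lit 89) (nat_lit 5) (nat_lit 2) (nat_lit 1),
  SI.mk (nat_lit 90) (nat_lit 2) (nat_lit 3) (nat_lit 1),
  SI.mk (nat_lit 0) (nat_lit 0) (nat_lit 0) (nat_lit 0),
  SI.mk (nat_lit 0) (nat_lit 0) (nat_lit 0) (nat_lit 0),
  SI.mk (nat_lit 0) (nat_lit 0) (nat_lit 0) (nat_lit 0),
  SI.mk (nat_lit 87) (nat_lit 1) (nat_lit 0) (nat_lit 2),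
  SI.mk (nat_lit 89) (nat_lit 21) (nat_lit 0) (nat_lit 0),
  SI.mk (nat_lit 90) (nat_lit 18) (nat_lit 1) (nat_lit 0),
  SI.mk (nat_lit 91) (nat_lit 15) (nat_lit 2) (nat_lit 0),
  SI.mk (nat_lit 92) (nat_lit 12) (nat_lit 3) (nat_lit 0),
  SI.mk (nat_lit 93) (nat_lit 9) (nat_lit 4) (nat_lit 0),
  SI.mk (nat_lit 94) (nat_lit 6) (nat_lit 5) (nat_lit 0),
  SI.mk (nat_lit 95) (nat_lit 3) (nat_lit 6) (nat_lit 0),
  SI.mk (nat_lit 89) (nat_lit 11) (nat_lit 0) (nat_lit 1),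
  SI.mk (nat_lit 90) (nat_lit 8) (nat_lit 1) (nat_lit 1),
  SI.mk (nat_lit 91) (nat_lit 5) (nat_lit 2) (nat_lit 1),
  SI.mk (nat_lit 92) (nat_lit 2) (nat_lit 3) (nat_lit 1),
  SI.mk (nat_lit 0) (nat_lit 0) (nat_lit 0) (nat_lit 0),
  SI.mk (nat_lit 0) (nat_lit 0) (nat_lit 0) (nat_lit 0),
  SI.mk (nat_lit 0) (nat_lit 0) (nat_lit 0) (nat_lit 0),
  SI.mk (nat_lit 89) (nat_lit 1) (nat_lit 0) (nat_lit 2)]

def q2_0 : List Nat := [nat_lit 21, nat_lit 21, nat_lit 20, nat_lit 20]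

def b2_0 : List Nat := [nat_lit 0, nat_lit 15, nat_lit 30, nat_lit 45]

def k2_1 : KP := KP.mk (nat_lit 90) (nat_lit 21) (nat_lit 444) (nat_lit 7) (nat_lit 101) [
  SI.mk (nat_lit 90) (nat_lit 21) (nat_lit 0) (nat_lit 0),
  SI.mk (nat_lit 91) (nat_lit 18) (nat_lit 1) (nat_lit 0),
  SI.mk (nat_lit 92) (nat_lit 15) (nat_lit 2) (nat_lit 0),
  SI.mk (nat_lit 93) (nat_lit 12) (nat_lit 3) (nat_lit 0),
  SI.mk (nat_lit 94) (nat_lit 9) (nat_lit 4) (nat_lit 0),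
  SI.mk (nat_lit 95) (nat_lit 6) (nat_lit 5) (nat_lit 0),
  SI.mk (nat_lit 96) (nat_lit 3) (nat_lit 6) (nat_lit 0),
  SI.mk (nat_lit 90) (nat_lit 11) (nat_lit 0) (nat_lit 1),
  SI.mk (nat_lit 91) (nat_lit 8) (nat_lit 1) (nat_lit 1),
  SI.mk (nat_lit 92) (nat_lit 5) (nat_lit 2) (nat_lit 1),
  SI.mk (nat_lit 93) (nat_lit 2) (nat_lit 3) (nat_lit 1),
  SI.mk (nat_lit 0) (nat_lit 0) (nat_lit 0) (nat_lit 0),
  SI.mk (nat_lit 0) (nat_lit 0) (nat_lit 0) (nat_lit 0),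
  SI.mk (nat_lit 0) (nat_lit 0) (nat_lit 0) (nat_lit 0),
  SI.mk (nat_lit 90) (nat_lit 1) (nat_lit 0) (nat_lit 2),
  SI.mk (nat_lit 87) (nat_lit 19) (nat_lit 0) (nat_lit 0),
  SI.mk (nat_lit 88) (nat_lit 16) (nat_lit 1) (nat_lit 0),
  SI.mk (nat_lit 89) (nat_lit 13) (nat_lit 2) (nat_lit 0),
  SI.mk (nat_lit 90) (nat_lit 10) (nat_lit 3) (nat_lit 0),
  SI.mk (nat_lit 91) (nat_lit 7) (nat_lit 4) (nat_lit 0),
  SI.mk (nat_lit 92) (nat_lit 4) (nat_lit 5) (nat_lit 0),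
  SI.mk (nat_lit 0) (nat_lit 0) (nat_lit 0) (nat_lit 0),
  SI.mk (nat_lit 87) (nat_lit 9) (nat_lit 0) (nat_lit 1),
  SI.mk (nat_lit 88) (nat_lit 6) (nat_lit 1) (nat_lit 1),
  SI.mk (nat_lit 89) (nat_lit 3) (nat_lit 2) (nat_lit 1),
  SI.mk (nat_lit 89) (nat_lit 18) (nat_lit 0) (nat_lit 0),
  SI.mk (nat_lit 90) (nat_lit 15) (nat_lit 1) (nat_lit 0),
  SI.mk (nat_lit 91) (nat_lit 12) (nat_lit 2) (nat_lit 0),
  SI.mk (nat_lit 92) (nat_lit 9) (nat_lit 3) (nat_lit 0),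
  SI.mk (nat_lit 93) (nat_lit 6) (nat_lit 4) (nat_lit 0),
  SI.mk (nat_lit 94) (nat_lit 3) (nat_lit 5) (nat_lit 0),
  SI.mk (nat_lit 0) (nat_lit 0) (nat_lit 0) (nat_lit 0),
  SI.mk (nat_lit 89) (nat_lit 8) (nat_lit 0) (nat_lit 1),
  SI.mk (nat_lit 90) (nat_lit 5) (nat_lit 1) (nat_lit 1),
  SI.mk (nat_lit 91) (nat_lit 2) (nat_lit 2) (nat_lit 1),
  SI.mk (nat_lit 87) (nat_lit 16) (nat_lit 0) (nat_lit 0),
  SI.mk (nat_lit 88) (nat_lit 13) (nat_lit 1) (nat_lit 0),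
  SI.mk (nat_lit 89) (nat_lit 10) (nat_lit 2) (nat_lit 0),
  SI.mk (nat_lit 90) (nat_lit 7) (nat_lit 3) (nat_lit 0),
  SI.mk (nat_lit 91) (nat_lit 4) (nat_lit 4) (nat_lit 0),
  SI.mk (nat_lit 0) (nat_lit 0) (nat_lit 0) (nat_lit 0),
  SI.mk (nat_lit 0) (nat_lit 0) (nat_lit 0) (nat_lit 0),
  SI.mk (nat_lit 87) (nat_lit 6) (nat_lit 0) (nat_lit 1),
  SI.mk (nat_lit 88) (nat_lit 3) (nat_lit 1) (nat_lit 1),
  SI.mk (nat_lit 88) (nat_lit 16) (nat_lit 0) (nat_lit 0),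
  SI.mk (nat_lit 89) (nat_lit 13) (nat_lit 1) (nat_lit 0),
  SI.mk (nat_lit 90) (nat_lit 10) (nat_lit 2) (nat_lit 0),
  SI.mk (nat_lit 91) (nat_lit 7) (nat_lit 3) (nat_lit 0),
  SI.mk (nat_lit 92) (nat_lit 4) (nat_lit 4) (nat_lit 0),
  SI.mk (nat_lit 0) (nat_lit 0) (nat_lit 0) (nat_lit 0),
  SI.mk (nat_lit 0) (nat_lit 0) (nat_lit 0) (nat_lit 0),
  SI.mk (nat_lit 88) (nat_lit 6) (nat_lit 0) (nat_lit 1),
  SI.mk (nat_lit 89) (nat_lit 3) (nat_lit 1) (nat_lit 1),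
  SI.mk (nat_lit 90) (nat_lit 16) (nat_lit 0) (nat_lit 0),
  SI.mk (nat_lit 91) (nat_lit 13) (nat_lit 1) (nat_lit 0),
  SI.mk (nat_lit 92) (nat_lit 10) (nat_lit 2) (nat_lit 0),
  SI.mk (nat_lit 93) (nat_lit 7) (nat_lit 3) (nat_lit 0),
  SI.mk (nat_lit 94) (nat_lit 4) (nat_lit 4) (nat_lit 0),
  SI.mk (nat_lit 0) (nat_lit 0) (nat_lit 0) (nat_lit 0),
  SI.mk (nat_lit 0) (nat_lit 0) (nat_lit 0) (nat_lit 0),
  SI.mk (nat_lit 90) (nat_lit 6) (nat_lit 0) (nat_lit 1),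
  SI.mk (nat_lit 91) (nat_lit 3) (nat_lit 1) (nat_lit 1),
  SI.mk (nat_lit 89) (nat_lit 12) (nat_lit 0) (nat_lit 0),
  SI.mk (nat_lit 90) (nat_lit 9) (nat_lit 1) (nat_lit 0),
  SI.mk (nat_lit 91) (nat_lit 6) (nat_lit 2) (nat_lit 0),
  SI.mk (nat_lit 92) (nat_lit 3) (nat_lit 3) (nat_lit 0),
  SI.mk (nat_lit 87) (nat_lit 7) (nat_lit 0) (nat_lit 0),
  SI.mk (nat_lit 88) (nat_lit 4) (nat_lit 1) (nat_lit 0),
  SI.mk (nat_lit 89) (nat_lit 1) (nat_lit 2) (nat_lit 0),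
  SI.mk (nat_lit 89) (nat_lit 2) (nat_lit 0) (nat_lit 1),
  SI.mk (nat_lit 89) (nat_lit 3) (nat_lit 0) (nat_lit 0),
  SI.mk (nat_lit 90) (nat_lit 3) (nat_lit 0) (nat_lit 0),
  SI.mk (nat_lit 88) (nat_lit 2) (nat_lit 0) (nat_lit 0),
  SI.mk (nat_lit 90) (nat_lit 1) (nat_lit 0) (nat_lit 0)]

def q2_1 : List Nat := [nat_lit 0, nat_lit 0, nat_lit 0, nat_lit 0, nat_lit 20, nat_lit 18, nat_lit 17, nat_lit 15, nat_lit 15, nat_lit 15, nat_lit 11, nat_lit 6, nat_lit 2, nat_lit 2, nat_lit 1, nat_lit 0]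

def b2_1 : List Nat := [nat_lit 0, nat_lit 0, nat_lit 0, nat_lit 0, nat_lit 0, nat_lit 15, nat_lit 25, nat_lit 35, nat_lit 44, nat_lit 53, nat_lit 62, nat_lit 66, nat_lit 70, nat_lit 71, nat_lit 72, nat_lit 73]

def k3_0 : KP := KP.mk (nat_lit 90) (nat_lit 22) (nat_lit 600) (nat_lit 7) (nat_lit 101) [
  SI.mk (nat_lit 88) (nat_lit 22) (nat_lit 0) (nat_lit 0),
  SI.mk (nat_lit 89) (nat_lit 19) (nat_lit 1) (nat_lit 0),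
  SI.mk (nat_lit 90) (nat_lit 16) (nat_lit 2) (nat_lit 0),
  SI.mk (nat_lit 91) (nat_lit 13) (nat_lit 3) (nat_lit 0),
  SI.mk (nat_lit 92) (nat_lit 10) (nat_lit 4) (nat_lit 0),
  SI.mk (nat_lit 93) (nat_lit 7) (nat_lit 5) (nat_lit 0),
  SI.mk (nat_lit 94) (nat_lit 4) (nat_lit 6) (nat_lit 0),
  SI.mk (nat_lit 88) (nat_lit 12) (nat_lit 0) (nat_lit 1),
  SI.mk (nat_lit 89) (nat_lit 9) (nat_lit 1) (nat_lit 1),
  SI.mk (nat_lit 90) (nat_lit 6) (nat_lit 2) (nat_lit 1),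
  SI.mk (nat_lit 91) (nat_lit 3) (nat_lit 3) (nat_lit 1),
  SI.mk (nat_lit 0) (nat_lit 0) (nat_lit 0) (nat_lit 0),
  SI.mk (nat_lit 0) (nat_lit 0) (nat_lit 0) (nat_lit 0),
  SI.mk (nat_lit 0) (nat_lit 0) (nat_lit 0) (nat_lit 0),
  SI.mk (nat_lit 88) (nat_lit 2) (nat_lit 0) (nat_lit 2),
  SI.mk (nat_lit 90) (nat_lit 22) (nat_lit 0) (nat_lit 0),
  SI.mk (nat_lit 91) (nat_lit 19) (nat_lit 1) (nat_lit 0),
  SI.mk (nat_lit 92) (nat_lit 16) (nat_lit 2) (nat_lit 0),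
  SI.mk (nat_lit 93) (nat_lit 13) (nat_lit 3) (nat_lit 0),
  SI.mk (nat_lit 94) (nat_lit 10) (nat_lit 4) (nat_lit 0),
  SI.mk (nat_lit 95) (nat_lit 7) (nat_lit 5) (nat_lit 0),
  SI.mk (nat_lit 96) (nat_lit 4) (nat_lit 6) (nat_lit 0),
  SI.mk (nat_lit 90) (nat_lit 12) (nat_lit 0) (nat_lit 1),
  SI.mk (nat_lit 91) (nat_lit 9) (nat_lit 1) (nat_lit 1),
  SI.mk (nat_lit 92) (nat_lit 6) (nat_lit 2) (nat_lit 1),
  SI.mk (nat_lit 93) (nat_lit 3) (nat_lit 3) (nat_lit 1),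
  SI.mk (nat_lit 0) (nat_lit 0) (nat_lit 0) (nat_lit 0),
  SI.mk (nat_lit 0) (nat_lit 0) (nat_lit 0) (nat_lit 0),
  SI.mk (nat_lit 0) (nat_lit 0) (nat_lit 0) (nat_lit 0),
  SI.mk (nat_lit 90) (nat_lit 2) (nat_lit 0) (nat_lit 2),
  SI.mk (nat_lit 88) (nat_lit 21) (nat_lit 0) (nat_lit 0),
  SI.mk (nat_lit 89) (nat_lit 18) (nat_lit 1) (nat_lit 0),
  SI.mk (nat_lit 90) (nat_lit 15) (nat_lit 2) (nat_lit 0),
  SI.mk (nat_lit 91) (nat_lit 12) (nat_lit 3) (nat_lit 0),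
  SI.mk (nat_lit 92) (nat_lit 9) (nat_lit 4) (nat_lit 0),
  SI.mk (nat_lit 93) (nat_lit 6) (nat_lit 5) (nat_lit 0),
  SI.mk (nat_lit 94) (nat_lit 3) (nat_lit 6) (nat_lit 0),
  SI.mk (nat_lit 88) (nat_lit 11) (nat_lit 0) (nat_lit 1),
  SI.mk (nat_lit 89) (nat_lit 8) (nat_lit 1) (nat_lit 1),
  SI.mk (nat_lit 90) (nat_lit 5) (nat_lit 2) (nat_lit 1),
  SI.mk (nat_lit 91) (nat_lit 2) (nat_lit 3) (nat_lit 1),
  SI.mk (nat_lit 0) (nat_lit 0) (nat_lit 0) (nat_lit 0),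
  SI.mk (nat_lit 0) (nat_lit 0) (nat_lit 0) (nat_lit 0),
  SI.mk (nat_lit 0) (nat_lit 0) (nat_lit 0) (nat_lit 0),
  SI.mk (nat_lit 88) (nat_lit 1) (nat_lit 0) (nat_lit 2),
  SI.mk (nat_lit 90) (nat_lit 21) (nat_lit 0) (nat_lit 0),
  SI.mk (nat_lit 91) (nat_lit 18) (nat_lit 1) (nat_lit 0),
  SI.mk (nat_lit 92) (nat_lit 15) (nat_lit 2) (nat_lit 0),
  SI.mk (nat_lit 93) (nat_lit 12) (nat_lit 3) (nat_lit 0),
  SI.mk (nat_lit 94) (nat_lit 9) (nat_lit 4) (nat_lit 0),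
  SI.mk (nat_lit 95) (nat_lit 6) (nat_lit 5) (nat_lit 0),
  SI.mk (nat_lit 96) (nat_lit 3) (nat_lit 6) (nat_lit 0),
  SI.mk (nat_lit 90) (nat_lit 11) (nat_lit 0) (nat_lit 1),
  SI.mk (nat_lit 91) (nat_lit 8) (nat_lit 1) (nat_lit 1),
  SI.mk (nat_lit 92) (nat_lit 5) (nat_lit 2) (nat_lit 1),
  SI.mk (nat_lit 93) (nat_lit 2) (nat_lit 3) (nat_lit 1),
  SI.mk (nat_lit 0) (nat_lit 0) (nat_lit 0) (nat_lit 0),
  SI.mk (nat_lit 0) (nat_lit 0) (nat_lit 0) (nat_lit 0),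
  SI.mk (nat_lit 0) (nat_lit 0) (nat_lit 0) (nat_lit 0),
  SI.mk (nat_lit 90) (nat_lit 1) (nat_lit 0) (nat_lit 2),
  SI.mk (nat_lit 88) (nat_lit 20) (nat_lit 0) (nat_lit 0),
  SI.mk (nat_lit 89) (nat_lit 17) (nat_lit 1) (nat_lit 0),
  SI.mk (nat_lit 90) (nat_lit 14) (nat_lit 2) (nat_lit 0),
  SI.mk (nat_lit 91) (nat_lit 11) (nat_lit 3) (nat_lit 0),
  SI.mk (nat_lit 92) (nat_lit 8) (nat_lit 4) (nat_lit 0),
  SI.mk (nat_lit 93) (nat_lit 5) (nat_lit 5) (nat_lit 0),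
  SI.mk (nat_lit 94) (nat_lit 2) (nat_lit 6) (nat_lit 0),
  SI.mk (nat_lit 88) (nat_lit 10) (nat_lit 0) (nat_lit 1),
  SI.mk (nat_lit 89) (nat_lit 7) (nat_lit 1) (nat_lit 1),
  SI.mk (nat_lit 90) (nat_lit 4) (nat_lit 2) (nat_lit 1),
  SI.mk (nat_lit 87) (nat_lit 19) (nat_lit 0) (nat_lit 0),
  SI.mk (nat_lit 88) (nat_lit 16) (nat_lit 1) (nat_lit 0),
  SI.mk (nat_lit 89) (nat_lit 13) (nat_lit 2) (nat_lit 0),
  SI.mk (nat_lit 90) (nat_lit 10) (nat_lit 3) (nat_lit 0),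
  SI.mk (nat_lit 91) (nat_lit 7) (nat_lit 4) (nat_lit 0),
  SI.mk (nat_lit 92) (nat_lit 4) (nat_lit 5) (nat_lit 0),
  SI.mk (nat_lit 0) (nat_lit 0) (nat_lit 0) (nat_lit 0),
  SI.mk (nat_lit 87) (nat_lit 9) (nat_lit 0) (nat_lit 1),
  SI.mk (nat_lit 88) (nat_lit 6) (nat_lit 1) (nat_lit 1),
  SI.mk (nat_lit 89) (nat_lit 3) (nat_lit 2) (nat_lit 1),
  SI.mk (nat_lit 90) (nat_lit 19) (nat_lit 0) (nat_lit 0),
  SI.mk (nat_lit 91) (nat_lit 16) (nat_lit 1) (nat_lit 0),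
  SI.mk (nat_lit 92) (nat_lit 13) (nat_lit 2) (nat_lit 0),
  SI.mk (nat_lit 93) (nat_lit 10) (nat_lit 3) (nat_lit 0),
  SI.mk (nat_lit 94) (nat_lit 7) (nat_lit 4) (nat_lit 0),
  SI.mk (nat_lit 95) (nat_lit 4) (nat_lit 5) (nat_lit 0),
  SI.mk (nat_lit 0) (nat_lit 0) (nat_lit 0) (nat_lit 0),
  SI.mk (nat_lit 90) (nat_lit 9) (nat_lit 0) (nat_lit 1),
  SI.mk (nat_lit 91) (nat_lit 6) (nat_lit 1) (nat_lit 1),
  SI.mk (nat_lit 92) (nat_lit 3) (nat_lit 2) (nat_lit 1),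
  SI.mk (nat_lit 89) (nat_lit 18) (nat_lit 0) (nat_lit 0),
  SI.mk (nat_lit 90) (nat_lit 15) (nat_lit 1) (nat_lit 0),
  SI.mk (nat_lit 91) (nat_lit 12) (nat_lit 2) (nat_lit 0),
  SI.mk (nat_lit 92) (nat_lit 9) (nat_lit 3) (nat_lit 0),
  SI.mk (nat_lit 93) (nat_lit 6) (nat_lit 4) (nat_lit 0),
  SI.mk (nat_lit 94) (nat_lit 3) (nat_lit 5) (nat_lit 0),
  SI.mk (nat_lit 0) (nat_lit 0) (nat_lit 0) (nat_lit 0),
  SI.mk (nat_lit 89) (nat_lit 8) (nat_lit 0) (nat_lit 1),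
  SI.mk (nat_lit 90) (nat_lit 5) (nat_lit 1) (nat_lit 1),
  SI.mk (nat_lit 91) (nat_lit 2) (nat_lit 2) (nat_lit 1)]

def q3_0 : List Nat := [nat_lit 21, nat_lit 21, nat_lit 20, nat_lit 20, nat_lit 19, nat_lit 18, nat_lit 18, nat_lit 17]

def b3_0 : List Nat := [nat_lit 0, nat_lit 15, nat_lit 30, nat_lit 45, nat_lit 60, nat_lit 70, nat_lit 80, nat_lit 90]

def k3_1 : KP := KP.mk (nat_lit 90) (nat_lit 17) (nat_lit 582) (nat_lit 50) (nat_lit 99) [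
  SI.mk (nat_lit 87) (nat_lit 17) (nat_lit 0) (nat_lit 0),
  SI.mk (nat_lit 88) (nat_lit 14) (nat_lit 1) (nat_lit 0),
  SI.mk (nat_lit 89) (nat_lit 11) (nat_lit 2) (nat_lit 0),
  SI.mk (nat_lit 90) (nat_lit 8) (nat_lit 3) (nat_lit 0),
  SI.mk (nat_lit 91) (nat_lit 5) (nat_lit 4) (nat_lit 0),
  SI.mk (nat_lit 92) (nat_lit 2) (nat_lit 5) (nat_lit 0),
  SI.mk (nat_lit 88) (nat_lit 17) (nat_lit 0) (nat_lit 0),
  SI.mk (nat_lit 89) (nat_lit 14) (nat_lit 1) (nat_lit 0),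
  SI.mk (nat_lit 90) (nat_lit 11) (nat_lit 2) (nat_lit 0),
  SI.mk (nat_lit 91) (nat_lit 8) (nat_lit 3) (nat_lit 0),
  SI.mk (nat_lit 92) (nat_lit 5) (nat_lit 4) (nat_lit 0),
  SI.mk (nat_lit 93) (nat_lit 2) (nat_lit 5) (nat_lit 0),
  SI.mk (nat_lit 88) (nat_lit 16) (nat_lit 0) (nat_lit 0),
  SI.mk (nat_lit 89) (nat_lit 13) (nat_lit 1) (nat_lit 0),
  SI.mk (nat_lit 90) (nat_lit 10) (nat_lit 2) (nat_lit 0),
  SI.mk (nat_lit 91) (nat_lit 7) (nat_lit 3) (nat_lit 0),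
  SI.mk (nat_lit 92) (nat_lit 4) (nat_lit 4) (nat_lit 0),
  SI.mk (nat_lit 90) (nat_lit 16) (nat_lit 0) (nat_lit 0),
  SI.mk (nat_lit 91) (nat_lit 13) (nat_lit 1) (nat_lit 0),
  SI.mk (nat_lit 92) (nat_lit 10) (nat_lit 2) (nat_lit 0),
  SI.mk (nat_lit 93) (nat_lit 7) (nat_lit 3) (nat_lit 0),
  SI.mk (nat_lit 94) (nat_lit 4) (nat_lit 4) (nat_lit 0),
  SI.mk (nat_lit 90) (nat_lit 16) (nat_lit 0) (nat_lit 0),
  SI.mk (nat_lit 91) (nat_lit 13) (nat_lit 1) (nat_lit 0),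
  SI.mk (nat_lit 92) (nat_lit 10) (nat_lit 2) (nat_lit 0),
  SI.mk (nat_lit 93) (nat_lit 7) (nat_lit 3) (nat_lit 0),
  SI.mk (nat_lit 94) (nat_lit 4) (nat_lit 4) (nat_lit 0),
  SI.mk (nat_lit 88) (nat_lit 15) (nat_lit 0) (nat_lit 0),
  SI.mk (nat_lit 89) (nat_lit 12) (nat_lit 1) (nat_lit 0),
  SI.mk (nat_lit 90) (nat_lit 9) (nat_lit 2) (nat_lit 0),
  SI.mk (nat_lit 91) (nat_lit 6) (nat_lit 3) (nat_lit 0),
  SI.mk (nat_lit 92) (nat_lit 3) (nat_lit 4) (nat_lit 0),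
  SI.mk (nat_lit 90) (nat_lit 15) (nat_lit 0) (nat_lit 0),
  SI.mk (nat_lit 91) (nat_lit 12) (nat_lit 1) (nat_lit 0),
  SI.mk (nat_lit 92) (nat_lit 9) (nat_lit 2) (nat_lit 0),
  SI.mk (nat_lit 93) (nat_lit 6) (nat_lit 3) (nat_lit 0),
  SI.mk (nat_lit 94) (nat_lit 3) (nat_lit 4) (nat_lit 0),
  SI.mk (nat_lit 88) (nat_lit 14) (nat_lit 0) (nat_lit 0),
  SI.mk (nat_lit 89) (nat_lit 11) (nat_lit 1) (nat_lit 0),
  SI.mk (nat_lit 90) (nat_lit 8) (nat_lit 2) (nat_lit 0),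
  SI.mk (nat_lit 91) (nat_lit 5) (nat_lit 3) (nat_lit 0),
  SI.mk (nat_lit 92) (nat_lit 2) (nat_lit 4) (nat_lit 0),
  SI.mk (nat_lit 89) (nat_lit 12) (nat_lit 0) (nat_lit 0),
  SI.mk (nat_lit 90) (nat_lit 9) (nat_lit 1) (nat_lit 0),
  SI.mk (nat_lit 91) (nat_lit 6) (nat_lit 2) (nat_lit 0),
  SI.mk (nat_lit 92) (nat_lit 3) (nat_lit 3) (nat_lit 0),
  SI.mk (nat_lit 90) (nat_lit 12) (nat_lit 0) (nat_lit 0),
  SI.mk (nat_lit 91) (nat_lit 9) (nat_lit 1) (nat_lit 0),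
  SI.mk (nat_lit 92) (nat_lit 6) (nat_lit 2) (nat_lit 0),
  SI.mk (nat_lit 93) (nat_lit 3) (nat_lit 3) (nat_lit 0),
  SI.mk (nat_lit 87) (nat_lit 7) (nat_lit 0) (nat_lit 1),
  SI.mk (nat_lit 88) (nat_lit 4) (nat_lit 1) (nat_lit 1),
  SI.mk (nat_lit 89) (nat_lit 1) (nat_lit 2) (nat_lit 1),
  SI.mk (nat_lit 90) (nat_lit 10) (nat_lit 0) (nat_lit 0),
  SI.mk (nat_lit 91) (nat_lit 7) (nat_lit 1) (nat_lit 0),
  SI.mk (nat_lit 92) (nat_lit 4) (nat_lit 2) (nat_lit 0),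
  SI.mk (nat_lit 88) (nat_lit 7) (nat_lit 0) (nat_lit 1),
  SI.mk (nat_lit 89) (nat_lit 4) (nat_lit 1) (nat_lit 1),
  SI.mk (nat_lit 90) (nat_lit 1) (nat_lit 2) (nat_lit 1),
  SI.mk (nat_lit 89) (nat_lit 8) (nat_lit 0) (nat_lit 0),
  SI.mk (nat_lit 90) (nat_lit 5) (nat_lit 1) (nat_lit 0),
  SI.mk (nat_lit 91) (nat_lit 2) (nat_lit 2) (nat_lit 0),
  SI.mk (nat_lit 88) (nat_lit 6) (nat_lit 0) (nat_lit 1),
  SI.mk (nat_lit 89) (nat_lit 3) (nat_lit 1) (nat_lit 1),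
  SI.mk (nat_lit 87) (nat_lit 7) (nat_lit 0) (nat_lit 0),
  SI.mk (nat_lit 88) (nat_lit 4) (nat_lit 1) (nat_lit 0),
  SI.mk (nat_lit 89) (nat_lit 1) (nat_lit 2) (nat_lit 0),
  SI.mk (nat_lit 90) (nat_lit 6) (nat_lit 0) (nat_lit 1),
  SI.mk (nat_lit 91) (nat_lit 3) (nat_lit 1) (nat_lit 1),
  SI.mk (nat_lit 88) (nat_lit 7) (nat_lit 0) (nat_lit 0),
  SI.mk (nat_lit 89) (nat_lit 4) (nat_lit 1) (nat_lit 0),
  SI.mk (nat_lit 90) (nat_lit 1) (nat_lit 2) (nat_lit 0),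
  SI.mk (nat_lit 90) (nat_lit 6) (nat_lit 0) (nat_lit 1),
  SI.mk (nat_lit 91) (nat_lit 3) (nat_lit 1) (nat_lit 1),
  SI.mk (nat_lit 89) (nat_lit 6) (nat_lit 0) (nat_lit 0),
  SI.mk (nat_lit 90) (nat_lit 3) (nat_lit 1) (nat_lit 0),
  SI.mk (nat_lit 0) (nat_lit 0) (nat_lit 0) (nat_lit 0),
  SI.mk (nat_lit 88) (nat_lit 5) (nat_lit 0) (nat_lit 1),
  SI.mk (nat_lit 89) (nat_lit 2) (nat_lit 1) (nat_lit 1),
  SI.mk (nat_lit 88) (nat_lit 5) (nat_lit 0) (nat_lit 0),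
  SI.mk (nat_lit 89) (nat_lit 2) (nat_lit 1) (nat_lit 0),
  SI.mk (nat_lit 90) (nat_lit 3) (nat_lit 0) (nat_lit 0),
  SI.mk (nat_lit 90) (nat_lit 5) (nat_lit 0) (nat_lit 1),
  SI.mk (nat_lit 91) (nat_lit 2) (nat_lit 1) (nat_lit 1),
  SI.mk (nat_lit 88) (nat_lit 2) (nat_lit 0) (nat_lit 0),
  SI.mk (nat_lit 88) (nat_lit 2) (nat_lit 0) (nat_lit 0),
  SI.mk (nat_lit 90) (nat_lit 2) (nat_lit 0) (nat_lit 0),
  SI.mk (nat_lit 88) (nat_lit 4) (nat_lit 0) (nat_lit 1),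
  SI.mk (nat_lit 89) (nat_lit 1) (nat_lit 1) (nat_lit 1),
  SI.mk (nat_lit 88) (nat_lit 1) (nat_lit 0) (nat_lit 0),
  SI.mk (nat_lit 90) (nat_lit 1) (nat_lit 0) (nat_lit 0),
  SI.mk (nat_lit 90) (nat_lit 1) (nat_lit 0) (nat_lit 0),
  SI.mk (nat_lit 89) (nat_lit 2) (nat_lit 0) (nat_lit 1),
  SI.mk (nat_lit 0) (nat_lit 0) (nat_lit 0) (nat_lit 0),
  SI.mk (nat_lit 0) (nat_lit 0) (nat_lit 0) (nat_lit 0),
  SI.mk (nat_lit 0) (nat_lit 0) (nat_lit 0) (nat_lit 0),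
  SI.mk (nat_lit 90) (nat_lit 2) (nat_lit 0) (nat_lit 1)]

def q3_1 : List Nat := [nat_lit 0, nat_lit 0, nat_lit 0, nat_lit 0, nat_lit 0, nat_lit 0, nat_lit 0, nat_lit 0, nat_lit 16, nat_lit 16, nat_lit 15, nat_lit 15, nat_lit 15, nat_lit 14, nat_lit 14, nat_lit 13, nat_lit 11, nat_lit 11, nat_lit 9, nat_lit 7, nat_lit 6, nat_lit 6, nat_lit 5, nat_lit 4, nat_lit 2, nat_lit 1, nat_lit 1, nat_lit 1, nat_lit 0, nat_lit 0, nat_lit 0]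

def b3_1 : List Nat := [nat_lit 0, nat_lit 0, nat_lit 0, nat_lit 0, nat_lit 0, nat_lit 0, nat_lit 0, nat_lit 0, nat_lit 0, nat_lit 6, nat_lit 12, nat_lit 17, nat_lit 22, nat_lit 27, nat_lit 32, nat_lit 37, nat_lit 42, nat_lit 46, nat_lit 53, nat_lit 59, nat_lit 64, nat_lit 69, nat_lit 74, nat_lit 79, nat_lit 81, nat_lit 84, nat_lit 85, nat_lit 86, nat_lit 89, nat_lit 90, nat_lit 91]

def k4_0 : KP := KP.mk (nat_lit 90) (nat_lit 22) (nat_lit 690) (nat_lit 7) (nat_lit 101) [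
  SI.mk (nat_lit 90) (nat_lit 22) (nat_lit 0) (nat_lit 0),
  SI.mk (nat_lit 91) (nat_lit 19) (nat_lit 1) (nat_lit 0),
  SI.mk (nat_lit 92) (nat_lit 16) (nat_lit 2) (nat_lit 0),
  SI.mk (nat_lit 93) (nat_lit 13) (nat_lit 3) (nat_lit 0),
  SI.mk (nat_lit 94) (nat_lit 10) (nat_lit 4) (nat_lit 0),
  SI.mk (nat_lit 95) (nat_lit 7) (nat_lit 5) (nat_lit 0),
  SI.mk (nat_lit 96) (nat_lit 4) (nat_lit 6) (nat_lit 0),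
  SI.mk (nat_lit 90) (nat_lit 12) (nat_lit 0) (nat_lit 1),
  SI.mk (nat_lit 91) (nat_lit 9) (nat_lit 1) (nat_lit 1),
  SI.mk (nat_lit 92) (nat_lit 6) (nat_lit 2) (nat_lit 1),
  SI.mk (nat_lit 93) (nat_lit 3) (nat_lit 3) (nat_lit 1),
  SI.mk (nat_lit 0) (nat_lit 0) (nat_lit 0) (nat_lit 0),
  SI.mk (nat_lit 0) (nat_lit 0) (nat_lit 0) (nat_lit 0),
  SI.mk (nat_lit 0) (nat_lit 0) (nat_lit 0) (nat_lit 0),
  SI.mk (nat_lit 90) (nat_lit 2) (nat_lit 0) (nat_lit 2),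
  SI.mk (nat_lit 88) (nat_lit 21) (nat_lit 0) (nat_lit 0),
  SI.mk (nat_lit 89) (nat_lit 18) (nat_lit 1) (nat_lit 0),
  SI.mk (nat_lit 90) (nat_lit 15) (nat_lit 2) (nat_lit 0),
  SI.mk (nat_lit 91) (nat_lit 12) (nat_lit 3) (nat_lit 0),
  SI.mk (nat_lit 92) (nat_lit 9) (nat_lit 4) (nat_lit 0),
  SI.mk (nat_lit 93) (nat_lit 6) (nat_lit 5) (nat_lit 0),
  SI.mk (nat_lit 94) (nat_lit 3) (nat_lit 6) (nat_lit 0),
  SI.mk (nat_lit 88) (nat_lit 11) (nat_lit 0) (nat_lit 1),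
  SI.mk (nat_lit 89) (nat_lit 8) (nat_lit 1) (nat_lit 1),
  SI.mk (nat_lit 90) (nat_lit 5) (nat_lit 2) (nat_lit 1),
  SI.mk (nat_lit 91) (nat_lit 2) (nat_lit 3) (nat_lit 1),
  SI.mk (nat_lit 0) (nat_lit 0) (nat_lit 0) (nat_lit 0),
  SI.mk (nat_lit 0) (nat_lit 0) (nat_lit 0) (nat_lit 0),
  SI.mk (nat_lit 0) (nat_lit 0) (nat_lit 0) (nat_lit 0),
  SI.mk (nat_lit 88) (nat_lit 1) (nat_lit 0) (nat_lit 2),
  SI.mk (nat_lit 90) (nat_lit 21) (nat_lit 0) (nat_lit 0),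
  SI.mk (nat_lit 91) (nat_lit 18) (nat_lit 1) (nat_lit 0),
  SI.mk (nat_lit 92) (nat_lit 15) (nat_lit 2) (nat_lit 0),
  SI.mk (nat_lit 93) (nat_lit 12) (nat_lit 3) (nat_lit 0),
  SI.mk (nat_lit 94) (nat_lit 9) (nat_lit 4) (nat_lit 0),
  SI.mk (nat_lit 95) (nat_lit 6) (nat_lit 5) (nat_lit 0),
  SI.mk (nat_lit 96) (nat_lit 3) (nat_lit 6) (nat_lit 0),
  SI.mk (nat_lit 90) (nat_lit 11) (nat_lit 0) (nat_lit 1),
  SI.mk (nat_lit 91) (nat_lit 8) (nat_lit 1) (nat_lit 1),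
  SI.mk (nat_lit 92) (nat_lit 5) (nat_lit 2) (nat_lit 1),
  SI.mk (nat_lit 93) (nat_lit 2) (nat_lit 3) (nat_lit 1),
  SI.mk (nat_lit 0) (nat_lit 0) (nat_lit 0) (nat_lit 0),
  SI.mk (nat_lit 0) (nat_lit 0) (nat_lit 0) (nat_lit 0),
  SI.mk (nat_lit 0) (nat_lit 0) (nat_lit 0) (nat_lit 0),
  SI.mk (nat_lit 90) (nat_lit 1) (nat_lit 0) (nat_lit 2),
  SI.mk (nat_lit 88) (nat_lit 20) (nat_lit 0) (nat_lit 0),
  SI.mk (nat_lit 89) (nat_lit 17) (nat_lit 1) (nat_lit 0),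
  SI.mk (nat_lit 90) (nat_lit 14) (nat_lit 2) (nat_lit 0),
  SI.mk (nat_lit 91) (nat_lit 11) (nat_lit 3) (nat_lit 0),
  SI.mk (nat_lit 92) (nat_lit 8) (nat_lit 4) (nat_lit 0),
  SI.mk (nat_lit 93) (nat_lit 5) (nat_lit 5) (nat_lit 0),
  SI.mk (nat_lit 94) (nat_lit 2) (nat_lit 6) (nat_lit 0),
  SI.mk (nat_lit 88) (nat_lit 10) (nat_lit 0) (nat_lit 1),
  SI.mk (nat_lit 89) (nat_lit 7) (nat_lit 1) (nat_lit 1),
  SI.mk (nat_lit 90) (nat_lit 4) (nat_lit 2) (nat_lit 1),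
  SI.mk (nat_lit 90) (nat_lit 20) (nat_lit 0) (nat_lit 0),
  SI.mk (nat_lit 91) (nat_lit 17) (nat_lit 1) (nat_lit 0),
  SI.mk (nat_lit 92) (nat_lit 14) (nat_lit 2) (nat_lit 0),
  SI.mk (nat_lit 93) (nat_lit 11) (nat_lit 3) (nat_lit 0),
  SI.mk (nat_lit 94) (nat_lit 8) (nat_lit 4) (nat_lit 0),
  SI.mk (nat_lit 95) (nat_lit 5) (nat_lit 5) (nat_lit 0),
  SI.mk (nat_lit 0) (nat_lit 0) (nat_lit 0) (nat_lit 0),
  SI.mk (nat_lit 90) (nat_lit 10) (nat_lit 0) (nat_lit 1),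
  SI.mk (nat_lit 91) (nat_lit 7) (nat_lit 1) (nat_lit 1),
  SI.mk (nat_lit 92) (nat_lit 4) (nat_lit 2) (nat_lit 1),
  SI.mk (nat_lit 88) (nat_lit 19) (nat_lit 0) (nat_lit 0),
  SI.mk (nat_lit 89) (nat_lit 16) (nat_lit 1) (nat_lit 0),
  SI.mk (nat_lit 90) (nat_lit 13) (nat_lit 2) (nat_lit 0),
  SI.mk (nat_lit 91) (nat_lit 10) (nat_lit 3) (nat_lit 0),
  SI.mk (nat_lit 92) (nat_lit 7) (nat_lit 4) (nat_lit 0),
  SI.mk (nat_lit 93) (nat_lit 4) (nat_lit 5) (nat_lit 0),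
  SI.mk (nat_lit 0) (nat_lit 0) (nat_lit 0) (nat_lit 0),
  SI.mk (nat_lit 88) (nat_lit 9) (nat_lit 0) (nat_lit 1),
  SI.mk (nat_lit 89) (nat_lit 6) (nat_lit 1) (nat_lit 1),
  SI.mk (nat_lit 90) (nat_lit 3) (nat_lit 2) (nat_lit 1),
  SI.mk (nat_lit 90) (nat_lit 19) (nat_lit 0) (nat_lit 0),
  SI.mk (nat_lit 91) (nat_lit 16) (nat_lit 1) (nat_lit 0),
  SI.mk (nat_lit 92) (nat_lit 13) (nat_lit 2) (nat_lit 0),
  SI.mk (nat_lit 93) (nat_lit 10) (nat_lit 3) (nat_lit 0),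
  SI.mk (nat_lit 94) (nat_lit 7) (nat_lit 4) (nat_lit 0),
  SI.mk (nat_lit 95) (nat_lit 4) (nat_lit 5) (nat_lit 0),
  SI.mk (nat_lit 0) (nat_lit 0) (nat_lit 0) (nat_lit 0),
  SI.mk (nat_lit 90) (nat_lit 9) (nat_lit 0) (nat_lit 1),
  SI.mk (nat_lit 91) (nat_lit 6) (nat_lit 1) (nat_lit 1),
  SI.mk (nat_lit 92) (nat_lit 3) (nat_lit 2) (nat_lit 1),
  SI.mk (nat_lit 90) (nat_lit 18) (nat_lit 0) (nat_lit 0),
  SI.mk (nat_lit 91) (nat_lit 15) (nat_lit 1) (nat_lit 0),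
  SI.mk (nat_lit 92) (nat_lit 12) (nat_lit 2) (nat_lit 0),
  SI.mk (nat_lit 93) (nat_lit 9) (nat_lit 3) (nat_lit 0),
  SI.mk (nat_lit 94) (nat_lit 6) (nat_lit 4) (nat_lit 0),
  SI.mk (nat_lit 95) (nat_lit 3) (nat_lit 5) (nat_lit 0),
  SI.mk (nat_lit 0) (nat_lit 0) (nat_lit 0) (nat_lit 0),
  SI.mk (nat_lit 90) (nat_lit 8) (nat_lit 0) (nat_lit 1),
  SI.mk (nat_lit 91) (nat_lit 5) (nat_lit 1) (nat_lit 1),
  SI.mk (nat_lit 92) (nat_lit 2) (nat_lit 2) (nat_lit 1),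
  SI.mk (nat_lit 88) (nat_lit 17) (nat_lit 0) (nat_lit 0),
  SI.mk (nat_lit 89) (nat_lit 14) (nat_lit 1) (nat_lit 0),
  SI.mk (nat_lit 90) (nat_lit 11) (nat_lit 2) (nat_lit 0),
  SI.mk (nat_lit 91) (nat_lit 8) (nat_lit 3) (nat_lit 0),
  SI.mk (nat_lit 92) (nat_lit 5) (nat_lit 4) (nat_lit 0),
  SI.mk (nat_lit 93) (nat_lit 2) (nat_lit 5) (nat_lit 0),
  SI.mk (nat_lit 0) (nat_lit 0) (nat_lit 0) (nat_lit 0),
  SI.mk (nat_lit 88) (nat_lit 7) (nat_lit 0) (nat_lit 1),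
  SI.mk (nat_lit 89) (nat_lit 4) (nat_lit 1) (nat_lit 1),
  SI.mk (nat_lit 90) (nat_lit 1) (nat_lit 2) (nat_lit 1),
  SI.mk (nat_lit 88) (nat_lit 17) (nat_lit 0) (nat_lit 0),
  SI.mk (nat_lit 89) (nat_lit 14) (nat_lit 1) (nat_lit 0),
  SI.mk (nat_lit 90) (nat_lit 11) (nat_lit 2) (nat_lit 0),
  SI.mk (nat_lit 91) (nat_lit 8) (nat_lit 3) (nat_lit 0),
  SI.mk (nat_lit 92) (nat_lit 5) (nat_lit 4) (nat_lit 0),
  SI.mk (nat_lit 93) (nat_lit 2) (nat_lit 5) (nat_lit 0),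
  SI.mk (nat_lit 0) (nat_lit 0) (nat_lit 0) (nat_lit 0),
  SI.mk (nat_lit 88) (nat_lit 7) (nat_lit 0) (nat_lit 1),
  SI.mk (nat_lit 89) (nat_lit 4) (nat_lit 1) (nat_lit 1),
  SI.mk (nat_lit 90) (nat_lit 1) (nat_lit 2) (nat_lit 1)]

def q4_0 : List Nat := [nat_lit 21, nat_lit 20, nat_lit 20, nat_lit 19, nat_lit 19, nat_lit 18, nat_lit 18, nat_lit 17, nat_lit 16, nat_lit 16]

def b4_0 : List Nat := [nat_lit 0, nat_lit 15, nat_lit 30, nat_lit 45, nat_lit 55, nat_lit 65, nat_lit 75, nat_lit 85, nat_lit 95, nat_lit 105]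

def k4_1 : KP := KP.mk (nat_lit 90) (nat_lit 16) (nat_lit 660) (nat_lit 5) (nat_lit 99) [
  SI.mk (nat_lit 90) (nat_lit 16) (nat_lit 0) (nat_lit 0),
  SI.mk (nat_lit 91) (nat_lit 13) (nat_lit 1) (nat_lit 0),
  SI.mk (nat_lit 92) (nat_lit 10) (nat_lit 2) (nat_lit 0),
  SI.mk (nat_lit 93) (nat_lit 7) (nat_lit 3) (nat_lit 0),
  SI.mk (nat_lit 94) (nat_lit 4) (nat_lit 4) (nat_lit 0),
  SI.mk (nat_lit 90) (nat_lit 6) (nat_lit 0) (nat_lit 1),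
  SI.mk (nat_lit 91) (nat_lit 3) (nat_lit 1) (nat_lit 1),
  SI.mk (nat_lit 90) (nat_lit 16) (nat_lit 0) (nat_lit 0),
  SI.mk (nat_lit 91) (nat_lit 13) (nat_lit 1) (nat_lit 0),
  SI.mk (nat_lit 92) (nat_lit 10) (nat_lit 2) (nat_lit 0),
  SI.mk (nat_lit 93) (nat_lit 7) (nat_lit 3) (nat_lit 0),
  SI.mk (nat_lit 94) (nat_lit 4) (nat_lit 4) (nat_lit 0),
  SI.mk (nat_lit 90) (nat_lit 6) (nat_lit 0) (nat_lit 1),
  SI.mk (nat_lit 91) (nat_lit 3) (nat_lit 1) (nat_lit 1),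
  SI.mk (nat_lit 87) (nat_lit 15) (nat_lit 0) (nat_lit 0),
  SI.mk (nat_lit 88) (nat_lit 12) (nat_lit 1) (nat_lit 0),
  SI.mk (nat_lit 89) (nat_lit 9) (nat_lit 2) (nat_lit 0),
  SI.mk (nat_lit 90) (nat_lit 6) (nat_lit 3) (nat_lit 0),
  SI.mk (nat_lit 91) (nat_lit 3) (nat_lit 4) (nat_lit 0),
  SI.mk (nat_lit 87) (nat_lit 5) (nat_lit 0) (nat_lit 1),
  SI.mk (nat_lit 88) (nat_lit 2) (nat_lit 1) (nat_lit 1),
  SI.mk (nat_lit 88) (nat_lit 15) (nat_lit 0) (nat_lit 0),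
  SI.mk (nat_lit 89) (nat_lit 12) (nat_lit 1) (nat_lit 0),
  SI.mk (nat_lit 90) (nat_lit 9) (nat_lit 2) (nat_lit 0),
  SI.mk (nat_lit 91) (nat_lit 6) (nat_lit 3) (nat_lit 0),
  SI.mk (nat_lit 92) (nat_lit 3) (nat_lit 4) (nat_lit 0),
  SI.mk (nat_lit 88) (nat_lit 5) (nat_lit 0) (nat_lit 1),
  SI.mk (nat_lit 89) (nat_lit 2) (nat_lit 1) (nat_lit 1),
  SI.mk (nat_lit 89) (nat_lit 15) (nat_lit 0) (nat_lit 0),
  SI.mk (nat_lit 90) (nat_lit 12) (nat_lit 1) (nat_lit 0),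
  SI.mk (nat_lit 91) (nat_lit 9) (nat_lit 2) (nat_lit 0),
  SI.mk (nat_lit 92) (nat_lit 6) (nat_lit 3) (nat_lit 0),
  SI.mk (nat_lit 93) (nat_lit 3) (nat_lit 4) (nat_lit 0),
  SI.mk (nat_lit 89) (nat_lit 5) (nat_lit 0) (nat_lit 1),
  SI.mk (nat_lit 90) (nat_lit 2) (nat_lit 1) (nat_lit 1),
  SI.mk (nat_lit 87) (nat_lit 14) (nat_lit 0) (nat_lit 0),
  SI.mk (nat_lit 88) (nat_lit 11) (nat_lit 1) (nat_lit 0),
  SI.mk (nat_lit 89) (nat_lit 8) (nat_lit 2) (nat_lit 0),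
  SI.mk (nat_lit 90) (nat_lit 5) (nat_lit 3) (nat_lit 0),
  SI.mk (nat_lit 91) (nat_lit 2) (nat_lit 4) (nat_lit 0),
  SI.mk (nat_lit 87) (nat_lit 4) (nat_lit 0) (nat_lit 1),
  SI.mk (nat_lit 88) (nat_lit 1) (nat_lit 1) (nat_lit 1),
  SI.mk (nat_lit 88) (nat_lit 14) (nat_lit 0) (nat_lit 0),
  SI.mk (nat_lit 89) (nat_lit 11) (nat_lit 1) (nat_lit 0),
  SI.mk (nat_lit 90) (nat_lit 8) (nat_lit 2) (nat_lit 0),
  SI.mk (nat_lit 91) (nat_lit 5) (nat_lit 3) (nat_lit 0),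
  SI.mk (nat_lit 92) (nat_lit 2) (nat_lit 4) (nat_lit 0),
  SI.mk (nat_lit 88) (nat_lit 4) (nat_lit 0) (nat_lit 1),
  SI.mk (nat_lit 89) (nat_lit 1) (nat_lit 1) (nat_lit 1),
  SI.mk (nat_lit 89) (nat_lit 14) (nat_lit 0) (nat_lit 0),
  SI.mk (nat_lit 90) (nat_lit 11) (nat_lit 1) (nat_lit 0),
  SI.mk (nat_lit 91) (nat_lit 8) (nat_lit 2) (nat_lit 0),
  SI.mk (nat_lit 92) (nat_lit 5) (nat_lit 3) (nat_lit 0),
  SI.mk (nat_lit 93) (nat_lit 2) (nat_lit 4) (nat_lit 0),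
  SI.mk (nat_lit 89) (nat_lit 4) (nat_lit 0) (nat_lit 1),
  SI.mk (nat_lit 90) (nat_lit 1) (nat_lit 1) (nat_lit 1),
  SI.mk (nat_lit 90) (nat_lit 13) (nat_lit 0) (nat_lit 0),
  SI.mk (nat_lit 91) (nat_lit 10) (nat_lit 1) (nat_lit 0),
  SI.mk (nat_lit 92) (nat_lit 7) (nat_lit 2) (nat_lit 0),
  SI.mk (nat_lit 93) (nat_lit 4) (nat_lit 3) (nat_lit 0),
  SI.mk (nat_lit 0) (nat_lit 0) (nat_lit 0) (nat_lit 0),
  SI.mk (nat_lit 90) (nat_lit 3) (nat_lit 0) (nat_lit 1),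
  SI.mk (nat_lit 90) (nat_lit 12) (nat_lit 0) (nat_lit 0),
  SI.mk (nat_lit 91) (nat_lit 9) (nat_lit 1) (nat_lit 0),
  SI.mk (nat_lit 92) (nat_lit 6) (nat_lit 2) (nat_lit 0),
  SI.mk (nat_lit 93) (nat_lit 3) (nat_lit 3) (nat_lit 0),
  SI.mk (nat_lit 0) (nat_lit 0) (nat_lit 0) (nat_lit 0),
  SI.mk (nat_lit 90) (nat_lit 2) (nat_lit 0) (nat_lit 1),
  SI.mk (nat_lit 88) (nat_lit 11) (nat_lit 0) (nat_lit 0),
  SI.mk (nat_lit 89) (nat_lit 8) (nat_lit 1) (nat_lit 0),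
  SI.mk (nat_lit 90) (nat_lit 5) (nat_lit 2) (nat_lit 0),
  SI.mk (nat_lit 91) (nat_lit 2) (nat_lit 3) (nat_lit 0),
  SI.mk (nat_lit 0) (nat_lit 0) (nat_lit 0) (nat_lit 0),
  SI.mk (nat_lit 88) (nat_lit 1) (nat_lit 0) (nat_lit 1),
  SI.mk (nat_lit 90) (nat_lit 10) (nat_lit 0) (nat_lit 0),
  SI.mk (nat_lit 91) (nat_lit 7) (nat_lit 1) (nat_lit 0),
  SI.mk (nat_lit 92) (nat_lit 4) (nat_lit 2) (nat_lit 0),
  SI.mk (nat_lit 90) (nat_lit 9) (nat_lit 0) (nat_lit 0),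
  SI.mk (nat_lit 91) (nat_lit 6) (nat_lit 1) (nat_lit 0),
  SI.mk (nat_lit 92) (nat_lit 3) (nat_lit 2) (nat_lit 0),
  SI.mk (nat_lit 90) (nat_lit 8) (nat_lit 0) (nat_lit 0),
  SI.mk (nat_lit 91) (nat_lit 5) (nat_lit 1) (nat_lit 0),
  SI.mk (nat_lit 92) (nat_lit 2) (nat_lit 2) (nat_lit 0),
  SI.mk (nat_lit 88) (nat_lit 7) (nat_lit 0) (nat_lit 0),
  SI.mk (nat_lit 89) (nat_lit 4) (nat_lit 1) (nat_lit 0),
  SI.mk (nat_lit 90) (nat_lit 1) (nat_lit 2) (nat_lit 0),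
  SI.mk (nat_lit 88) (nat_lit 7) (nat_lit 0) (nat_lit 0),
  SI.mk (nat_lit 89) (nat_lit 4) (nat_lit 1) (nat_lit 0),
  SI.mk (nat_lit 90) (nat_lit 1) (nat_lit 2) (nat_lit 0),
  SI.mk (nat_lit 90) (nat_lit 7) (nat_lit 0) (nat_lit 0),
  SI.mk (nat_lit 91) (nat_lit 4) (nat_lit 1) (nat_lit 0),
  SI.mk (nat_lit 89) (nat_lit 6) (nat_lit 0) (nat_lit 0),
  SI.mk (nat_lit 90) (nat_lit 3) (nat_lit 1) (nat_lit 0),
  SI.mk (nat_lit 90) (nat_lit 6) (nat_lit 0) (nat_lit 0),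
  SI.mk (nat_lit 91) (nat_lit 3) (nat_lit 1) (nat_lit 0),
  SI.mk (nat_lit 88) (nat_lit 5) (nat_lit 0) (nat_lit 0),
  SI.mk (nat_lit 89) (nat_lit 2) (nat_lit 1) (nat_lit 0),
  SI.mk (nat_lit 88) (nat_lit 5) (nat_lit 0) (nat_lit 0),
  SI.mk (nat_lit 89) (nat_lit 2) (nat_lit 1) (nat_lit 0),
  SI.mk (nat_lit 89) (nat_lit 5) (nat_lit 0) (nat_lit 0),
  SI.mk (nat_lit 90) (nat_lit 2) (nat_lit 1) (nat_lit 0),
  SI.mk (nat_lit 90) (nat_lit 3) (nat_lit 0) (nat_lit 0),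
  SI.mk (nat_lit 88) (nat_lit 2) (nat_lit 0) (nat_lit 0),
  SI.mk (nat_lit 89) (nat_lit 2) (nat_lit 0) (nat_lit 0),
  SI.mk (nat_lit 90) (nat_lit 2) (nat_lit 0) (nat_lit 0),
  SI.mk (nat_lit 87) (nat_lit 1) (nat_lit 0) (nat_lit 0),
  SI.mk (nat_lit 88) (nat_lit 1) (nat_lit 0) (nat_lit 0),
  SI.mk (nat_lit 89) (nat_lit 1) (nat_lit 0) (nat_lit 0),
  SI.mk (nat_lit 90) (nat_lit 1) (nat_lit 0) (nat_lit 0),
  SI.mk (nat_lit 90) (nat_lit 1) (nat_lit 0) (nat_lit 0)]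

def q4_1 : List Nat := [nat_lit 0, nat_lit 0, nat_lit 0, nat_lit 0, nat_lit 0, nat_lit 0, nat_lit 0, nat_lit 0, nat_lit 0, nat_lit 0, nat_lit 15, nat_lit 15, nat_lit 14, nat_lit 14, nat_lit 14, nat_lit 13, nat_lit 13, nat_lit 13, nat_lit 12, nat_lit 11, nat_lit 10, nat_lit 9, nat_lit 8, nat_lit 7, nat_lit 6, nat_lit 6, nat_lit 6, nat_lit 5, nat_lit 5, nat_lit 4, nat_lit 4, nat_lit 4, nat_lit 2, nat_lit 1, nat_lit 1, nat_lit 1, nat_lit 0, nat_lit 0, nat_lit 0, nat_lit 0, nat_lit 0]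

def b4_1 : List Nat := [nat_lit 0, nat_lit 0, nat_lit 0, nat_lit 0, nat_lit 0, nat_lit 0, nat_lit 0, nat_lit 0, nat_lit 0, nat_lit 0, nat_lit 0, nat_lit 7, nat_lit 14, nat_lit 21, nat_lit 28, nat_lit 35, nat_lit 42, nat_lit 49, nat_lit 56, nat_lit 62, nat_lit 68, nat_lit 74, nat_lit 77, nat_lit 80, nat_lit 83, nat_lit 86, nat_lit 89, nat_lit 91, nat_lit 93, nat_lit 95, nat_lit 97, nat_lit 99, nat_lit 101, nat_lit 102, nat_lit 103, nat_lit 104, nat_lit 105, nat_lit 106, nat_lit 107, nat_lit 108, nat_lit 109]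

def k5_0 : KP := KP.mk (nat_lit 90) (nat_lit 21) (nat_lit 660) (nat_lit 7) (nat_lit 100) [
  SI.mk (nat_lit 87) (nat_lit 21) (nat_lit 0) (nat_lit 0),
  SI.mk (nat_lit 88) (nat_lit 18) (nat_lit 1) (nat_lit 0),
  SI.mk (nat_lit 89) (nat_lit 15) (nat_lit 2) (nat_lit 0),
  SI.mk (nat_lit 90) (nat_lit 12) (nat_lit 3) (nat_lit 0),
  SI.mk (nat_lit 91) (nat_lit 9) (nat_lit 4) (nat_lit 0),
  SI.mk (nat_lit 92) (nat_lit 6) (nat_lit 5) (nat_lit 0),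
  SI.mk (nat_lit 93) (nat_lit 3) (nat_lit 6) (nat_lit 0),
  SI.mk (nat_lit 87) (nat_lit 11) (nat_lit 0) (nat_lit 1),
  SI.mk (nat_lit 88) (nat_lit 8) (nat_lit 1) (nat_lit 1),
  SI.mk (nat_lit 89) (nat_lit 5) (nat_lit 2) (nat_lit 1),
  SI.mk (nat_lit 90) (nat_lit 2) (nat_lit 3) (nat_lit 1),
  SI.mk (nat_lit 0) (nat_lit 0) (nat_lit 0) (nat_lit 0),
  SI.mk (nat_lit 0) (nat_lit 0) (nat_lit 0) (nat_lit 0),
  SI.mk (nat_lit 0) (nat_lit 0) (nat_lit 0) (nat_lit 0),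
  SI.mk (nat_lit 87) (nat_lit 1) (nat_lit 0) (nat_lit 2),
  SI.mk (nat_lit 89) (nat_lit 21) (nat_lit 0) (nat_lit 0),
  SI.mk (nat_lit 90) (nat_lit 18) (nat_lit 1) (nat_lit 0),
  SI.mk (nat_lit 91) (nat_lit 15) (nat_lit 2) (nat_lit 0),
  SI.mk (nat_lit 92) (nat_lit 12) (nat_lit 3) (nat_lit 0),
  SI.mk (nat_lit 93) (nat_lit 9) (nat_lit 4) (nat_lit 0),
  SI.mk (nat_lit 94) (nat_lit 6) (nat_lit 5) (nat_lit 0),
  SI.mk (nat_lit 95) (nat_lit 3) (nat_lit 6) (nat_lit 0),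
  SI.mk (nat_lit 89) (nat_lit 11) (nat_lit 0) (nat_lit 1),
  SI.mk (nat_lit 90) (nat_lit 8) (nat_lit 1) (nat_lit 1),
  SI.mk (nat_lit 91) (nat_lit 5) (nat_lit 2) (nat_lit 1),
  SI.mk (nat_lit 92) (nat_lit 2) (nat_lit 3) (nat_lit 1),
  SI.mk (nat_lit 0) (nat_lit 0) (nat_lit 0) (nat_lit 0),
  SI.mk (nat_lit 0) (nat_lit 0) (nat_lit 0) (nat_lit 0),
  SI.mk (nat_lit 0) (nat_lit 0) (nat_lit 0) (nat_lit 0),
  SI.mk (nat_lit 89) (nat_lit 1) (nat_lit 0) (nat_lit 2),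
  SI.mk (nat_lit 87) (nat_lit 20) (nat_lit 0) (nat_lit 0),
  SI.mk (nat_lit 88) (nat_lit 17) (nat_lit 1) (nat_lit 0),
  SI.mk (nat_lit 89) (nat_lit 14) (nat_lit 2) (nat_lit 0),
  SI.mk (nat_lit 90) (nat_lit 11) (nat_lit 3) (nat_lit 0),
  SI.mk (nat_lit 91) (nat_lit 8) (nat_lit 4) (nat_lit 0),
  SI.mk (nat_lit 92) (nat_lit 5) (nat_lit 5) (nat_lit 0),
  SI.mk (nat_lit 93) (nat_lit 2) (nat_lit 6) (nat_lit 0),
  SI.mk (nat_lit 87) (nat_lit 10) (nat_lit 0) (nat_lit 1),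
  SI.mk (nat_lit 88) (nat_lit 7) (nat_lit 1) (nat_lit 1),
  SI.mk (nat_lit 89) (nat_lit 4) (nat_lit 2) (nat_lit 1),
  SI.mk (nat_lit 90) (nat_lit 1) (nat_lit 3) (nat_lit 1),
  SI.mk (nat_lit 89) (nat_lit 20) (nat_lit 0) (nat_lit 0),
  SI.mk (nat_lit 90) (nat_lit 17) (nat_lit 1) (nat_lit 0),
  SI.mk (nat_lit 91) (nat_lit 14) (nat_lit 2) (nat_lit 0),
  SI.mk (nat_lit 92) (nat_lit 11) (nat_lit 3) (nat_lit 0),
  SI.mk (nat_lit 93) (nat_lit 8) (nat_lit 4) (nat_lit 0),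
  SI.mk (nat_lit 94) (nat_lit 5) (nat_lit 5) (nat_lit 0),
  SI.mk (nat_lit 0) (nat_lit 0) (nat_lit 0) (nat_lit 0),
  SI.mk (nat_lit 89) (nat_lit 10) (nat_lit 0) (nat_lit 1),
  SI.mk (nat_lit 90) (nat_lit 7) (nat_lit 1) (nat_lit 1),
  SI.mk (nat_lit 91) (nat_lit 4) (nat_lit 2) (nat_lit 1),
  SI.mk (nat_lit 87) (nat_lit 19) (nat_lit 0) (nat_lit 0),
  SI.mk (nat_lit 88) (nat_lit 16) (nat_lit 1) (nat_lit 0),
  SI.mk (nat_lit 89) (nat_lit 13) (nat_lit 2) (nat_lit 0),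
  SI.mk (nat_lit 90) (nat_lit 10) (nat_lit 3) (nat_lit 0),
  SI.mk (nat_lit 91) (nat_lit 7) (nat_lit 4) (nat_lit 0),
  SI.mk (nat_lit 92) (nat_lit 4) (nat_lit 5) (nat_lit 0),
  SI.mk (nat_lit 0) (nat_lit 0) (nat_lit 0) (nat_lit 0),
  SI.mk (nat_lit 87) (nat_lit 9) (nat_lit 0) (nat_lit 1),
  SI.mk (nat_lit 88) (nat_lit 6) (nat_lit 1) (nat_lit 1),
  SI.mk (nat_lit 89) (nat_lit 3) (nat_lit 2) (nat_lit 1),
  SI.mk (nat_lit 90) (nat_lit 19) (nat_lit 0) (nat_lit 0),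
  SI.mk (nat_lit 91) (nat_lit 16) (nat_lit 1) (nat_lit 0),
  SI.mk (nat_lit 92) (nat_lit 13) (nat_lit 2) (nat_lit 0),
  SI.mk (nat_lit 93) (nat_lit 10) (nat_lit 3) (nat_lit 0),
  SI.mk (nat_lit 94) (nat_lit 7) (nat_lit 4) (nat_lit 0),
  SI.mk (nat_lit 95) (nat_lit 4) (nat_lit 5) (nat_lit 0),
  SI.mk (nat_lit 0) (nat_lit 0) (nat_lit 0) (nat_lit 0),
  SI.mk (nat_lit 90) (nat_lit 9) (nat_lit 0) (nat_lit 1),
  SI.mk (nat_lit 91) (nat_lit 6) (nat_lit 1) (nat_lit 1),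
  SI.mk (nat_lit 92) (nat_lit 3) (nat_lit 2) (nat_lit 1),
  SI.mk (nat_lit 88) (nat_lit 18) (nat_lit 0) (nat_lit 0),
  SI.mk (nat_lit 89) (nat_lit 15) (nat_lit 1) (nat_lit 0),
  SI.mk (nat_lit 90) (nat_lit 12) (nat_lit 2) (nat_lit 0),
  SI.mk (nat_lit 91) (nat_lit 9) (nat_lit 3) (nat_lit 0),
  SI.mk (nat_lit 92) (nat_lit 6) (nat_lit 4) (nat_lit 0),
  SI.mk (nat_lit 93) (nat_lit 3) (nat_lit 5) (nat_lit 0),
  SI.mk (nat_lit 0) (nat_lit 0) (nat_lit 0) (nat_lit 0),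
  SI.mk (nat_lit 88) (nat_lit 8) (nat_lit 0) (nat_lit 1),
  SI.mk (nat_lit 89) (nat_lit 5) (nat_lit 1) (nat_lit 1),
  SI.mk (nat_lit 90) (nat_lit 2) (nat_lit 2) (nat_lit 1),
  SI.mk (nat_lit 90) (nat_lit 18) (nat_lit 0) (nat_lit 0),
  SI.mk (nat_lit 91) (nat_lit 15) (nat_lit 1) (nat_lit 0),
  SI.mk (nat_lit 92) (nat_lit 12) (nat_lit 2) (nat_lit 0),
  SI.mk (nat_lit 93) (nat_lit 9) (nat_lit 3) (nat_lit 0),
  SI.mk (nat_lit 94) (nat_lit 6) (nat_lit 4) (nat_lit 0),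
  SI.mk (nat_lit 95) (nat_lit 3) (nat_lit 5) (nat_lit 0),
  SI.mk (nat_lit 0) (nat_lit 0) (nat_lit 0) (nat_lit 0),
  SI.mk (nat_lit 90) (nat_lit 8) (nat_lit 0) (nat_lit 1),
  SI.mk (nat_lit 91) (nat_lit 5) (nat_lit 1) (nat_lit 1),
  SI.mk (nat_lit 92) (nat_lit 2) (nat_lit 2) (nat_lit 1),
  SI.mk (nat_lit 88) (nat_lit 17) (nat_lit 0) (nat_lit 0),
  SI.mk (nat_lit 89) (nat_lit 14) (nat_lit 1) (nat_lit 0),
  SI.mk (nat_lit 90) (nat_lit 11) (nat_lit 2) (nat_lit 0),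
  SI.mk (nat_lit 91) (nat_lit 8) (nat_lit 3) (nat_lit 0),
  SI.mk (nat_lit 92) (nat_lit 5) (nat_lit 4) (nat_lit 0),
  SI.mk (nat_lit 93) (nat_lit 2) (nat_lit 5) (nat_lit 0),
  SI.mk (nat_lit 0) (nat_lit 0) (nat_lit 0) (nat_lit 0),
  SI.mk (nat_lit 88) (nat_lit 7) (nat_lit 0) (nat_lit 1),
  SI.mk (nat_lit 89) (nat_lit 4) (nat_lit 1) (nat_lit 1),
  SI.mk (nat_lit 90) (nat_lit 1) (nat_lit 2) (nat_lit 1),
  SI.mk (nat_lit 90) (nat_lit 17) (nat_lit 0) (nat_lit 0),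
  SI.mk (nat_lit 91) (nat_lit 14) (nat_lit 1) (nat_lit 0),
  SI.mk (nat_lit 92) (nat_lit 11) (nat_lit 2) (nat_lit 0),
  SI.mk (nat_lit 93) (nat_lit 8) (nat_lit 3) (nat_lit 0),
  SI.mk (nat_lit 94) (nat_lit 5) (nat_lit 4) (nat_lit 0),
  SI.mk (nat_lit 0) (nat_lit 0) (nat_lit 0) (nat_lit 0),
  SI.mk (nat_lit 0) (nat_lit 0) (nat_lit 0) (nat_lit 0),
  SI.mk (nat_lit 90) (nat_lit 7) (nat_lit 0) (nat_lit 1),
  SI.mk (nat_lit 91) (nat_lit 4) (nat_lit 1) (nat_lit 1)]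

def q5_0 : List Nat := [nat_lit 20, nat_lit 20, nat_lit 19, nat_lit 19, nat_lit 18, nat_lit 18, nat_lit 17, nat_lit 17, nat_lit 16, nat_lit 16]

def b5_0 : List Nat := [nat_lit 0, nat_lit 15, nat_lit 30, nat_lit 41, nat_lit 51, nat_lit 61, nat_lit 71, nat_lit 81, nat_lit 91, nat_lit 101]

def k5_1 : KP := KP.mk (nat_lit 90) (nat_lit 16) (nat_lit 714) (nat_lit 5) (nat_lit 99) [
  SI.mk (nat_lit 90) (nat_lit 16) (nat_lit 0) (nat_lit 0),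
  SI.mk (nat_lit 91) (nat_lit 13) (nat_lit 1) (nat_lit 0),
  SI.mk (nat_lit 92) (nat_lit 10) (nat_lit 2) (nat_lit 0),
  SI.mk (nat_lit 93) (nat_lit 7) (nat_lit 3) (nat_lit 0),
  SI.mk (nat_lit 94) (nat_lit 4) (nat_lit 4) (nat_lit 0),
  SI.mk (nat_lit 90) (nat_lit 6) (nat_lit 0) (nat_lit 1),
  SI.mk (nat_lit 91) (nat_lit 3) (nat_lit 1) (nat_lit 1),
  SI.mk (nat_lit 87) (nat_lit 15) (nat_lit 0) (nat_lit 0),
  SI.mk (nat_lit 88) (nat_lit 12) (nat_lit 1) (nat_lit 0),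
  SI.mk (nat_lit 89) (nat_lit 9) (nat_lit 2) (nat_lit 0),
  SI.mk (nat_lit 90) (nat_lit 6) (nat_lit 3) (nat_lit 0),
  SI.mk (nat_lit 91) (nat_lit 3) (nat_lit 4) (nat_lit 0),
  SI.mk (nat_lit 87) (nat_lit 5) (nat_lit 0) (nat_lit 1),
  SI.mk (nat_lit 88) (nat_lit 2) (nat_lit 1) (nat_lit 1),
  SI.mk (nat_lit 89) (nat_lit 15) (nat_lit 0) (nat_lit 0),
  SI.mk (nat_lit 90) (nat_lit 12) (nat_lit 1) (nat_lit 0),
  SI.mk (nat_lit 91) (nat_lit 9) (nat_lit 2) (nat_lit 0),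
  SI.mk (nat_lit 92) (nat_lit 6) (nat_lit 3) (nat_lit 0),
  SI.mk (nat_lit 93) (nat_lit 3) (nat_lit 4) (nat_lit 0),
  SI.mk (nat_lit 89) (nat_lit 5) (nat_lit 0) (nat_lit 1),
  SI.mk (nat_lit 90) (nat_lit 2) (nat_lit 1) (nat_lit 1),
  SI.mk (nat_lit 89) (nat_lit 15) (nat_lit 0) (nat_lit 0),
  SI.mk (nat_lit 90) (nat_lit 12) (nat_lit 1) (nat_lit 0),
  SI.mk (nat_lit 91) (nat_lit 9) (nat_lit 2) (nat_lit 0),
  SI.mk (nat_lit 92) (nat_lit 6) (nat_lit 3) (nat_lit 0),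
  SI.mk (nat_lit 93) (nat_lit 3) (nat_lit 4) (nat_lit 0),
  SI.mk (nat_lit 89) (nat_lit 5) (nat_lit 0) (nat_lit 1),
  SI.mk (nat_lit 90) (nat_lit 2) (nat_lit 1) (nat_lit 1),
  SI.mk (nat_lit 87) (nat_lit 14) (nat_lit 0) (nat_lit 0),
  SI.mk (nat_lit 88) (nat_lit 11) (nat_lit 1) (nat_lit 0),
  SI.mk (nat_lit 89) (nat_lit 8) (nat_lit 2) (nat_lit 0),
  SI.mk (nat_lit 90) (nat_lit 5) (nat_lit 3) (nat_lit 0),
  SI.mk (nat_lit 91) (nat_lit 2) (nat_lit 4) (nat_lit 0),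
  SI.mk (nat_lit 87) (nat_lit 4) (nat_lit 0) (nat_lit 1),
  SI.mk (nat_lit 88) (nat_lit 1) (nat_lit 1) (nat_lit 1),
  SI.mk (nat_lit 88) (nat_lit 14) (nat_lit 0) (nat_lit 0),
  SI.mk (nat_lit 89) (nat_lit 11) (nat_lit 1) (nat_lit 0),
  SI.mk (nat_lit 90) (nat_lit 8) (nat_lit 2) (nat_lit 0),
  SI.mk (nat_lit 91) (nat_lit 5) (nat_lit 3) (nat_lit 0),
  SI.mk (nat_lit 92) (nat_lit 2) (nat_lit 4) (nat_lit 0),
  SI.mk (nat_lit 88) (nat_lit 4) (nat_lit 0) (nat_lit 1),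
  SI.mk (nat_lit 89) (nat_lit 1) (nat_lit 1) (nat_lit 1),
  SI.mk (nat_lit 89) (nat_lit 14) (nat_lit 0) (nat_lit 0),
  SI.mk (nat_lit 90) (nat_lit 11) (nat_lit 1) (nat_lit 0),
  SI.mk (nat_lit 91) (nat_lit 8) (nat_lit 2) (nat_lit 0),
  SI.mk (nat_lit 92) (nat_lit 5) (nat_lit 3) (nat_lit 0),
  SI.mk (nat_lit 93) (nat_lit 2) (nat_lit 4) (nat_lit 0),
  SI.mk (nat_lit 89) (nat_lit 4) (nat_lit 0) (nat_lit 1),
  SI.mk (nat_lit 90) (nat_lit 1) (nat_lit 1) (nat_lit 1),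
  SI.mk (nat_lit 87) (nat_lit 13) (nat_lit 0) (nat_lit 0),
  SI.mk (nat_lit 88) (nat_lit 10) (nat_lit 1) (nat_lit 0),
  SI.mk (nat_lit 89) (nat_lit 7) (nat_lit 2) (nat_lit 0),
  SI.mk (nat_lit 90) (nat_lit 4) (nat_lit 3) (nat_lit 0),
  SI.mk (nat_lit 0) (nat_lit 0) (nat_lit 0) (nat_lit 0),
  SI.mk (nat_lit 87) (nat_lit 3) (nat_lit 0) (nat_lit 1),
  SI.mk (nat_lit 90) (nat_lit 13) (nat_lit 0) (nat_lit 0),
  SI.mk (nat_lit 91) (nat_lit 10) (nat_lit 1) (nat_lit 0),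
  SI.mk (nat_lit 92) (nat_lit 7) (nat_lit 2) (nat_lit 0),
  SI.mk (nat_lit 93) (nat_lit 4) (nat_lit 3) (nat_lit 0),
  SI.mk (nat_lit 0) (nat_lit 0) (nat_lit 0) (nat_lit 0),
  SI.mk (nat_lit 90) (nat_lit 3) (nat_lit 0) (nat_lit 1),
  SI.mk (nat_lit 89) (nat_lit 12) (nat_lit 0) (nat_lit 0),
  SI.mk (nat_lit 90) (nat_lit 9) (nat_lit 1) (nat_lit 0),
  SI.mk (nat_lit 91) (nat_lit 6) (nat_lit 2) (nat_lit 0),
  SI.mk (nat_lit 92) (nat_lit 3) (nat_lit 3) (nat_lit 0),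
  SI.mk (nat_lit 0) (nat_lit 0) (nat_lit 0) (nat_lit 0),
  SI.mk (nat_lit 89) (nat_lit 2) (nat_lit 0) (nat_lit 1),
  SI.mk (nat_lit 88) (nat_lit 11) (nat_lit 0) (nat_lit 0),
  SI.mk (nat_lit 89) (nat_lit 8) (nat_lit 1) (nat_lit 0),
  SI.mk (nat_lit 90) (nat_lit 5) (nat_lit 2) (nat_lit 0),
  SI.mk (nat_lit 91) (nat_lit 2) (nat_lit 3) (nat_lit 0),
  SI.mk (nat_lit 0) (nat_lit 0) (nat_lit 0) (nat_lit 0),
  SI.mk (nat_lit 88) (nat_lit 1) (nat_lit 0) (nat_lit 1),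
  SI.mk (nat_lit 90) (nat_lit 11) (nat_lit 0) (nat_lit 0),
  SI.mk (nat_lit 91) (nat_lit 8) (nat_lit 1) (nat_lit 0),
  SI.mk (nat_lit 92) (nat_lit 5) (nat_lit 2) (nat_lit 0),
  SI.mk (nat_lit 93) (nat_lit 2) (nat_lit 3) (nat_lit 0),
  SI.mk (nat_lit 0) (nat_lit 0) (nat_lit 0) (nat_lit 0),
  SI.mk (nat_lit 90) (nat_lit 1) (nat_lit 0) (nat_lit 1),
  SI.mk (nat_lit 87) (nat_lit 9) (nat_lit 0) (nat_lit 0),
  SI.mk (nat_lit 88) (nat_lit 6) (nat_lit 1) (nat_lit 0),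
  SI.mk (nat_lit 89) (nat_lit 3) (nat_lit 2) (nat_lit 0),
  SI.mk (nat_lit 90) (nat_lit 8) (nat_lit 0) (nat_lit 0),
  SI.mk (nat_lit 91) (nat_lit 5) (nat_lit 1) (nat_lit 0),
  SI.mk (nat_lit 92) (nat_lit 2) (nat_lit 2) (nat_lit 0),
  SI.mk (nat_lit 88) (nat_lit 7) (nat_lit 0) (nat_lit 0),
  SI.mk (nat_lit 89) (nat_lit 4) (nat_lit 1) (nat_lit 0),
  SI.mk (nat_lit 90) (nat_lit 1) (nat_lit 2) (nat_lit 0),
  SI.mk (nat_lit 88) (nat_lit 7) (nat_lit 0) (nat_lit 0),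
  SI.mk (nat_lit 89) (nat_lit 4) (nat_lit 1) (nat_lit 0),
  SI.mk (nat_lit 90) (nat_lit 1) (nat_lit 2) (nat_lit 0),
  SI.mk (nat_lit 90) (nat_lit 7) (nat_lit 0) (nat_lit 0),
  SI.mk (nat_lit 91) (nat_lit 4) (nat_lit 1) (nat_lit 0),
  SI.mk (nat_lit 90) (nat_lit 7) (nat_lit 0) (nat_lit 0),
  SI.mk (nat_lit 91) (nat_lit 4) (nat_lit 1) (nat_lit 0),
  SI.mk (nat_lit 88) (nat_lit 6) (nat_lit 0) (nat_lit 0),
  SI.mk (nat_lit 89) (nat_lit 3) (nat_lit 1) (nat_lit 0),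
  SI.mk (nat_lit 90) (nat_lit 6) (nat_lit 0) (nat_lit 0),
  SI.mk (nat_lit 91) (nat_lit 3) (nat_lit 1) (nat_lit 0),
  SI.mk (nat_lit 90) (nat_lit 6) (nat_lit 0) (nat_lit 0),
  SI.mk (nat_lit 91) (nat_lit 3) (nat_lit 1) (nat_lit 0),
  SI.mk (nat_lit 87) (nat_lit 5) (nat_lit 0) (nat_lit 0),
  SI.mk (nat_lit 88) (nat_lit 2) (nat_lit 1) (nat_lit 0),
  SI.mk (nat_lit 88) (nat_lit 5) (nat_lit 0) (nat_lit 0),
  SI.mk (nat_lit 89) (nat_lit 2) (nat_lit 1) (nat_lit 0),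
  SI.mk (nat_lit 89) (nat_lit 5) (nat_lit 0) (nat_lit 0),
  SI.mk (nat_lit 90) (nat_lit 2) (nat_lit 1) (nat_lit 0),
  SI.mk (nat_lit 88) (nat_lit 4) (nat_lit 0) (nat_lit 0),
  SI.mk (nat_lit 89) (nat_lit 1) (nat_lit 1) (nat_lit 0),
  SI.mk (nat_lit 90) (nat_lit 4) (nat_lit 0) (nat_lit 0),
  SI.mk (nat_lit 90) (nat_lit 3) (nat_lit 0) (nat_lit 0),
  SI.mk (nat_lit 89) (nat_lit 2) (nat_lit 0) (nat_lit 0),
  SI.mk (nat_lit 89) (nat_lit 2) (nat_lit 0) (nat_lit 0),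
  SI.mk (nat_lit 87) (nat_lit 1) (nat_lit 0) (nat_lit 0),
  SI.mk (nat_lit 87) (nat_lit 1) (nat_lit 0) (nat_lit 0),
  SI.mk (nat_lit 88) (nat_lit 1) (nat_lit 0) (nat_lit 0),
  SI.mk (nat_lit 89) (nat_lit 1) (nat_lit 0) (nat_lit 0),
  SI.mk (nat_lit 89) (nat_lit 1) (nat_lit 0) (nat_lit 0),
  SI.mk (nat_lit 90) (nat_lit 1) (nat_lit 0) (nat_lit 0)]

def q5_1 : List Nat := [nat_lit 0, nat_lit 0, nat_lit 0, nat_lit 0, nat_lit 0, nat_lit 0, nat_lit 0, nat_lit 0, nat_lit 0, nat_lit 0, nat_lit 15, nat_lit 14, nat_lit 14, nat_lit 14, nat_lit 13, nat_lit 13, nat_lit 13, nat_lit 12, nat_lit 12, nat_lit 11, nat_lit 10, nat_lit 10, nat_lit 8, nat_lit 7, nat_lit 6, nat_lit 6, nat_lit 6, nat_lit 6, nat_lit 5, nat_lit 5, nat_lit 5, nat_lit 4, nat_lit 4, nat_lit 4, nat_lit 3, nat_lit 3, nat_lit 2, nat_lit 1, nat_lit 1, nat_lit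 0, nat_lit 0, nat_lit 0, nat_lit 0, nat_lit 0, nat_lit 0]

def b5_1 : List Nat := [nat_lit 0, nat_lit 0, nat_lit 0, nat_lit 0, nat_lit 0, nat_lit 0, nat_lit 0, nat_lit 0, nat_lit 0, nat_lit 0, nat_lit 0, nat_lit 7, nat_lit 14, nat_lit 21, nat_lit 28, nat_lit 35, nat_lit 42, nat_lit 49, nat_lit 55, nat_lit 61, nat_lit 67, nat_lit 73, nat_lit 79, nat_lit 82, nat_lit 85, nat_lit 88, nat_lit 91, nat_lit 93, nat_lit 95, nat_lit 97, nat_lit 99, nat_lit 101, nat_lit 103, nat_lit 105, nat_lit 107, nat_lit 109, nat_lit 110, nat_lit 111, nat_lit 112, nat_lit 113, nat_lit 114, nat_lit 115, nat_lit 116, nat_lit 117, nat_lit 118]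

def k6_0 : KP := KP.mk (nat_lit 90) (nat_lit 21) (nat_lit 624) (nat_lit 7) (nat_lit 100) [
  SI.mk (nat_lit 89) (nat_lit 21) (nat_lit 0) (nat_lit 0),
  SI.mk (nat_lit 90) (nat_lit 18) (nat_lit 1) (nat_lit 0),
  SI.mk (nat_lit 91) (nat_lit 15) (nat_lit 2) (nat_lit 0),
  SI.mk (nat_lit 92) (nat_lit 12) (nat_lit 3) (nat_lit 0),
  SI.mk (nat_lit 93) (nat_lit 9) (nat_lit 4) (nat_lit 0),
  SI.mk (nat_lit 94) (nat_lit 6) (nat_lit 5) (nat_lit 0),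
  SI.mk (nat_lit 95) (nat_lit 3) (nat_lit 6) (nat_lit 0),
  SI.mk (nat_lit 89) (nat_lit 11) (nat_lit 0) (nat_lit 1),
  SI.mk (nat_lit 90) (nat_lit 8) (nat_lit 1) (nat_lit 1),
  SI.mk (nat_lit 91) (nat_lit 5) (nat_lit 2) (nat_lit 1),
  SI.mk (nat_lit 92) (nat_lit 2) (nat_lit 3) (nat_lit 1),
  SI.mk (nat_lit 0) (nat_lit 0) (nat_lit 0) (nat_lit 0),
  SI.mk (nat_lit 0) (nat_lit 0) (nat_lit 0) (nat_lit 0),
  SI.mk (nat_lit 0) (nat_lit 0) (nat_lit 0) (nat_lit 0),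
  SI.mk (nat_lit 89) (nat_lit 1) (nat_lit 0) (nat_lit 2),
  SI.mk (nat_lit 87) (nat_lit 20) (nat_lit 0) (nat_lit 0),
  SI.mk (nat_lit 88) (nat_lit 17) (nat_lit 1) (nat_lit 0),
  SI.mk (nat_lit 89) (nat_lit 14) (nat_lit 2) (nat_lit 0),
  SI.mk (nat_lit 90) (nat_lit 11) (nat_lit 3) (nat_lit 0),
  SI.mk (nat_lit 91) (nat_lit 8) (nat_lit 4) (nat_lit 0),
  SI.mk (nat_lit 92) (nat_lit 5) (nat_lit 5) (nat_lit 0),
  SI.mk (nat_lit 93) (nat_lit 2) (nat_lit 6) (nat_lit 0),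
  SI.mk (nat_lit 87) (nat_lit 10) (nat_lit 0) (nat_lit 1),
  SI.mk (nat_lit 88) (nat_lit 7) (nat_lit 1) (nat_lit 1),
  SI.mk (nat_lit 89) (nat_lit 4) (nat_lit 2) (nat_lit 1),
  SI.mk (nat_lit 90) (nat_lit 1) (nat_lit 3) (nat_lit 1),
  SI.mk (nat_lit 89) (nat_lit 20) (nat_lit 0) (nat_lit 0),
  SI.mk (nat_lit 90) (nat_lit 17) (nat_lit 1) (nat_lit 0),
  SI.mk (nat_lit 91) (nat_lit 14) (nat_lit 2) (nat_lit 0),
  SI.mk (nat_lit 92) (nat_lit 11) (nat_lit 3) (nat_lit 0),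
  SI.mk (nat_lit 93) (nat_lit 8) (nat_lit 4) (nat_lit 0),
  SI.mk (nat_lit 94) (nat_lit 5) (nat_lit 5) (nat_lit 0),
  SI.mk (nat_lit 0) (nat_lit 0) (nat_lit 0) (nat_lit 0),
  SI.mk (nat_lit 89) (nat_lit 10) (nat_lit 0) (nat_lit 1),
  SI.mk (nat_lit 90) (nat_lit 7) (nat_lit 1) (nat_lit 1),
  SI.mk (nat_lit 91) (nat_lit 4) (nat_lit 2) (nat_lit 1),
  SI.mk (nat_lit 87) (nat_lit 19) (nat_lit 0) (nat_lit 0),
  SI.mk (nat_lit 88) (nat_lit 16) (nat_lit 1) (nat_lit 0),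
  SI.mk (nat_lit 89) (nat_lit 13) (nat_lit 2) (nat_lit 0),
  SI.mk (nat_lit 90) (nat_lit 10) (nat_lit 3) (nat_lit 0),
  SI.mk (nat_lit 91) (nat_lit 7) (nat_lit 4) (nat_lit 0),
  SI.mk (nat_lit 92) (nat_lit 4) (nat_lit 5) (nat_lit 0),
  SI.mk (nat_lit 0) (nat_lit 0) (nat_lit 0) (nat_lit 0),
  SI.mk (nat_lit 87) (nat_lit 9) (nat_lit 0) (nat_lit 1),
  SI.mk (nat_lit 88) (nat_lit 6) (nat_lit 1) (nat_lit 1),
  SI.mk (nat_lit 89) (nat_lit 3) (nat_lit 2) (nat_lit 1),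
  SI.mk (nat_lit 89) (nat_lit 19) (nat_lit 0) (nat_lit 0),
  SI.mk (nat_lit 90) (nat_lit 16) (nat_lit 1) (nat_lit 0),
  SI.mk (nat_lit 91) (nat_lit 13) (nat_lit 2) (nat_lit 0),
  SI.mk (nat_lit 92) (nat_lit 10) (nat_lit 3) (nat_lit 0),
  SI.mk (nat_lit 93) (nat_lit 7) (nat_lit 4) (nat_lit 0),
  SI.mk (nat_lit 94) (nat_lit 4) (nat_lit 5) (nat_lit 0),
  SI.mk (nat_lit 0) (nat_lit 0) (nat_lit 0) (nat_lit 0),
  SI.mk (nat_lit 89) (nat_lit 9) (nat_lit 0) (nat_lit 1),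
  SI.mk (nat_lit 90) (nat_lit 6) (nat_lit 1) (nat_lit 1),
  SI.mk (nat_lit 91) (nat_lit 3) (nat_lit 2) (nat_lit 1),
  SI.mk (nat_lit 87) (nat_lit 18) (nat_lit 0) (nat_lit 0),
  SI.mk (nat_lit 88) (nat_lit 15) (nat_lit 1) (nat_lit 0),
  SI.mk (nat_lit 89) (nat_lit 12) (nat_lit 2) (nat_lit 0),
  SI.mk (nat_lit 90) (nat_lit 9) (nat_lit 3) (nat_lit 0),
  SI.mk (nat_lit 91) (nat_lit 6) (nat_lit 4) (nat_lit 0),
  SI.mk (nat_lit 92) (nat_lit 3) (nat_lit 5) (nat_lit 0),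
  SI.mk (nat_lit 0) (nat_lit 0) (nat_lit 0) (nat_lit 0),
  SI.mk (nat_lit 87) (nat_lit 8) (nat_lit 0) (nat_lit 1),
  SI.mk (nat_lit 88) (nat_lit 5) (nat_lit 1) (nat_lit 1),
  SI.mk (nat_lit 89) (nat_lit 2) (nat_lit 2) (nat_lit 1),
  SI.mk (nat_lit 89) (nat_lit 18) (nat_lit 0) (nat_lit 0),
  SI.mk (nat_lit 90) (nat_lit 15) (nat_lit 1) (nat_lit 0),
  SI.mk (nat_lit 91) (nat_lit 12) (nat_lit 2) (nat_lit 0),
  SI.mk (nat_lit 92) (nat_lit 9) (nat_lit 3) (nat_lit 0),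
  SI.mk (nat_lit 93) (nat_lit 6) (nat_lit 4) (nat_lit 0),
  SI.mk (nat_lit 94) (nat_lit 3) (nat_lit 5) (nat_lit 0),
  SI.mk (nat_lit 0) (nat_lit 0) (nat_lit 0) (nat_lit 0),
  SI.mk (nat_lit 89) (nat_lit 8) (nat_lit 0) (nat_lit 1),
  SI.mk (nat_lit 90) (nat_lit 5) (nat_lit 1) (nat_lit 1),
  SI.mk (nat_lit 91) (nat_lit 2) (nat_lit 2) (nat_lit 1),
  SI.mk (nat_lit 87) (nat_lit 17) (nat_lit 0) (nat_lit 0),
  SI.mk (nat_lit 88) (nat_lit 14) (nat_lit 1) (nat_lit 0),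
  SI.mk (nat_lit 89) (nat_lit 11) (nat_lit 2) (nat_lit 0),
  SI.mk (nat_lit 90) (nat_lit 8) (nat_lit 3) (nat_lit 0),
  SI.mk (nat_lit 91) (nat_lit 5) (nat_lit 4) (nat_lit 0),
  SI.mk (nat_lit 92) (nat_lit 2) (nat_lit 5) (nat_lit 0),
  SI.mk (nat_lit 0) (nat_lit 0) (nat_lit 0) (nat_lit 0),
  SI.mk (nat_lit 87) (nat_lit 7) (nat_lit 0) (nat_lit 1),
  SI.mk (nat_lit 88) (nat_lit 4) (nat_lit 1) (nat_lit 1),
  SI.mk (nat_lit 89) (nat_lit 1) (nat_lit 2) (nat_lit 1),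
  SI.mk (nat_lit 89) (nat_lit 17) (nat_lit 0) (nat_lit 0),
  SI.mk (nat_lit 90) (nat_lit 14) (nat_lit 1) (nat_lit 0),
  SI.mk (nat_lit 91) (nat_lit 11) (nat_lit 2) (nat_lit 0),
  SI.mk (nat_lit 92) (nat_lit 8) (nat_lit 3) (nat_lit 0),
  SI.mk (nat_lit 93) (nat_lit 5) (nat_lit 4) (nat_lit 0),
  SI.mk (nat_lit 94) (nat_lit 2) (nat_lit 5) (nat_lit 0),
  SI.mk (nat_lit 0) (nat_lit 0) (nat_lit 0) (nat_lit 0),
  SI.mk (nat_lit 89) (nat_lit 7) (nat_lit 0) (nat_lit 1),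
  SI.mk (nat_lit 90) (nat_lit 4) (nat_lit 1) (nat_lit 1),
  SI.mk (nat_lit 87) (nat_lit 16) (nat_lit 0) (nat_lit 0),
  SI.mk (nat_lit 88) (nat_lit 13) (nat_lit 1) (nat_lit 0),
  SI.mk (nat_lit 89) (nat_lit 10) (nat_lit 2) (nat_lit 0),
  SI.mk (nat_lit 90) (nat_lit 7) (nat_lit 3) (nat_lit 0),
  SI.mk (nat_lit 91) (nat_lit 4) (nat_lit 4) (nat_lit 0),
  SI.mk (nat_lit 0) (nat_lit 0) (nat_lit 0) (nat_lit 0),
  SI.mk (nat_lit 0) (nat_lit 0) (nat_lit 0) (nat_lit 0),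
  SI.mk (nat_lit 87) (nat_lit 6) (nat_lit 0) (nat_lit 1),
  SI.mk (nat_lit 88) (nat_lit 3) (nat_lit 1) (nat_lit 1)]

def q6_0 : List Nat := [nat_lit 20, nat_lit 19, nat_lit 19, nat_lit 18, nat_lit 18, nat_lit 17, nat_lit 17, nat_lit 16, nat_lit 16, nat_lit 15]

def b6_0 : List Nat := [nat_lit 0, nat_lit 15, nat_lit 26, nat_lit 36, nat_lit 46, nat_lit 56, nat_lit 66, nat_lit 76, nat_lit 86, nat_lit 95]

def k6_1 : KP := KP.mk (nat_lit 90) (nat_lit 15) (nat_lit 582) (nat_lit 40) (nat_lit 99) [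
  SI.mk (nat_lit 89) (nat_lit 15) (nat_lit 0) (nat_lit 0),
  SI.mk (nat_lit 90) (nat_lit 12) (nat_lit 1) (nat_lit 0),
  SI.mk (nat_lit 91) (nat_lit 9) (nat_lit 2) (nat_lit 0),
  SI.mk (nat_lit 92) (nat_lit 6) (nat_lit 3) (nat_lit 0),
  SI.mk (nat_lit 93) (nat_lit 3) (nat_lit 4) (nat_lit 0),
  SI.mk (nat_lit 90) (nat_lit 15) (nat_lit 0) (nat_lit 0),
  SI.mk (nat_lit 91) (nat_lit 12) (nat_lit 1) (nat_lit 0),
  SI.mk (nat_lit 92) (nat_lit 9) (nat_lit 2) (nat_lit 0),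
  SI.mk (nat_lit 93) (nat_lit 6) (nat_lit 3) (nat_lit 0),
  SI.mk (nat_lit 94) (nat_lit 3) (nat_lit 4) (nat_lit 0),
  SI.mk (nat_lit 88) (nat_lit 14) (nat_lit 0) (nat_lit 0),
  SI.mk (nat_lit 89) (nat_lit 11) (nat_lit 1) (nat_lit 0),
  SI.mk (nat_lit 90) (nat_lit 8) (nat_lit 2) (nat_lit 0),
  SI.mk (nat_lit 91) (nat_lit 5) (nat_lit 3) (nat_lit 0),
  SI.mk (nat_lit 92) (nat_lit 2) (nat_lit 4) (nat_lit 0),
  SI.mk (nat_lit 90) (nat_lit 14) (nat_lit 0) (nat_lit 0),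
  SI.mk (nat_lit 91) (nat_lit 11) (nat_lit 1) (nat_lit 0),
  SI.mk (nat_lit 92) (nat_lit 8) (nat_lit 2) (nat_lit 0),
  SI.mk (nat_lit 93) (nat_lit 5) (nat_lit 3) (nat_lit 0),
  SI.mk (nat_lit 94) (nat_lit 2) (nat_lit 4) (nat_lit 0),
  SI.mk (nat_lit 87) (nat_lit 13) (nat_lit 0) (nat_lit 0),
  SI.mk (nat_lit 88) (nat_lit 10) (nat_lit 1) (nat_lit 0),
  SI.mk (nat_lit 89) (nat_lit 7) (nat_lit 2) (nat_lit 0),
  SI.mk (nat_lit 90) (nat_lit 4) (nat_lit 3) (nat_lit 0),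
  SI.mk (nat_lit 88) (nat_lit 12) (nat_lit 0) (nat_lit 0),
  SI.mk (nat_lit 89) (nat_lit 9) (nat_lit 1) (nat_lit 0),
  SI.mk (nat_lit 90) (nat_lit 6) (nat_lit 2) (nat_lit 0),
  SI.mk (nat_lit 91) (nat_lit 3) (nat_lit 3) (nat_lit 0),
  SI.mk (nat_lit 89) (nat_lit 12) (nat_lit 0) (nat_lit 0),
  SI.mk (nat_lit 90) (nat_lit 9) (nat_lit 1) (nat_lit 0),
  SI.mk (nat_lit 91) (nat_lit 6) (nat_lit 2) (nat_lit 0),
  SI.mk (nat_lit 92) (nat_lit 3) (nat_lit 3) (nat_lit 0),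
  SI.mk (nat_lit 89) (nat_lit 11) (nat_lit 0) (nat_lit 0),
  SI.mk (nat_lit 90) (nat_lit 8) (nat_lit 1) (nat_lit 0),
  SI.mk (nat_lit 91) (nat_lit 5) (nat_lit 2) (nat_lit 0),
  SI.mk (nat_lit 92) (nat_lit 2) (nat_lit 3) (nat_lit 0),
  SI.mk (nat_lit 87) (nat_lit 10) (nat_lit 0) (nat_lit 0),
  SI.mk (nat_lit 88) (nat_lit 7) (nat_lit 1) (nat_lit 0),
  SI.mk (nat_lit 89) (nat_lit 4) (nat_lit 2) (nat_lit 0),
  SI.mk (nat_lit 90) (nat_lit 1) (nat_lit 3) (nat_lit 0),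
  SI.mk (nat_lit 89) (nat_lit 5) (nat_lit 0) (nat_lit 1),
  SI.mk (nat_lit 90) (nat_lit 2) (nat_lit 1) (nat_lit 1),
  SI.mk (nat_lit 87) (nat_lit 9) (nat_lit 0) (nat_lit 0),
  SI.mk (nat_lit 88) (nat_lit 6) (nat_lit 1) (nat_lit 0),
  SI.mk (nat_lit 89) (nat_lit 3) (nat_lit 2) (nat_lit 0),
  SI.mk (nat_lit 90) (nat_lit 5) (nat_lit 0) (nat_lit 1),
  SI.mk (nat_lit 91) (nat_lit 2) (nat_lit 1) (nat_lit 1),
  SI.mk (nat_lit 89) (nat_lit 8) (nat_lit 0) (nat_lit 0),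
  SI.mk (nat_lit 90) (nat_lit 5) (nat_lit 1) (nat_lit 0),
  SI.mk (nat_lit 91) (nat_lit 2) (nat_lit 2) (nat_lit 0),
  SI.mk (nat_lit 88) (nat_lit 4) (nat_lit 0) (nat_lit 1),
  SI.mk (nat_lit 89) (nat_lit 1) (nat_lit 1) (nat_lit 1),
  SI.mk (nat_lit 87) (nat_lit 7) (nat_lit 0) (nat_lit 0),
  SI.mk (nat_lit 88) (nat_lit 4) (nat_lit 1) (nat_lit 0),
  SI.mk (nat_lit 89) (nat_lit 1) (nat_lit 2) (nat_lit 0),
  SI.mk (nat_lit 90) (nat_lit 4) (nat_lit 0) (nat_lit 1),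
  SI.mk (nat_lit 89) (nat_lit 7) (nat_lit 0) (nat_lit 0),
  SI.mk (nat_lit 90) (nat_lit 4) (nat_lit 1) (nat_lit 0),
  SI.mk (nat_lit 90) (nat_lit 7) (nat_lit 0) (nat_lit 0),
  SI.mk (nat_lit 91) (nat_lit 4) (nat_lit 1) (nat_lit 0),
  SI.mk (nat_lit 87) (nat_lit 3) (nat_lit 0) (nat_lit 1),
  SI.mk (nat_lit 87) (nat_lit 6) (nat_lit 0) (nat_lit 0),
  SI.mk (nat_lit 88) (nat_lit 3) (nat_lit 1) (nat_lit 0),
  SI.mk (nat_lit 0) (nat_lit 0) (nat_lit 0) (nat_lit 0),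
  SI.mk (nat_lit 88) (nat_lit 2) (nat_lit 0) (nat_lit 1),
  SI.mk (nat_lit 88) (nat_lit 6) (nat_lit 0) (nat_lit 0),
  SI.mk (nat_lit 89) (nat_lit 3) (nat_lit 1) (nat_lit 0),
  SI.mk (nat_lit 0) (nat_lit 0) (nat_lit 0) (nat_lit 0),
  SI.mk (nat_lit 89) (nat_lit 2) (nat_lit 0) (nat_lit 1),
  SI.mk (nat_lit 89) (nat_lit 6) (nat_lit 0) (nat_lit 0),
  SI.mk (nat_lit 90) (nat_lit 3) (nat_lit 1) (nat_lit 0),
  SI.mk (nat_lit 0) (nat_lit 0) (nat_lit 0) (nat_lit 0),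
  SI.mk (nat_lit 89) (nat_lit 1) (nat_lit 0) (nat_lit 1),
  SI.mk (nat_lit 90) (nat_lit 6) (nat_lit 0) (nat_lit 0),
  SI.mk (nat_lit 91) (nat_lit 3) (nat_lit 1) (nat_lit 0),
  SI.mk (nat_lit 87) (nat_lit 5) (nat_lit 0) (nat_lit 0),
  SI.mk (nat_lit 88) (nat_lit 2) (nat_lit 1) (nat_lit 0),
  SI.mk (nat_lit 88) (nat_lit 5) (nat_lit 0) (nat_lit 0),
  SI.mk (nat_lit 89) (nat_lit 2) (nat_lit 1) (nat_lit 0),
  SI.mk (nat_lit 89) (nat_lit 5) (nat_lit 0) (nat_lit 0),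
  SI.mk (nat_lit 90) (nat_lit 2) (nat_lit 1) (nat_lit 0),
  SI.mk (nat_lit 90) (nat_lit 5) (nat_lit 0) (nat_lit 0),
  SI.mk (nat_lit 91) (nat_lit 2) (nat_lit 1) (nat_lit 0),
  SI.mk (nat_lit 88) (nat_lit 4) (nat_lit 0) (nat_lit 0),
  SI.mk (nat_lit 89) (nat_lit 1) (nat_lit 1) (nat_lit 0),
  SI.mk (nat_lit 88) (nat_lit 4) (nat_lit 0) (nat_lit 0),
  SI.mk (nat_lit 89) (nat_lit 1) (nat_lit 1) (nat_lit 0),
  SI.mk (nat_lit 90) (nat_lit 4) (nat_lit 0) (nat_lit 0),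
  SI.mk (nat_lit 87) (nat_lit 3) (nat_lit 0) (nat_lit 0),
  SI.mk (nat_lit 90) (nat_lit 3) (nat_lit 0) (nat_lit 0),
  SI.mk (nat_lit 88) (nat_lit 2) (nat_lit 0) (nat_lit 0),
  SI.mk (nat_lit 89) (nat_lit 2) (nat_lit 0) (nat_lit 0),
  SI.mk (nat_lit 87) (nat_lit 1) (nat_lit 0) (nat_lit 0),
  SI.mk (nat_lit 88) (nat_lit 1) (nat_lit 0) (nat_lit 0),
  SI.mk (nat_lit 89) (nat_lit 1) (nat_lit 0) (nat_lit 0),
  SI.mk (nat_lit 89) (nat_lit 1) (nat_lit 0) (nat_lit 0),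
  SI.mk (nat_lit 90) (nat_lit 1) (nat_lit 0) (nat_lit 0)]

def q6_1 : List Nat := [nat_lit 0, nat_lit 0, nat_lit 0, nat_lit 0, nat_lit 0, nat_lit 0, nat_lit 0, nat_lit 0, nat_lit 0, nat_lit 0, nat_lit 14, nat_lit 14, nat_lit 13, nat_lit 13, nat_lit 12, nat_lit 11, nat_lit 11, nat_lit 10, nat_lit 9, nat_lit 8, nat_lit 7, nat_lit 6, nat_lit 6, nat_lit 6, nat_lit 5, nat_lit 5, nat_lit 5, nat_lit 5, nat_lit 4, nat_lit 4, nat_lit 4, nat_lit 4, nat_lit 3, nat_lit 3, nat_lit 3, nat_lit 2, nat_lit 2, nat_lit 1, nat_lit 1, nat_lit 0, nat_lit 0, nat_lit 0, nat_lit 0, nat_lit 0]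

def b6_1 : List Nat := [nat_lit 0, nat_lit 0, nat_lit 0, nat_lit 0, nat_lit 0, nat_lit 0, nat_lit 0, nat_lit 0, nat_lit 0, nat_lit 0, nat_lit 0, nat_lit 5, nat_lit 10, nat_lit 15, nat_lit 20, nat_lit 24, nat_lit 28, nat_lit 32, nat_lit 36, nat_lit 42, nat_lit 47, nat_lit 52, nat_lit 56, nat_lit 58, nat_lit 61, nat_lit 65, nat_lit 69, nat_lit 73, nat_lit 75, nat_lit 77, nat_lit 79, nat_lit 81, nat_lit 83, nat_lit 85, nat_lit 87, nat_lit 88, nat_lit 89, nat_lit 90, nat_lit 91, nat_lit 92, nat_lit 93, nat_lit 94, nat_lit 95, nat_lit 96]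

def k7_0 : KP := KP.mk (nat_lit 90) (nat_lit 21) (nat_lit 504) (nat_lit 7) (nat_lit 101) [
  SI.mk (nat_lit 90) (nat_lit 21) (nat_lit 0) (nat_lit 0),
  SI.mk (nat_lit 91) (nat_lit 18) (nat_lit 1) (nat_lit 0),
  SI.mk (nat_lit 92) (nat_lit 15) (nat_lit 2) (nat_lit 0),
  SI.mk (nat_lit 93) (nat_lit 12) (nat_lit 3) (nat_lit 0),
  SI.mk (nat_lit 94) (nat_lit 9) (nat_lit 4) (nat_lit 0),
  SI.mk (nat_lit 95) (nat_lit 6) (nat_lit 5) (nat_lit 0),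
  SI.mk (nat_lit 96) (nat_lit 3) (nat_lit 6) (nat_lit 0),
  SI.mk (nat_lit 90) (nat_lit 11) (nat_lit 0) (nat_lit 1),
  SI.mk (nat_lit 91) (nat_lit 8) (nat_lit 1) (nat_lit 1),
  SI.mk (nat_lit 92) (nat_lit 5) (nat_lit 2) (nat_lit 1),
  SI.mk (nat_lit 93) (nat_lit 2) (nat_lit 3) (nat_lit 1),
  SI.mk (nat_lit 0) (nat_lit 0) (nat_lit 0) (nat_lit 0),
  SI.mk (nat_lit 0) (nat_lit 0) (nat_lit 0) (nat_lit 0),
  SI.mk (nat_lit 0) (nat_lit 0) (nat_lit 0) (nat_lit 0),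
  SI.mk (nat_lit 90) (nat_lit 1) (nat_lit 0) (nat_lit 2),
  SI.mk (nat_lit 88) (nat_lit 20) (nat_lit 0) (nat_lit 0),
  SI.mk (nat_lit 89) (nat_lit 17) (nat_lit 1) (nat_lit 0),
  SI.mk (nat_lit 90) (nat_lit 14) (nat_lit 2) (nat_lit 0),
  SI.mk (nat_lit 91) (nat_lit 11) (nat_lit 3) (nat_lit 0),
  SI.mk (nat_lit 92) (nat_lit 8) (nat_lit 4) (nat_lit 0),
  SI.mk (nat_lit 93) (nat_lit 5) (nat_lit 5) (nat_lit 0),
  SI.mk (nat_lit 94) (nat_lit 2) (nat_lit 6) (nat_lit 0),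
  SI.mk (nat_lit 88) (nat_lit 10) (nat_lit 0) (nat_lit 1),
  SI.mk (nat_lit 89) (nat_lit 7) (nat_lit 1) (nat_lit 1),
  SI.mk (nat_lit 90) (nat_lit 4) (nat_lit 2) (nat_lit 1),
  SI.mk (nat_lit 90) (nat_lit 20) (nat_lit 0) (nat_lit 0),
  SI.mk (nat_lit 91) (nat_lit 17) (nat_lit 1) (nat_lit 0),
  SI.mk (nat_lit 92) (nat_lit 14) (nat_lit 2) (nat_lit 0),
  SI.mk (nat_lit 93) (nat_lit 11) (nat_lit 3) (nat_lit 0),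
  SI.mk (nat_lit 94) (nat_lit 8) (nat_lit 4) (nat_lit 0),
  SI.mk (nat_lit 95) (nat_lit 5) (nat_lit 5) (nat_lit 0),
  SI.mk (nat_lit 0) (nat_lit 0) (nat_lit 0) (nat_lit 0),
  SI.mk (nat_lit 90) (nat_lit 10) (nat_lit 0) (nat_lit 1),
  SI.mk (nat_lit 91) (nat_lit 7) (nat_lit 1) (nat_lit 1),
  SI.mk (nat_lit 92) (nat_lit 4) (nat_lit 2) (nat_lit 1),
  SI.mk (nat_lit 88) (nat_lit 19) (nat_lit 0) (nat_lit 0),
  SI.mk (nat_lit 89) (nat_lit 16) (nat_lit 1) (nat_lit 0),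
  SI.mk (nat_lit 90) (nat_lit 13) (nat_lit 2) (nat_lit 0),
  SI.mk (nat_lit 91) (nat_lit 10) (nat_lit 3) (nat_lit 0),
  SI.mk (nat_lit 92) (nat_lit 7) (nat_lit 4) (nat_lit 0),
  SI.mk (nat_lit 93) (nat_lit 4) (nat_lit 5) (nat_lit 0),
  SI.mk (nat_lit 0) (nat_lit 0) (nat_lit 0) (nat_lit 0),
  SI.mk (nat_lit 88) (nat_lit 9) (nat_lit 0) (nat_lit 1),
  SI.mk (nat_lit 89) (nat_lit 6) (nat_lit 1) (nat_lit 1),
  SI.mk (nat_lit 90) (nat_lit 3) (nat_lit 2) (nat_lit 1),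
  SI.mk (nat_lit 90) (nat_lit 19) (nat_lit 0) (nat_lit 0),
  SI.mk (nat_lit 91) (nat_lit 16) (nat_lit 1) (nat_lit 0),
  SI.mk (nat_lit 92) (nat_lit 13) (nat_lit 2) (nat_lit 0),
  SI.mk (nat_lit 93) (nat_lit 10) (nat_lit 3) (nat_lit 0),
  SI.mk (nat_lit 94) (nat_lit 7) (nat_lit 4) (nat_lit 0),
  SI.mk (nat_lit 95) (nat_lit 4) (nat_lit 5) (nat_lit 0),
  SI.mk (nat_lit 0) (nat_lit 0) (nat_lit 0) (nat_lit 0),
  SI.mk (nat_lit 90) (nat_lit 9) (nat_lit 0) (nat_lit 1),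
  SI.mk (nat_lit 91) (nat_lit 6) (nat_lit 1) (nat_lit 1),
  SI.mk (nat_lit 92) (nat_lit 3) (nat_lit 2) (nat_lit 1),
  SI.mk (nat_lit 89) (nat_lit 18) (nat_lit 0) (nat_lit 0),
  SI.mk (nat_lit 90) (nat_lit 15) (nat_lit 1) (nat_lit 0),
  SI.mk (nat_lit 91) (nat_lit 12) (nat_lit 2) (nat_lit 0),
  SI.mk (nat_lit 92) (nat_lit 9) (nat_lit 3) (nat_lit 0),
  SI.mk (nat_lit 93) (nat_lit 6) (nat_lit 4) (nat_lit 0),
  SI.mk (nat_lit 94) (nat_lit 3) (nat_lit 5) (nat_lit 0),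
  SI.mk (nat_lit 0) (nat_lit 0) (nat_lit 0) (nat_lit 0),
  SI.mk (nat_lit 89) (nat_lit 8) (nat_lit 0) (nat_lit 1),
  SI.mk (nat_lit 90) (nat_lit 5) (nat_lit 1) (nat_lit 1),
  SI.mk (nat_lit 91) (nat_lit 2) (nat_lit 2) (nat_lit 1),
  SI.mk (nat_lit 87) (nat_lit 17) (nat_lit 0) (nat_lit 0),
  SI.mk (nat_lit 88) (nat_lit 14) (nat_lit 1) (nat_lit 0),
  SI.mk (nat_lit 89) (nat_lit 11) (nat_lit 2) (nat_lit 0),
  SI.mk (nat_lit 90) (nat_lit 8) (nat_lit 3) (nat_lit 0),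
  SI.mk (nat_lit 91) (nat_lit 5) (nat_lit 4) (nat_lit 0),
  SI.mk (nat_lit 92) (nat_lit 2) (nat_lit 5) (nat_lit 0),
  SI.mk (nat_lit 0) (nat_lit 0) (nat_lit 0) (nat_lit 0),
  SI.mk (nat_lit 87) (nat_lit 7) (nat_lit 0) (nat_lit 1),
  SI.mk (nat_lit 88) (nat_lit 4) (nat_lit 1) (nat_lit 1),
  SI.mk (nat_lit 89) (nat_lit 1) (nat_lit 2) (nat_lit 1),
  SI.mk (nat_lit 89) (nat_lit 17) (nat_lit 0) (nat_lit 0),
  SI.mk (nat_lit 90) (nat_lit 14) (nat_lit 1) (nat_lit 0),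
  SI.mk (nat_lit 91) (nat_lit 11) (nat_lit 2) (nat_lit 0),
  SI.mk (nat_lit 92) (nat_lit 8) (nat_lit 3) (nat_lit 0),
  SI.mk (nat_lit 93) (nat_lit 5) (nat_lit 4) (nat_lit 0),
  SI.mk (nat_lit 94) (nat_lit 2) (nat_lit 5) (nat_lit 0),
  SI.mk (nat_lit 0) (nat_lit 0) (nat_lit 0) (nat_lit 0),
  SI.mk (nat_lit 89) (nat_lit 7) (nat_lit 0) (nat_lit 1),
  SI.mk (nat_lit 90) (nat_lit 4) (nat_lit 1) (nat_lit 1)]

def q7_0 : List Nat := [nat_lit 20, nat_lit 19, nat_lit 19, nat_lit 18, nat_lit 18, nat_lit 17, nat_lit 16, nat_lit 16]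

def b7_0 : List Nat := [nat_lit 0, nat_lit 15, nat_lit 25, nat_lit 35, nat_lit 45, nat_lit 55, nat_lit 65, nat_lit 75]

def k7_1 : KP := KP.mk (nat_lit 90) (nat_lit 16) (nat_lit 510) (nat_lit 61) (nat_lit 99) [
  SI.mk (nat_lit 87) (nat_lit 16) (nat_lit 0) (nat_lit 0),
  SI.mk (nat_lit 88) (nat_lit 13) (nat_lit 1) (nat_lit 0),
  SI.mk (nat_lit 89) (nat_lit 10) (nat_lit 2) (nat_lit 0),
  SI.mk (nat_lit 90) (nat_lit 7) (nat_lit 3) (nat_lit 0),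
  SI.mk (nat_lit 91) (nat_lit 4) (nat_lit 4) (nat_lit 0),
  SI.mk (nat_lit 89) (nat_lit 16) (nat_lit 0) (nat_lit 0),
  SI.mk (nat_lit 90) (nat_lit 13) (nat_lit 1) (nat_lit 0),
  SI.mk (nat_lit 91) (nat_lit 10) (nat_lit 2) (nat_lit 0),
  SI.mk (nat_lit 92) (nat_lit 7) (nat_lit 3) (nat_lit 0),
  SI.mk (nat_lit 93) (nat_lit 4) (nat_lit 4) (nat_lit 0),
  SI.mk (nat_lit 90) (nat_lit 14) (nat_lit 0) (nat_lit 0),
  SI.mk (nat_lit 91) (nat_lit 11) (nat_lit 1) (nat_lit 0),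
  SI.mk (nat_lit 92) (nat_lit 8) (nat_lit 2) (nat_lit 0),
  SI.mk (nat_lit 93) (nat_lit 5) (nat_lit 3) (nat_lit 0),
  SI.mk (nat_lit 94) (nat_lit 2) (nat_lit 4) (nat_lit 0),
  SI.mk (nat_lit 88) (nat_lit 13) (nat_lit 0) (nat_lit 0),
  SI.mk (nat_lit 89) (nat_lit 10) (nat_lit 1) (nat_lit 0),
  SI.mk (nat_lit 90) (nat_lit 7) (nat_lit 2) (nat_lit 0),
  SI.mk (nat_lit 91) (nat_lit 4) (nat_lit 3) (nat_lit 0),
  SI.mk (nat_lit 89) (nat_lit 12) (nat_lit 0) (nat_lit 0),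
  SI.mk (nat_lit 90) (nat_lit 9) (nat_lit 1) (nat_lit 0),
  SI.mk (nat_lit 91) (nat_lit 6) (nat_lit 2) (nat_lit 0),
  SI.mk (nat_lit 92) (nat_lit 3) (nat_lit 3) (nat_lit 0),
  SI.mk (nat_lit 89) (nat_lit 12) (nat_lit 0) (nat_lit 0),
  SI.mk (nat_lit 90) (nat_lit 9) (nat_lit 1) (nat_lit 0),
  SI.mk (nat_lit 91) (nat_lit 6) (nat_lit 2) (nat_lit 0),
  SI.mk (nat_lit 92) (nat_lit 3) (nat_lit 3) (nat_lit 0),
  SI.mk (nat_lit 87) (nat_lit 10) (nat_lit 0) (nat_lit 0),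
  SI.mk (nat_lit 88) (nat_lit 7) (nat_lit 1) (nat_lit 0),
  SI.mk (nat_lit 89) (nat_lit 4) (nat_lit 2) (nat_lit 0),
  SI.mk (nat_lit 90) (nat_lit 1) (nat_lit 3) (nat_lit 0),
  SI.mk (nat_lit 88) (nat_lit 9) (nat_lit 0) (nat_lit 0),
  SI.mk (nat_lit 89) (nat_lit 6) (nat_lit 1) (nat_lit 0),
  SI.mk (nat_lit 90) (nat_lit 3) (nat_lit 2) (nat_lit 0),
  SI.mk (nat_lit 90) (nat_lit 9) (nat_lit 0) (nat_lit 0),
  SI.mk (nat_lit 91) (nat_lit 6) (nat_lit 1) (nat_lit 0),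
  SI.mk (nat_lit 92) (nat_lit 3) (nat_lit 2) (nat_lit 0),
  SI.mk (nat_lit 90) (nat_lit 8) (nat_lit 0) (nat_lit 0),
  SI.mk (nat_lit 91) (nat_lit 5) (nat_lit 1) (nat_lit 0),
  SI.mk (nat_lit 92) (nat_lit 2) (nat_lit 2) (nat_lit 0),
  SI.mk (nat_lit 87) (nat_lit 7) (nat_lit 0) (nat_lit 0),
  SI.mk (nat_lit 88) (nat_lit 4) (nat_lit 1) (nat_lit 0),
  SI.mk (nat_lit 89) (nat_lit 1) (nat_lit 2) (nat_lit 0),
  SI.mk (nat_lit 89) (nat_lit 7) (nat_lit 0) (nat_lit 0),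
  SI.mk (nat_lit 90) (nat_lit 4) (nat_lit 1) (nat_lit 0),
  SI.mk (nat_lit 87) (nat_lit 6) (nat_lit 0) (nat_lit 0),
  SI.mk (nat_lit 88) (nat_lit 3) (nat_lit 1) (nat_lit 0),
  SI.mk (nat_lit 87) (nat_lit 6) (nat_lit 0) (nat_lit 0),
  SI.mk (nat_lit 88) (nat_lit 3) (nat_lit 1) (nat_lit 0),
  SI.mk (nat_lit 89) (nat_lit 6) (nat_lit 0) (nat_lit 0),
  SI.mk (nat_lit 90) (nat_lit 3) (nat_lit 1) (nat_lit 0),
  SI.mk (nat_lit 90) (nat_lit 6) (nat_lit 0) (nat_lit 0),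
  SI.mk (nat_lit 91) (nat_lit 3) (nat_lit 1) (nat_lit 0),
  SI.mk (nat_lit 87) (nat_lit 5) (nat_lit 0) (nat_lit 0),
  SI.mk (nat_lit 88) (nat_lit 2) (nat_lit 1) (nat_lit 0),
  SI.mk (nat_lit 88) (nat_lit 5) (nat_lit 0) (nat_lit 0),
  SI.mk (nat_lit 89) (nat_lit 2) (nat_lit 1) (nat_lit 0),
  SI.mk (nat_lit 89) (nat_lit 5) (nat_lit 0) (nat_lit 0),
  SI.mk (nat_lit 90) (nat_lit 2) (nat_lit 1) (nat_lit 0),
  SI.mk (nat_lit 89) (nat_lit 5) (nat_lit 0) (nat_lit 0),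
  SI.mk (nat_lit 90) (nat_lit 2) (nat_lit 1) (nat_lit 0),
  SI.mk (nat_lit 87) (nat_lit 6) (nat_lit 0) (nat_lit 1),
  SI.mk (nat_lit 88) (nat_lit 3) (nat_lit 1) (nat_lit 1),
  SI.mk (nat_lit 87) (nat_lit 4) (nat_lit 0) (nat_lit 0),
  SI.mk (nat_lit 88) (nat_lit 1) (nat_lit 1) (nat_lit 0),
  SI.mk (nat_lit 0) (nat_lit 0) (nat_lit 0) (nat_lit 0),
  SI.mk (nat_lit 89) (nat_lit 6) (nat_lit 0) (nat_lit 1),
  SI.mk (nat_lit 90) (nat_lit 3) (nat_lit 1) (nat_lit 1),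
  SI.mk (nat_lit 89) (nat_lit 4) (nat_lit 0) (nat_lit 0),
  SI.mk (nat_lit 90) (nat_lit 1) (nat_lit 1) (nat_lit 0),
  SI.mk (nat_lit 90) (nat_lit 4) (nat_lit 0) (nat_lit 0),
  SI.mk (nat_lit 90) (nat_lit 4) (nat_lit 0) (nat_lit 1),
  SI.mk (nat_lit 87) (nat_lit 3) (nat_lit 0) (nat_lit 0),
  SI.mk (nat_lit 88) (nat_lit 3) (nat_lit 0) (nat_lit 0),
  SI.mk (nat_lit 90) (nat_lit 3) (nat_lit 0) (nat_lit 0),
  SI.mk (nat_lit 87) (nat_lit 2) (nat_lit 0) (nat_lit 0),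
  SI.mk (nat_lit 88) (nat_lit 3) (nat_lit 0) (nat_lit 1),
  SI.mk (nat_lit 88) (nat_lit 2) (nat_lit 0) (nat_lit 0),
  SI.mk (nat_lit 89) (nat_lit 2) (nat_lit 0) (nat_lit 0),
  SI.mk (nat_lit 88) (nat_lit 1) (nat_lit 0) (nat_lit 0),
  SI.mk (nat_lit 89) (nat_lit 2) (nat_lit 0) (nat_lit 1),
  SI.mk (nat_lit 89) (nat_lit 1) (nat_lit 0) (nat_lit 0),
  SI.mk (nat_lit 90) (nat_lit 1) (nat_lit 0) (nat_lit 0),
  SI.mk (nat_lit 90) (nat_lit 1) (nat_lit 0) (nat_lit 0),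
  SI.mk (nat_lit 89) (nat_lit 2) (nat_lit 0) (nat_lit 1)]

def q7_1 : List Nat := [nat_lit 0, nat_lit 0, nat_lit 0, nat_lit 0, nat_lit 0, nat_lit 0, nat_lit 0, nat_lit 0, nat_lit 15, nat_lit 15, nat_lit 13, nat_lit 12, nat_lit 11, nat_lit 11, nat_lit 9, nat_lit 8, nat_lit 8, nat_lit 7, nat_lit 6, nat_lit 6, nat_lit 5, nat_lit 5, nat_lit 5, nat_lit 5, nat_lit 4, nat_lit 4, nat_lit 4, nat_lit 4, nat_lit 3, nat_lit 3, nat_lit 3, nat_lit 2, nat_lit 2, nat_lit 2, nat_lit 1, nat_lit 1, nat_lit 1, nat_lit 0, nat_lit 0, nat_lit 0, nat_lit 0]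

def b7_1 : List Nat := [nat_lit 0, nat_lit 0, nat_lit 0, nat_lit 0, nat_lit 0, nat_lit 0, nat_lit 0, nat_lit 0, nat_lit 0, nat_lit 5, nat_lit 10, nat_lit 15, nat_lit 19, nat_lit 23, nat_lit 27, nat_lit 31, nat_lit 34, nat_lit 37, nat_lit 40, nat_lit 43, nat_lit 45, nat_lit 47, nat_lit 49, nat_lit 51, nat_lit 53, nat_lit 55, nat_lit 57, nat_lit 59, nat_lit 63, nat_lit 68, nat_lit 70, nat_lit 72, nat_lit 73, nat_lit 74, nat_lit 75, nat_lit 77, nat_lit 78, nat_lit 79, nat_lit 81, nat_lit 82, nat_lit 83]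

def k8_0 : KP := KP.mk (nat_lit 90) (nat_lit 20) (nat_lit 474) (nat_lit 7) (nat_lit 100) [
  SI.mk (nat_lit 88) (nat_lit 20) (nat_lit 0) (nat_lit 0),
  SI.mk (nat_lit 89) (nat_lit 17) (nat_lit 1) (nat_lit 0),
  SI.mk (nat_lit 90) (nat_lit 14) (nat_lit 2) (nat_lit 0),
  SI.mk (nat_lit 91) (nat_lit 11) (nat_lit 3) (nat_lit 0),
  SI.mk (nat_lit 92) (nat_lit 8) (nat_lit 4) (nat_lit 0),
  SI.mk (nat_lit 93) (nat_lit 5) (nat_lit 5) (nat_lit 0),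
  SI.mk (nat_lit 94) (nat_lit 2) (nat_lit 6) (nat_lit 0),
  SI.mk (nat_lit 88) (nat_lit 10) (nat_lit 0) (nat_lit 1),
  SI.mk (nat_lit 89) (nat_lit 7) (nat_lit 1) (nat_lit 1),
  SI.mk (nat_lit 90) (nat_lit 4) (nat_lit 2) (nat_lit 1),
  SI.mk (nat_lit 90) (nat_lit 20) (nat_lit 0) (nat_lit 0),
  SI.mk (nat_lit 91) (nat_lit 17) (nat_lit 1) (nat_lit 0),
  SI.mk (nat_lit 92) (nat_lit 14) (nat_lit 2) (nat_lit 0),
  SI.mk (nat_lit 93) (nat_lit 11) (nat_lit 3) (nat_lit 0),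
  SI.mk (nat_lit 94) (nat_lit 8) (nat_lit 4) (nat_lit 0),
  SI.mk (nat_lit 95) (nat_lit 5) (nat_lit 5) (nat_lit 0),
  SI.mk (nat_lit 0) (nat_lit 0) (nat_lit 0) (nat_lit 0),
  SI.mk (nat_lit 90) (nat_lit 10) (nat_lit 0) (nat_lit 1),
  SI.mk (nat_lit 91) (nat_lit 7) (nat_lit 1) (nat_lit 1),
  SI.mk (nat_lit 92) (nat_lit 4) (nat_lit 2) (nat_lit 1),
  SI.mk (nat_lit 88) (nat_lit 19) (nat_lit 0) (nat_lit 0),
  SI.mk (nat_lit 89) (nat_lit 16) (nat_lit 1) (nat_lit 0),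
  SI.mk (nat_lit 90) (nat_lit 13) (nat_lit 2) (nat_lit 0),
  SI.mk (nat_lit 91) (nat_lit 10) (nat_lit 3) (nat_lit 0),
  SI.mk (nat_lit 92) (nat_lit 7) (nat_lit 4) (nat_lit 0),
  SI.mk (nat_lit 93) (nat_lit 4) (nat_lit 5) (nat_lit 0),
  SI.mk (nat_lit 0) (nat_lit 0) (nat_lit 0) (nat_lit 0),
  SI.mk (nat_lit 88) (nat_lit 9) (nat_lit 0) (nat_lit 1),
  SI.mk (nat_lit 89) (nat_lit 6) (nat_lit 1) (nat_lit 1),
  SI.mk (nat_lit 90) (nat_lit 3) (nat_lit 2) (nat_lit 1),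
  SI.mk (nat_lit 90) (nat_lit 19) (nat_lit 0) (nat_lit 0),
  SI.mk (nat_lit 91) (nat_lit 16) (nat_lit 1) (nat_lit 0),
  SI.mk (nat_lit 92) (nat_lit 13) (nat_lit 2) (nat_lit 0),
  SI.mk (nat_lit 93) (nat_lit 10) (nat_lit 3) (nat_lit 0),
  SI.mk (nat_lit 94) (nat_lit 7) (nat_lit 4) (nat_lit 0),
  SI.mk (nat_lit 95) (nat_lit 4) (nat_lit 5) (nat_lit 0),
  SI.mk (nat_lit 0) (nat_lit 0) (nat_lit 0) (nat_lit 0),
  SI.mk (nat_lit 90) (nat_lit 9) (nat_lit 0) (nat_lit 1),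
  SI.mk (nat_lit 91) (nat_lit 6) (nat_lit 1) (nat_lit 1),
  SI.mk (nat_lit 92) (nat_lit 3) (nat_lit 2) (nat_lit 1),
  SI.mk (nat_lit 88) (nat_lit 18) (nat_lit 0) (nat_lit 0),
  SI.mk (nat_lit 89) (nat_lit 15) (nat_lit 1) (nat_lit 0),
  SI.mk (nat_lit 90) (nat_lit 12) (nat_lit 2) (nat_lit 0),
  SI.mk (nat_lit 91) (nat_lit 9) (nat_lit 3) (nat_lit 0),
  SI.mk (nat_lit 92) (nat_lit 6) (nat_lit 4) (nat_lit 0),
  SI.mk (nat_lit 93) (nat_lit 3) (nat_lit 5) (nat_lit 0),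
  SI.mk (nat_lit 0) (nat_lit 0) (nat_lit 0) (nat_lit 0),
  SI.mk (nat_lit 88) (nat_lit 8) (nat_lit 0) (nat_lit 1),
  SI.mk (nat_lit 89) (nat_lit 5) (nat_lit 1) (nat_lit 1),
  SI.mk (nat_lit 90) (nat_lit 2) (nat_lit 2) (nat_lit 1),
  SI.mk (nat_lit 90) (nat_lit 18) (nat_lit 0) (nat_lit 0),
  SI.mk (nat_lit 91) (nat_lit 15) (nat_lit 1) (nat_lit 0),
  SI.mk (nat_lit 92) (nat_lit 12) (nat_lit 2) (nat_lit 0),
  SI.mk (nat_lit 93) (nat_lit 9) (nat_lit 3) (nat_lit 0),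
  SI.mk (nat_lit 94) (nat_lit 6) (nat_lit 4) (nat_lit 0),
  SI.mk (nat_lit 95) (nat_lit 3) (nat_lit 5) (nat_lit 0),
  SI.mk (nat_lit 0) (nat_lit 0) (nat_lit 0) (nat_lit 0),
  SI.mk (nat_lit 90) (nat_lit 8) (nat_lit 0) (nat_lit 1),
  SI.mk (nat_lit 91) (nat_lit 5) (nat_lit 1) (nat_lit 1),
  SI.mk (nat_lit 92) (nat_lit 2) (nat_lit 2) (nat_lit 1),
  SI.mk (nat_lit 88) (nat_lit 17) (nat_lit 0) (nat_lit 0),
  SI.mk (nat_lit 89) (nat_lit 14) (nat_lit 1) (nat_lit 0),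
  SI.mk (nat_lit 90) (nat_lit 11) (nat_lit 2) (nat_lit 0),
  SI.mk (nat_lit 91) (nat_lit 8) (nat_lit 3) (nat_lit 0),
  SI.mk (nat_lit 92) (nat_lit 5) (nat_lit 4) (nat_lit 0),
  SI.mk (nat_lit 93) (nat_lit 2) (nat_lit 5) (nat_lit 0),
  SI.mk (nat_lit 0) (nat_lit 0) (nat_lit 0) (nat_lit 0),
  SI.mk (nat_lit 88) (nat_lit 7) (nat_lit 0) (nat_lit 1),
  SI.mk (nat_lit 89) (nat_lit 4) (nat_lit 1) (nat_lit 1),
  SI.mk (nat_lit 90) (nat_lit 1) (nat_lit 2) (nat_lit 1),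
  SI.mk (nat_lit 90) (nat_lit 17) (nat_lit 0) (nat_lit 0),
  SI.mk (nat_lit 91) (nat_lit 14) (nat_lit 1) (nat_lit 0),
  SI.mk (nat_lit 92) (nat_lit 11) (nat_lit 2) (nat_lit 0),
  SI.mk (nat_lit 93) (nat_lit 8) (nat_lit 3) (nat_lit 0),
  SI.mk (nat_lit 94) (nat_lit 5) (nat_lit 4) (nat_lit 0),
  SI.mk (nat_lit 0) (nat_lit 0) (nat_lit 0) (nat_lit 0),
  SI.mk (nat_lit 0) (nat_lit 0) (nat_lit 0) (nat_lit 0),
  SI.mk (nat_lit 90) (nat_lit 7) (nat_lit 0) (nat_lit 1),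
  SI.mk (nat_lit 91) (nat_lit 4) (nat_lit 1) (nat_lit 1)]

def q8_0 : List Nat := [nat_lit 19, nat_lit 19, nat_lit 18, nat_lit 18, nat_lit 17, nat_lit 17, nat_lit 16, nat_lit 16]

def b8_0 : List Nat := [nat_lit 0, nat_lit 10, nat_lit 20, nat_lit 30, nat_lit 40, nat_lit 50, nat_lit 60, nat_lit 70]

def k8_1 : KP := KP.mk (nat_lit 90) (nat_lit 16) (nat_lit 498) (nat_lit 26) (nat_lit 99) [
  SI.mk (nat_lit 88) (nat_lit 16) (nat_lit 0) (nat_lit 0),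
  SI.mk (nat_lit 89) (nat_lit 13) (nat_lit 1) (nat_lit 0),
  SI.mk (nat_lit 90) (nat_lit 10) (nat_lit 2) (nat_lit 0),
  SI.mk (nat_lit 91) (nat_lit 7) (nat_lit 3) (nat_lit 0),
  SI.mk (nat_lit 92) (nat_lit 4) (nat_lit 4) (nat_lit 0),
  SI.mk (nat_lit 90) (nat_lit 16) (nat_lit 0) (nat_lit 0),
  SI.mk (nat_lit 91) (nat_lit 13) (nat_lit 1) (nat_lit 0),
  SI.mk (nat_lit 92) (nat_lit 10) (nat_lit 2) (nat_lit 0),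
  SI.mk (nat_lit 93) (nat_lit 7) (nat_lit 3) (nat_lit 0),
  SI.mk (nat_lit 94) (nat_lit 4) (nat_lit 4) (nat_lit 0),
  SI.mk (nat_lit 89) (nat_lit 13) (nat_lit 0) (nat_lit 0),
  SI.mk (nat_lit 90) (nat_lit 10) (nat_lit 1) (nat_lit 0),
  SI.mk (nat_lit 91) (nat_lit 7) (nat_lit 2) (nat_lit 0),
  SI.mk (nat_lit 92) (nat_lit 4) (nat_lit 3) (nat_lit 0),
  SI.mk (nat_lit 89) (nat_lit 12) (nat_lit 0) (nat_lit 0),
  SI.mk (nat_lit 90) (nat_lit 9) (nat_lit 1) (nat_lit 0),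
  SI.mk (nat_lit 91) (nat_lit 6) (nat_lit 2) (nat_lit 0),
  SI.mk (nat_lit 92) (nat_lit 3) (nat_lit 3) (nat_lit 0),
  SI.mk (nat_lit 90) (nat_lit 12) (nat_lit 0) (nat_lit 0),
  SI.mk (nat_lit 91) (nat_lit 9) (nat_lit 1) (nat_lit 0),
  SI.mk (nat_lit 92) (nat_lit 6) (nat_lit 2) (nat_lit 0),
  SI.mk (nat_lit 93) (nat_lit 3) (nat_lit 3) (nat_lit 0),
  SI.mk (nat_lit 87) (nat_lit 10) (nat_lit 0) (nat_lit 0),
  SI.mk (nat_lit 88) (nat_lit 7) (nat_lit 1) (nat_lit 0),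
  SI.mk (nat_lit 89) (nat_lit 4) (nat_lit 2) (nat_lit 0),
  SI.mk (nat_lit 90) (nat_lit 1) (nat_lit 3) (nat_lit 0),
  SI.mk (nat_lit 88) (nat_lit 6) (nat_lit 0) (nat_lit 1),
  SI.mk (nat_lit 89) (nat_lit 3) (nat_lit 1) (nat_lit 1),
  SI.mk (nat_lit 88) (nat_lit 9) (nat_lit 0) (nat_lit 0),
  SI.mk (nat_lit 89) (nat_lit 6) (nat_lit 1) (nat_lit 0),
  SI.mk (nat_lit 90) (nat_lit 3) (nat_lit 2) (nat_lit 0),
  SI.mk (nat_lit 90) (nat_lit 6) (nat_lit 0) (nat_lit 1),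
  SI.mk (nat_lit 91) (nat_lit 3) (nat_lit 1) (nat_lit 1),
  SI.mk (nat_lit 89) (nat_lit 9) (nat_lit 0) (nat_lit 0),
  SI.mk (nat_lit 90) (nat_lit 6) (nat_lit 1) (nat_lit 0),
  SI.mk (nat_lit 91) (nat_lit 3) (nat_lit 2) (nat_lit 0),
  SI.mk (nat_lit 89) (nat_lit 3) (nat_lit 0) (nat_lit 1),
  SI.mk (nat_lit 90) (nat_lit 9) (nat_lit 0) (nat_lit 0),
  SI.mk (nat_lit 91) (nat_lit 6) (nat_lit 1) (nat_lit 0),
  SI.mk (nat_lit 92) (nat_lit 3) (nat_lit 2) (nat_lit 0),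
  SI.mk (nat_lit 89) (nat_lit 2) (nat_lit 0) (nat_lit 1),
  SI.mk (nat_lit 88) (nat_lit 8) (nat_lit 0) (nat_lit 0),
  SI.mk (nat_lit 89) (nat_lit 5) (nat_lit 1) (nat_lit 0),
  SI.mk (nat_lit 90) (nat_lit 2) (nat_lit 2) (nat_lit 0),
  SI.mk (nat_lit 90) (nat_lit 2) (nat_lit 0) (nat_lit 1),
  SI.mk (nat_lit 90) (nat_lit 8) (nat_lit 0) (nat_lit 0),
  SI.mk (nat_lit 91) (nat_lit 5) (nat_lit 1) (nat_lit 0),
  SI.mk (nat_lit 92) (nat_lit 2) (nat_lit 2) (nat_lit 0),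
  SI.mk (nat_lit 87) (nat_lit 7) (nat_lit 0) (nat_lit 0),
  SI.mk (nat_lit 88) (nat_lit 4) (nat_lit 1) (nat_lit 0),
  SI.mk (nat_lit 89) (nat_lit 1) (nat_lit 2) (nat_lit 0),
  SI.mk (nat_lit 88) (nat_lit 7) (nat_lit 0) (nat_lit 0),
  SI.mk (nat_lit 89) (nat_lit 4) (nat_lit 1) (nat_lit 0),
  SI.mk (nat_lit 90) (nat_lit 1) (nat_lit 2) (nat_lit 0),
  SI.mk (nat_lit 88) (nat_lit 7) (nat_lit 0) (nat_lit 0),
  SI.mk (nat_lit 89) (nat_lit 4) (nat_lit 1) (nat_lit 0),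
  SI.mk (nat_lit 90) (nat_lit 1) (nat_lit 2) (nat_lit 0),
  SI.mk (nat_lit 90) (nat_lit 7) (nat_lit 0) (nat_lit 0),
  SI.mk (nat_lit 91) (nat_lit 4) (nat_lit 1) (nat_lit 0),
  SI.mk (nat_lit 90) (nat_lit 7) (nat_lit 0) (nat_lit 0),
  SI.mk (nat_lit 91) (nat_lit 4) (nat_lit 1) (nat_lit 0),
  SI.mk (nat_lit 88) (nat_lit 6) (nat_lit 0) (nat_lit 0),
  SI.mk (nat_lit 89) (nat_lit 3) (nat_lit 1) (nat_lit 0),
  SI.mk (nat_lit 90) (nat_lit 6) (nat_lit 0) (nat_lit 0),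
  SI.mk (nat_lit 91) (nat_lit 3) (nat_lit 1) (nat_lit 0),
  SI.mk (nat_lit 87) (nat_lit 5) (nat_lit 0) (nat_lit 0),
  SI.mk (nat_lit 88) (nat_lit 2) (nat_lit 1) (nat_lit 0),
  SI.mk (nat_lit 88) (nat_lit 5) (nat_lit 0) (nat_lit 0),
  SI.mk (nat_lit 89) (nat_lit 2) (nat_lit 1) (nat_lit 0),
  SI.mk (nat_lit 87) (nat_lit 4) (nat_lit 0) (nat_lit 0),
  SI.mk (nat_lit 88) (nat_lit 1) (nat_lit 1) (nat_lit 0),
  SI.mk (nat_lit 89) (nat_lit 4) (nat_lit 0) (nat_lit 0),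
  SI.mk (nat_lit 90) (nat_lit 1) (nat_lit 1) (nat_lit 0),
  SI.mk (nat_lit 87) (nat_lit 3) (nat_lit 0) (nat_lit 0),
  SI.mk (nat_lit 89) (nat_lit 3) (nat_lit 0) (nat_lit 0),
  SI.mk (nat_lit 89) (nat_lit 3) (nat_lit 0) (nat_lit 0),
  SI.mk (nat_lit 87) (nat_lit 2) (nat_lit 0) (nat_lit 0),
  SI.mk (nat_lit 87) (nat_lit 2) (nat_lit 0) (nat_lit 0),
  SI.mk (nat_lit 89) (nat_lit 2) (nat_lit 0) (nat_lit 0),
  SI.mk (nat_lit 89) (nat_lit 2) (nat_lit 0) (nat_lit 0),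
  SI.mk (nat_lit 88) (nat_lit 1) (nat_lit 0) (nat_lit 0),
  SI.mk (nat_lit 90) (nat_lit 1) (nat_lit 0) (nat_lit 0),
  SI.mk (nat_lit 90) (nat_lit 1) (nat_lit 0) (nat_lit 0)]

def q8_1 : List Nat := [nat_lit 0, nat_lit 0, nat_lit 0, nat_lit 0, nat_lit 0, nat_lit 0, nat_lit 0, nat_lit 0, nat_lit 15, nat_lit 15, nat_lit 12, nat_lit 11, nat_lit 11, nat_lit 9, nat_lit 8, nat_lit 8, nat_lit 8, nat_lit 7, nat_lit 7, nat_lit 6, nat_lit 6, nat_lit 6, nat_lit 6, nat_lit 6, nat_lit 5, nat_lit 5, nat_lit 4, nat_lit 4, nat_lit 3, nat_lit 3, nat_lit 2, nat_lit 2, nat_lit 2, nat_lit 1, nat_lit 1, nat_lit 1, nat_lit 1, nat_lit 0, nat_lit 0, nat_lit 0]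

def b8_1 : List Nat := [nat_lit 0, nat_lit 0, nat_lit 0, nat_lit 0, nat_lit 0, nat_lit 0, nat_lit 0, nat_lit 0, nat_lit 0, nat_lit 5, nat_lit 10, nat_lit 14, nat_lit 18, nat_lit 22, nat_lit 28, nat_lit 33, nat_lit 37, nat_lit 41, nat_lit 45, nat_lit 48, nat_lit 51, nat_lit 54, nat_lit 57, nat_lit 59, nat_lit 61, nat_lit 63, nat_lit 65, nat_lit 67, nat_lit 69, nat_lit 71, nat_lit 73, nat_lit 74, nat_lit 75, nat_lit 76, nat_lit 77, nat_lit 78, nat_lit 79, nat_lit 80, nat_lit 81, nat_lit 82]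

def k9_0 : KP := KP.mk (nat_lit 90) (nat_lit 20) (nat_lit 468) (nat_lit 6) (nat_lit 99) [
  SI.mk (nat_lit 89) (nat_lit 20) (nat_lit 0) (nat_lit 0),
  SI.mk (nat_lit 90) (nat_lit 17) (nat_lit 1) (nat_lit 0),
  SI.mk (nat_lit 91) (nat_lit 14) (nat_lit 2) (nat_lit 0),
  SI.mk (nat_lit 92) (nat_lit 11) (nat_lit 3) (nat_lit 0),
  SI.mk (nat_lit 93) (nat_lit 8) (nat_lit 4) (nat_lit 0),
  SI.mk (nat_lit 94) (nat_lit 5) (nat_lit 5) (nat_lit 0),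
  SI.mk (nat_lit 89) (nat_lit 10) (nat_lit 0) (nat_lit 1),
  SI.mk (nat_lit 90) (nat_lit 7) (nat_lit 1) (nat_lit 1),
  SI.mk (nat_lit 91) (nat_lit 4) (nat_lit 2) (nat_lit 1),
  SI.mk (nat_lit 87) (nat_lit 19) (nat_lit 0) (nat_lit 0),
  SI.mk (nat_lit 88) (nat_lit 16) (nat_lit 1) (nat_lit 0),
  SI.mk (nat_lit 89) (nat_lit 13) (nat_lit 2) (nat_lit 0),
  SI.mk (nat_lit 90) (nat_lit 10) (nat_lit 3) (nat_lit 0),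
  SI.mk (nat_lit 91) (nat_lit 7) (nat_lit 4) (nat_lit 0),
  SI.mk (nat_lit 92) (nat_lit 4) (nat_lit 5) (nat_lit 0),
  SI.mk (nat_lit 87) (nat_lit 9) (nat_lit 0) (nat_lit 1),
  SI.mk (nat_lit 88) (nat_lit 6) (nat_lit 1) (nat_lit 1),
  SI.mk (nat_lit 89) (nat_lit 3) (nat_lit 2) (nat_lit 1),
  SI.mk (nat_lit 89) (nat_lit 19) (nat_lit 0) (nat_lit 0),
  SI.mk (nat_lit 90) (nat_lit 16) (nat_lit 1) (nat_lit 0),
  SI.mk (nat_lit 91) (nat_lit 13) (nat_lit 2) (nat_lit 0),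
  SI.mk (nat_lit 92) (nat_lit 10) (nat_lit 3) (nat_lit 0),
  SI.mk (nat_lit 93) (nat_lit 7) (nat_lit 4) (nat_lit 0),
  SI.mk (nat_lit 94) (nat_lit 4) (nat_lit 5) (nat_lit 0),
  SI.mk (nat_lit 89) (nat_lit 9) (nat_lit 0) (nat_lit 1),
  SI.mk (nat_lit 90) (nat_lit 6) (nat_lit 1) (nat_lit 1),
  SI.mk (nat_lit 91) (nat_lit 3) (nat_lit 2) (nat_lit 1),
  SI.mk (nat_lit 87) (nat_lit 18) (nat_lit 0) (nat_lit 0),
  SI.mk (nat_lit 88) (nat_lit 15) (nat_lit 1) (nat_lit 0),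
  SI.mk (nat_lit 89) (nat_lit 12) (nat_lit 2) (nat_lit 0),
  SI.mk (nat_lit 90) (nat_lit 9) (nat_lit 3) (nat_lit 0),
  SI.mk (nat_lit 91) (nat_lit 6) (nat_lit 4) (nat_lit 0),
  SI.mk (nat_lit 92) (nat_lit 3) (nat_lit 5) (nat_lit 0),
  SI.mk (nat_lit 87) (nat_lit 8) (nat_lit 0) (nat_lit 1),
  SI.mk (nat_lit 88) (nat_lit 5) (nat_lit 1) (nat_lit 1),
  SI.mk (nat_lit 89) (nat_lit 2) (nat_lit 2) (nat_lit 1),
  SI.mk (nat_lit 89) (nat_lit 18) (nat_lit 0) (nat_lit 0),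
  SI.mk (nat_lit 90) (nat_lit 15) (nat_lit 1) (nat_lit 0),
  SI.mk (nat_lit 91) (nat_lit 12) (nat_lit 2) (nat_lit 0),
  SI.mk (nat_lit 92) (nat_lit 9) (nat_lit 3) (nat_lit 0),
  SI.mk (nat_lit 93) (nat_lit 6) (nat_lit 4) (nat_lit 0),
  SI.mk (nat_lit 94) (nat_lit 3) (nat_lit 5) (nat_lit 0),
  SI.mk (nat_lit 89) (nat_lit 8) (nat_lit 0) (nat_lit 1),
  SI.mk (nat_lit 90) (nat_lit 5) (nat_lit 1) (nat_lit 1),
  SI.mk (nat_lit 91) (nat_lit 2) (nat_lit 2) (nat_lit 1),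
  SI.mk (nat_lit 88) (nat_lit 17) (nat_lit 0) (nat_lit 0),
  SI.mk (nat_lit 89) (nat_lit 14) (nat_lit 1) (nat_lit 0),
  SI.mk (nat_lit 90) (nat_lit 11) (nat_lit 2) (nat_lit 0),
  SI.mk (nat_lit 91) (nat_lit 8) (nat_lit 3) (nat_lit 0),
  SI.mk (nat_lit 92) (nat_lit 5) (nat_lit 4) (nat_lit 0),
  SI.mk (nat_lit 93) (nat_lit 2) (nat_lit 5) (nat_lit 0),
  SI.mk (nat_lit 88) (nat_lit 7) (nat_lit 0) (nat_lit 1),
  SI.mk (nat_lit 89) (nat_lit 4) (nat_lit 1) (nat_lit 1),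
  SI.mk (nat_lit 90) (nat_lit 1) (nat_lit 2) (nat_lit 1),
  SI.mk (nat_lit 90) (nat_lit 17) (nat_lit 0) (nat_lit 0),
  SI.mk (nat_lit 91) (nat_lit 14) (nat_lit 1) (nat_lit 0),
  SI.mk (nat_lit 92) (nat_lit 11) (nat_lit 2) (nat_lit 0),
  SI.mk (nat_lit 93) (nat_lit 8) (nat_lit 3) (nat_lit 0),
  SI.mk (nat_lit 94) (nat_lit 5) (nat_lit 4) (nat_lit 0),
  SI.mk (nat_lit 0) (nat_lit 0) (nat_lit 0) (nat_lit 0),
  SI.mk (nat_lit 90) (nat_lit 7) (nat_lit 0) (nat_lit 1),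
  SI.mk (nat_lit 91) (nat_lit 4) (nat_lit 1) (nat_lit 1),
  SI.mk (nat_lit 88) (nat_lit 16) (nat_lit 0) (nat_lit 0),
  SI.mk (nat_lit 89) (nat_lit 13) (nat_lit 1) (nat_lit 0),
  SI.mk (nat_lit 90) (nat_lit 10) (nat_lit 2) (nat_lit 0),
  SI.mk (nat_lit 91) (nat_lit 7) (nat_lit 3) (nat_lit 0),
  SI.mk (nat_lit 92) (nat_lit 4) (nat_lit 4) (nat_lit 0),
  SI.mk (nat_lit 0) (nat_lit 0) (nat_lit 0) (nat_lit 0),
  SI.mk (nat_lit 88) (nat_lit 6) (nat_lit 0) (nat_lit 1),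
  SI.mk (nat_lit 89) (nat_lit 3) (nat_lit 1) (nat_lit 1),
  SI.mk (nat_lit 90) (nat_lit 16) (nat_lit 0) (nat_lit 0),
  SI.mk (nat_lit 91) (nat_lit 13) (nat_lit 1) (nat_lit 0),
  SI.mk (nat_lit 92) (nat_lit 10) (nat_lit 2) (nat_lit 0),
  SI.mk (nat_lit 93) (nat_lit 7) (nat_lit 3) (nat_lit 0),
  SI.mk (nat_lit 94) (nat_lit 4) (nat_lit 4) (nat_lit 0),
  SI.mk (nat_lit 0) (nat_lit 0) (nat_lit 0) (nat_lit 0),
  SI.mk (nat_lit 90) (nat_lit 6) (nat_lit 0) (nat_lit 1),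
  SI.mk (nat_lit 91) (nat_lit 3) (nat_lit 1) (nat_lit 1)]

def q9_0 : List Nat := [nat_lit 19, nat_lit 18, nat_lit 18, nat_lit 17, nat_lit 17, nat_lit 16, nat_lit 16, nat_lit 15, nat_lit 15]

def b9_0 : List Nat := [nat_lit 0, nat_lit 9, nat_lit 18, nat_lit 27, nat_lit 36, nat_lit 45, nat_lit 54, nat_lit 62, nat_lit 70]

def k9_1 : KP := KP.mk (nat_lit 90) (nat_lit 15) (nat_lit 480) (nat_lit 17) (nat_lit 98) [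
  SI.mk (nat_lit 88) (nat_lit 15) (nat_lit 0) (nat_lit 0),
  SI.mk (nat_lit 89) (nat_lit 12) (nat_lit 1) (nat_lit 0),
  SI.mk (nat_lit 90) (nat_lit 9) (nat_lit 2) (nat_lit 0),
  SI.mk (nat_lit 91) (nat_lit 6) (nat_lit 3) (nat_lit 0),
  SI.mk (nat_lit 92) (nat_lit 3) (nat_lit 4) (nat_lit 0),
  SI.mk (nat_lit 90) (nat_lit 12) (nat_lit 0) (nat_lit 0),
  SI.mk (nat_lit 91) (nat_lit 9) (nat_lit 1) (nat_lit 0),
  SI.mk (nat_lit 92) (nat_lit 6) (nat_lit 2) (nat_lit 0),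
  SI.mk (nat_lit 93) (nat_lit 3) (nat_lit 3) (nat_lit 0),
  SI.mk (nat_lit 88) (nat_lit 11) (nat_lit 0) (nat_lit 0),
  SI.mk (nat_lit 89) (nat_lit 8) (nat_lit 1) (nat_lit 0),
  SI.mk (nat_lit 90) (nat_lit 5) (nat_lit 2) (nat_lit 0),
  SI.mk (nat_lit 91) (nat_lit 2) (nat_lit 3) (nat_lit 0),
  SI.mk (nat_lit 87) (nat_lit 10) (nat_lit 0) (nat_lit 0),
  SI.mk (nat_lit 88) (nat_lit 7) (nat_lit 1) (nat_lit 0),
  SI.mk (nat_lit 89) (nat_lit 4) (nat_lit 2) (nat_lit 0),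
  SI.mk (nat_lit 90) (nat_lit 1) (nat_lit 3) (nat_lit 0),
  SI.mk (nat_lit 88) (nat_lit 5) (nat_lit 0) (nat_lit 1),
  SI.mk (nat_lit 89) (nat_lit 2) (nat_lit 1) (nat_lit 1),
  SI.mk (nat_lit 90) (nat_lit 10) (nat_lit 0) (nat_lit 0),
  SI.mk (nat_lit 91) (nat_lit 7) (nat_lit 1) (nat_lit 0),
  SI.mk (nat_lit 92) (nat_lit 4) (nat_lit 2) (nat_lit 0),
  SI.mk (nat_lit 90) (nat_lit 2) (nat_lit 0) (nat_lit 1),
  SI.mk (nat_lit 89) (nat_lit 9) (nat_lit 0) (nat_lit 0),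
  SI.mk (nat_lit 90) (nat_lit 6) (nat_lit 1) (nat_lit 0),
  SI.mk (nat_lit 91) (nat_lit 3) (nat_lit 2) (nat_lit 0),
  SI.mk (nat_lit 88) (nat_lit 1) (nat_lit 0) (nat_lit 1),
  SI.mk (nat_lit 89) (nat_lit 9) (nat_lit 0) (nat_lit 0),
  SI.mk (nat_lit 90) (nat_lit 6) (nat_lit 1) (nat_lit 0),
  SI.mk (nat_lit 91) (nat_lit 3) (nat_lit 2) (nat_lit 0),
  SI.mk (nat_lit 87) (nat_lit 8) (nat_lit 0) (nat_lit 0),
  SI.mk (nat_lit 88) (nat_lit 5) (nat_lit 1) (nat_lit 0),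
  SI.mk (nat_lit 89) (nat_lit 2) (nat_lit 2) (nat_lit 0),
  SI.mk (nat_lit 87) (nat_lit 8) (nat_lit 0) (nat_lit 0),
  SI.mk (nat_lit 88) (nat_lit 5) (nat_lit 1) (nat_lit 0),
  SI.mk (nat_lit 89) (nat_lit 2) (nat_lit 2) (nat_lit 0),
  SI.mk (nat_lit 88) (nat_lit 8) (nat_lit 0) (nat_lit 0),
  SI.mk (nat_lit 89) (nat_lit 5) (nat_lit 1) (nat_lit 0),
  SI.mk (nat_lit 90) (nat_lit 2) (nat_lit 2) (nat_lit 0),
  SI.mk (nat_lit 89) (nat_lit 8) (nat_lit 0) (nat_lit 0),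
  SI.mk (nat_lit 90) (nat_lit 5) (nat_lit 1) (nat_lit 0),
  SI.mk (nat_lit 91) (nat_lit 2) (nat_lit 2) (nat_lit 0),
  SI.mk (nat_lit 87) (nat_lit 7) (nat_lit 0) (nat_lit 0),
  SI.mk (nat_lit 88) (nat_lit 4) (nat_lit 1) (nat_lit 0),
  SI.mk (nat_lit 89) (nat_lit 1) (nat_lit 2) (nat_lit 0),
  SI.mk (nat_lit 88) (nat_lit 7) (nat_lit 0) (nat_lit 0),
  SI.mk (nat_lit 89) (nat_lit 4) (nat_lit 1) (nat_lit 0),
  SI.mk (nat_lit 90) (nat_lit 1) (nat_lit 2) (nat_lit 0),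
  SI.mk (nat_lit 89) (nat_lit 7) (nat_lit 0) (nat_lit 0),
  SI.mk (nat_lit 90) (nat_lit 4) (nat_lit 1) (nat_lit 0),
  SI.mk (nat_lit 90) (nat_lit 7) (nat_lit 0) (nat_lit 0),
  SI.mk (nat_lit 91) (nat_lit 4) (nat_lit 1) (nat_lit 0),
  SI.mk (nat_lit 90) (nat_lit 7) (nat_lit 0) (nat_lit 0),
  SI.mk (nat_lit 91) (nat_lit 4) (nat_lit 1) (nat_lit 0),
  SI.mk (nat_lit 88) (nat_lit 6) (nat_lit 0) (nat_lit 0),
  SI.mk (nat_lit 89) (nat_lit 3) (nat_lit 1) (nat_lit 0),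
  SI.mk (nat_lit 88) (nat_lit 6) (nat_lit 0) (nat_lit 0),
  SI.mk (nat_lit 89) (nat_lit 3) (nat_lit 1) (nat_lit 0),
  SI.mk (nat_lit 90) (nat_lit 6) (nat_lit 0) (nat_lit 0),
  SI.mk (nat_lit 91) (nat_lit 3) (nat_lit 1) (nat_lit 0),
  SI.mk (nat_lit 90) (nat_lit 6) (nat_lit 0) (nat_lit 0),
  SI.mk (nat_lit 91) (nat_lit 3) (nat_lit 1) (nat_lit 0),
  SI.mk (nat_lit 88) (nat_lit 5) (nat_lit 0) (nat_lit 0),
  SI.mk (nat_lit 89) (nat_lit 2) (nat_lit 1) (nat_lit 0),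
  SI.mk (nat_lit 88) (nat_lit 5) (nat_lit 0) (nat_lit 0),
  SI.mk (nat_lit 89) (nat_lit 2) (nat_lit 1) (nat_lit 0),
  SI.mk (nat_lit 90) (nat_lit 5) (nat_lit 0) (nat_lit 0),
  SI.mk (nat_lit 91) (nat_lit 2) (nat_lit 1) (nat_lit 0),
  SI.mk (nat_lit 88) (nat_lit 4) (nat_lit 0) (nat_lit 0),
  SI.mk (nat_lit 89) (nat_lit 1) (nat_lit 1) (nat_lit 0),
  SI.mk (nat_lit 87) (nat_lit 3) (nat_lit 0) (nat_lit 0),
  SI.mk (nat_lit 89) (nat_lit 3) (nat_lit 0) (nat_lit 0),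
  SI.mk (nat_lit 89) (nat_lit 3) (nat_lit 0) (nat_lit 0),
  SI.mk (nat_lit 90) (nat_lit 3) (nat_lit 0) (nat_lit 0),
  SI.mk (nat_lit 87) (nat_lit 2) (nat_lit 0) (nat_lit 0),
  SI.mk (nat_lit 88) (nat_lit 2) (nat_lit 0) (nat_lit 0),
  SI.mk (nat_lit 89) (nat_lit 2) (nat_lit 0) (nat_lit 0),
  SI.mk (nat_lit 87) (nat_lit 1) (nat_lit 0) (nat_lit 0),
  SI.mk (nat_lit 89) (nat_lit 1) (nat_lit 0) (nat_lit 0),
  SI.mk (nat_lit 90) (nat_lit 1) (nat_lit 0) (nat_lit 0)]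

def q9_1 : List Nat := [nat_lit 0, nat_lit 0, nat_lit 0, nat_lit 0, nat_lit 0, nat_lit 0, nat_lit 0, nat_lit 0, nat_lit 0, nat_lit 14, nat_lit 11, nat_lit 10, nat_lit 9, nat_lit 9, nat_lit 8, nat_lit 8, nat_lit 7, nat_lit 7, nat_lit 7, nat_lit 7, nat_lit 6, nat_lit 6, nat_lit 6, nat_lit 6, nat_lit 6, nat_lit 5, nat_lit 5, nat_lit 5, nat_lit 5, nat_lit 4, nat_lit 4, nat_lit 4, nat_lit 3, nat_lit 2, nat_lit 2, nat_lit 2, nat_lit 2, nat_lit 1, nat_lit 1, nat_lit 1, nat_lit 0, nat_lit 0, nat_lit 0]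

def b9_1 : List Nat := [nat_lit 0, nat_lit 0, nat_lit 0, nat_lit 0, nat_lit 0, nat_lit 0, nat_lit 0, nat_lit 0, nat_lit 0, nat_lit 0, nat_lit 5, nat_lit 9, nat_lit 13, nat_lit 19, nat_lit 23, nat_lit 27, nat_lit 30, nat_lit 33, nat_lit 36, nat_lit 39, nat_lit 42, nat_lit 45, nat_lit 48, nat_lit 50, nat_lit 52, nat_lit 54, nat_lit 56, nat_lit 58, nat_lit 60, nat_lit 62, nat_lit 64, nat_lit 66, nat_lit 68, nat_lit 70, nat_lit 71, nat_lit 72, nat_lit 73, nat_lit 74, nat_lit 75, nat_lit 76, nat_lit 77, nat_lit 78, nat_lit 79]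

def k10_0 : KP := KP.mk (nat_lit 90) (nat_lit 19) (nat_lit 462) (nat_lit 6) (nat_lit 99) [
  SI.mk (nat_lit 87) (nat_lit 19) (nat_lit 0) (nat_lit 0),
  SI.mk (nat_lit 88) (nat_lit 16) (nat_lit 1) (nat_lit 0),
  SI.mk (nat_lit 89) (nat_lit 13) (nat_lit 2) (nat_lit 0),
  SI.mk (nat_lit 90) (nat_lit 10) (nat_lit 3) (nat_lit 0),
  SI.mk (nat_lit 91) (nat_lit 7) (nat_lit 4) (nat_lit 0),
  SI.mk (nat_lit 92) (nat_lit 4) (nat_lit 5) (nat_lit 0),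
  SI.mk (nat_lit 87) (nat_lit 9) (nat_lit 0) (nat_lit 1),
  SI.mk (nat_lit 88) (nat_lit 6) (nat_lit 1) (nat_lit 1),
  SI.mk (nat_lit 89) (nat_lit 3) (nat_lit 2) (nat_lit 1),
  SI.mk (nat_lit 89) (nat_lit 19) (nat_lit 0) (nat_lit 0),
  SI.mk (nat_lit 90) (nat_lit 16) (nat_lit 1) (nat_lit 0),
  SI.mk (nat_lit 91) (nat_lit 13) (nat_lit 2) (nat_lit 0),
  SI.mk (nat_lit 92) (nat_lit 10) (nat_lit 3) (nat_lit 0),
  SI.mk (nat_lit 93) (nat_lit 7) (nat_lit 4) (nat_lit 0),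
  SI.mk (nat_lit 94) (nat_lit 4) (nat_lit 5) (nat_lit 0),
  SI.mk (nat_lit 89) (nat_lit 9) (nat_lit 0) (nat_lit 1),
  SI.mk (nat_lit 90) (nat_lit 6) (nat_lit 1) (nat_lit 1),
  SI.mk (nat_lit 91) (nat_lit 3) (nat_lit 2) (nat_lit 1),
  SI.mk (nat_lit 87) (nat_lit 18) (nat_lit 0) (nat_lit 0),
  SI.mk (nat_lit 88) (nat_lit 15) (nat_lit 1) (nat_lit 0),
  SI.mk (nat_lit 89) (nat_lit 12) (nat_lit 2) (nat_lit 0),
  SI.mk (nat_lit 90) (nat_lit 9) (nat_lit 3) (nat_lit 0),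
  SI.mk (nat_lit 91) (nat_lit 6) (nat_lit 4) (nat_lit 0),
  SI.mk (nat_lit 92) (nat_lit 3) (nat_lit 5) (nat_lit 0),
  SI.mk (nat_lit 87) (nat_lit 8) (nat_lit 0) (nat_lit 1),
  SI.mk (nat_lit 88) (nat_lit 5) (nat_lit 1) (nat_lit 1),
  SI.mk (nat_lit 89) (nat_lit 2) (nat_lit 2) (nat_lit 1),
  SI.mk (nat_lit 89) (nat_lit 18) (nat_lit 0) (nat_lit 0),
  SI.mk (nat_lit 90) (nat_lit 15) (nat_lit 1) (nat_lit 0),
  SI.mk (nat_lit 91) (nat_lit 12) (nat_lit 2) (nat_lit 0),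
  SI.mk (nat_lit 92) (nat_lit 9) (nat_lit 3) (nat_lit 0),
  SI.mk (nat_lit 93) (nat_lit 6) (nat_lit 4) (nat_lit 0),
  SI.mk (nat_lit 94) (nat_lit 3) (nat_lit 5) (nat_lit 0),
  SI.mk (nat_lit 89) (nat_lit 8) (nat_lit 0) (nat_lit 1),
  SI.mk (nat_lit 90) (nat_lit 5) (nat_lit 1) (nat_lit 1),
  SI.mk (nat_lit 91) (nat_lit 2) (nat_lit 2) (nat_lit 1),
  SI.mk (nat_lit 87) (nat_lit 17) (nat_lit 0) (nat_lit 0),
  SI.mk (nat_lit 88) (nat_lit 14) (nat_lit 1) (nat_lit 0),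
  SI.mk (nat_lit 89) (nat_lit 11) (nat_lit 2) (nat_lit 0),
  SI.mk (nat_lit 90) (nat_lit 8) (nat_lit 3) (nat_lit 0),
  SI.mk (nat_lit 91) (nat_lit 5) (nat_lit 4) (nat_lit 0),
  SI.mk (nat_lit 92) (nat_lit 2) (nat_lit 5) (nat_lit 0),
  SI.mk (nat_lit 87) (nat_lit 7) (nat_lit 0) (nat_lit 1),
  SI.mk (nat_lit 88) (nat_lit 4) (nat_lit 1) (nat_lit 1),
  SI.mk (nat_lit 89) (nat_lit 1) (nat_lit 2) (nat_lit 1),
  SI.mk (nat_lit 89) (nat_lit 17) (nat_lit 0) (nat_lit 0),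
  SI.mk (nat_lit 90) (nat_lit 14) (nat_lit 1) (nat_lit 0),
  SI.mk (nat_lit 91) (nat_lit 11) (nat_lit 2) (nat_lit 0),
  SI.mk (nat_lit 92) (nat_lit 8) (nat_lit 3) (nat_lit 0),
  SI.mk (nat_lit 93) (nat_lit 5) (nat_lit 4) (nat_lit 0),
  SI.mk (nat_lit 94) (nat_lit 2) (nat_lit 5) (nat_lit 0),
  SI.mk (nat_lit 89) (nat_lit 7) (nat_lit 0) (nat_lit 1),
  SI.mk (nat_lit 90) (nat_lit 4) (nat_lit 1) (nat_lit 1),
  SI.mk (nat_lit 87) (nat_lit 16) (nat_lit 0) (nat_lit 0),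
  SI.mk (nat_lit 88) (nat_lit 13) (nat_lit 1) (nat_lit 0),
  SI.mk (nat_lit 89) (nat_lit 10) (nat_lit 2) (nat_lit 0),
  SI.mk (nat_lit 90) (nat_lit 7) (nat_lit 3) (nat_lit 0),
  SI.mk (nat_lit 91) (nat_lit 4) (nat_lit 4) (nat_lit 0),
  SI.mk (nat_lit 0) (nat_lit 0) (nat_lit 0) (nat_lit 0),
  SI.mk (nat_lit 87) (nat_lit 6) (nat_lit 0) (nat_lit 1),
  SI.mk (nat_lit 88) (nat_lit 3) (nat_lit 1) (nat_lit 1),
  SI.mk (nat_lit 89) (nat_lit 16) (nat_lit 0) (nat_lit 0),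
  SI.mk (nat_lit 90) (nat_lit 13) (nat_lit 1) (nat_lit 0),
  SI.mk (nat_lit 91) (nat_lit 10) (nat_lit 2) (nat_lit 0),
  SI.mk (nat_lit 92) (nat_lit 7) (nat_lit 3) (nat_lit 0),
  SI.mk (nat_lit 93) (nat_lit 4) (nat_lit 4) (nat_lit 0),
  SI.mk (nat_lit 0) (nat_lit 0) (nat_lit 0) (nat_lit 0),
  SI.mk (nat_lit 89) (nat_lit 6) (nat_lit 0) (nat_lit 1),
  SI.mk (nat_lit 90) (nat_lit 3) (nat_lit 1) (nat_lit 1),
  SI.mk (nat_lit 87) (nat_lit 15) (nat_lit 0) (nat_lit 0),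
  SI.mk (nat_lit 88) (nat_lit 12) (nat_lit 1) (nat_lit 0),
  SI.mk (nat_lit 89) (nat_lit 9) (nat_lit 2) (nat_lit 0),
  SI.mk (nat_lit 90) (nat_lit 6) (nat_lit 3) (nat_lit 0),
  SI.mk (nat_lit 91) (nat_lit 3) (nat_lit 4) (nat_lit 0),
  SI.mk (nat_lit 0) (nat_lit 0) (nat_lit 0) (nat_lit 0),
  SI.mk (nat_lit 87) (nat_lit 5) (nat_lit 0) (nat_lit 1),
  SI.mk (nat_lit 88) (nat_lit 2) (nat_lit 1) (nat_lit 1)]

def q10_0 : List Nat := [nat_lit 18, nat_lit 18, nat_lit 17, nat_lit 17, nat_lit 16, nat_lit 16, nat_lit 15, nat_lit 15, nat_lit 14]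

def b10_0 : List Nat := [nat_lit 0, nat_lit 9, nat_lit 18, nat_lit 27, nat_lit 36, nat_lit 45, nat_lit 53, nat_lit 61, nat_lit 69]

def k10_1 : KP := KP.mk (nat_lit 90) (nat_lit 15) (nat_lit 474) (nat_lit 13) (nat_lit 98) [
  SI.mk (nat_lit 89) (nat_lit 15) (nat_lit 0) (nat_lit 0),
  SI.mk (nat_lit 90) (nat_lit 12) (nat_lit 1) (nat_lit 0),
  SI.mk (nat_lit 91) (nat_lit 9) (nat_lit 2) (nat_lit 0),
  SI.mk (nat_lit 92) (nat_lit 6) (nat_lit 3) (nat_lit 0),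
  SI.mk (nat_lit 93) (nat_lit 3) (nat_lit 4) (nat_lit 0),
  SI.mk (nat_lit 88) (nat_lit 11) (nat_lit 0) (nat_lit 0),
  SI.mk (nat_lit 89) (nat_lit 8) (nat_lit 1) (nat_lit 0),
  SI.mk (nat_lit 90) (nat_lit 5) (nat_lit 2) (nat_lit 0),
  SI.mk (nat_lit 91) (nat_lit 2) (nat_lit 3) (nat_lit 0),
  SI.mk (nat_lit 90) (nat_lit 11) (nat_lit 0) (nat_lit 0),
  SI.mk (nat_lit 91) (nat_lit 8) (nat_lit 1) (nat_lit 0),
  SI.mk (nat_lit 92) (nat_lit 5) (nat_lit 2) (nat_lit 0),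
  SI.mk (nat_lit 93) (nat_lit 2) (nat_lit 3) (nat_lit 0),
  SI.mk (nat_lit 89) (nat_lit 5) (nat_lit 0) (nat_lit 1),
  SI.mk (nat_lit 90) (nat_lit 2) (nat_lit 1) (nat_lit 1),
  SI.mk (nat_lit 88) (nat_lit 10) (nat_lit 0) (nat_lit 0),
  SI.mk (nat_lit 89) (nat_lit 7) (nat_lit 1) (nat_lit 0),
  SI.mk (nat_lit 90) (nat_lit 4) (nat_lit 2) (nat_lit 0),
  SI.mk (nat_lit 88) (nat_lit 1) (nat_lit 0) (nat_lit 1),
  SI.mk (nat_lit 90) (nat_lit 10) (nat_lit 0) (nat_lit 0),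
  SI.mk (nat_lit 91) (nat_lit 7) (nat_lit 1) (nat_lit 0),
  SI.mk (nat_lit 92) (nat_lit 4) (nat_lit 2) (nat_lit 0),
  SI.mk (nat_lit 90) (nat_lit 1) (nat_lit 0) (nat_lit 1),
  SI.mk (nat_lit 90) (nat_lit 9) (nat_lit 0) (nat_lit 0),
  SI.mk (nat_lit 91) (nat_lit 6) (nat_lit 1) (nat_lit 0),
  SI.mk (nat_lit 92) (nat_lit 3) (nat_lit 2) (nat_lit 0),
  SI.mk (nat_lit 87) (nat_lit 8) (nat_lit 0) (nat_lit 0),
  SI.mk (nat_lit 88) (nat_lit 5) (nat_lit 1) (nat_lit 0),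
  SI.mk (nat_lit 89) (nat_lit 2) (nat_lit 2) (nat_lit 0),
  SI.mk (nat_lit 88) (nat_lit 8) (nat_lit 0) (nat_lit 0),
  SI.mk (nat_lit 89) (nat_lit 5) (nat_lit 1) (nat_lit 0),
  SI.mk (nat_lit 90) (nat_lit 2) (nat_lit 2) (nat_lit 0),
  SI.mk (nat_lit 88) (nat_lit 8) (nat_lit 0) (nat_lit 0),
  SI.mk (nat_lit 89) (nat_lit 5) (nat_lit 1) (nat_lit 0),
  SI.mk (nat_lit 90) (nat_lit 2) (nat_lit 2) (nat_lit 0),
  SI.mk (nat_lit 89) (nat_lit 8) (nat_lit 0) (nat_lit 0),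
  SI.mk (nat_lit 90) (nat_lit 5) (nat_lit 1) (nat_lit 0),
  SI.mk (nat_lit 91) (nat_lit 2) (nat_lit 2) (nat_lit 0),
  SI.mk (nat_lit 87) (nat_lit 7) (nat_lit 0) (nat_lit 0),
  SI.mk (nat_lit 88) (nat_lit 4) (nat_lit 1) (nat_lit 0),
  SI.mk (nat_lit 89) (nat_lit 1) (nat_lit 2) (nat_lit 0),
  SI.mk (nat_lit 89) (nat_lit 7) (nat_lit 0) (nat_lit 0),
  SI.mk (nat_lit 90) (nat_lit 4) (nat_lit 1) (nat_lit 0),
  SI.mk (nat_lit 90) (nat_lit 7) (nat_lit 0) (nat_lit 0),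
  SI.mk (nat_lit 91) (nat_lit 4) (nat_lit 1) (nat_lit 0),
  SI.mk (nat_lit 90) (nat_lit 7) (nat_lit 0) (nat_lit 0),
  SI.mk (nat_lit 91) (nat_lit 4) (nat_lit 1) (nat_lit 0),
  SI.mk (nat_lit 87) (nat_lit 6) (nat_lit 0) (nat_lit 0),
  SI.mk (nat_lit 88) (nat_lit 3) (nat_lit 1) (nat_lit 0),
  SI.mk (nat_lit 87) (nat_lit 6) (nat_lit 0) (nat_lit 0),
  SI.mk (nat_lit 88) (nat_lit 3) (nat_lit 1) (nat_lit 0),
  SI.mk (nat_lit 88) (nat_lit 6) (nat_lit 0) (nat_lit 0),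
  SI.mk (nat_lit 89) (nat_lit 3) (nat_lit 1) (nat_lit 0),
  SI.mk (nat_lit 89) (nat_lit 6) (nat_lit 0) (nat_lit 0),
  SI.mk (nat_lit 90) (nat_lit 3) (nat_lit 1) (nat_lit 0),
  SI.mk (nat_lit 89) (nat_lit 6) (nat_lit 0) (nat_lit 0),
  SI.mk (nat_lit 90) (nat_lit 3) (nat_lit 1) (nat_lit 0),
  SI.mk (nat_lit 87) (nat_lit 5) (nat_lit 0) (nat_lit 0),
  SI.mk (nat_lit 88) (nat_lit 2) (nat_lit 1) (nat_lit 0),
  SI.mk (nat_lit 87) (nat_lit 5) (nat_lit 0) (nat_lit 0),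
  SI.mk (nat_lit 88) (nat_lit 2) (nat_lit 1) (nat_lit 0),
  SI.mk (nat_lit 88) (nat_lit 5) (nat_lit 0) (nat_lit 0),
  SI.mk (nat_lit 89) (nat_lit 2) (nat_lit 1) (nat_lit 0),
  SI.mk (nat_lit 89) (nat_lit 5) (nat_lit 0) (nat_lit 0),
  SI.mk (nat_lit 90) (nat_lit 2) (nat_lit 1) (nat_lit 0),
  SI.mk (nat_lit 89) (nat_lit 5) (nat_lit 0) (nat_lit 0),
  SI.mk (nat_lit 90) (nat_lit 2) (nat_lit 1) (nat_lit 0),
  SI.mk (nat_lit 87) (nat_lit 4) (nat_lit 0) (nat_lit 0),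
  SI.mk (nat_lit 88) (nat_lit 1) (nat_lit 1) (nat_lit 0),
  SI.mk (nat_lit 90) (nat_lit 4) (nat_lit 0) (nat_lit 0),
  SI.mk (nat_lit 90) (nat_lit 4) (nat_lit 0) (nat_lit 0),
  SI.mk (nat_lit 88) (nat_lit 3) (nat_lit 0) (nat_lit 0),
  SI.mk (nat_lit 90) (nat_lit 3) (nat_lit 0) (nat_lit 0),
  SI.mk (nat_lit 90) (nat_lit 3) (nat_lit 0) (nat_lit 0),
  SI.mk (nat_lit 88) (nat_lit 2) (nat_lit 0) (nat_lit 0),
  SI.mk (nat_lit 88) (nat_lit 2) (nat_lit 0) (nat_lit 0),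
  SI.mk (nat_lit 90) (nat_lit 2) (nat_lit 0) (nat_lit 0),
  SI.mk (nat_lit 88) (nat_lit 1) (nat_lit 0) (nat_lit 0),
  SI.mk (nat_lit 90) (nat_lit 1) (nat_lit 0) (nat_lit 0)]

def q10_1 : List Nat := [nat_lit 0, nat_lit 0, nat_lit 0, nat_lit 0, nat_lit 0, nat_lit 0, nat_lit 0, nat_lit 0, nat_lit 0, nat_lit 14, nat_lit 10, nat_lit 10, nat_lit 9, nat_lit 9, nat_lit 8, nat_lit 7, nat_lit 7, nat_lit 7, nat_lit 7, nat_lit 6, nat_lit 6, nat_lit 6, nat_lit 6, nat_lit 5, nat_lit 5, nat_lit 5, nat_lit 5, nat_lit 5, nat_lit 4, nat_lit 4, nat_lit 4, nat_lit 4, nat_lit 4, nat_lit 3, nat_lit 3, nat_lit 3, nat_lit 2, nat_lit 2, nat_lit 2, nat_lit 1, nat_lit 1, nat_lit 1, nat_lit 0, nat_lit 0]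

def b10_1 : List Nat := [nat_lit 0, nat_lit 0, nat_lit 0, nat_lit 0, nat_lit 0, nat_lit 0, nat_lit 0, nat_lit 0, nat_lit 0, nat_lit 0, nat_lit 5, nat_lit 9, nat_lit 15, nat_lit 19, nat_lit 23, nat_lit 26, nat_lit 29, nat_lit 32, nat_lit 35, nat_lit 38, nat_lit 41, nat_lit 43, nat_lit 45, nat_lit 47, nat_lit 49, nat_lit 51, nat_lit 53, nat_lit 55, nat_lit 57, nat_lit 59, nat_lit 61, nat_lit 63, nat_lit 65, nat_lit 67, nat_lit 69, nat_lit 70, nat_lit 71, nat_lit 72, nat_lit 73, nat_lit 74, nat_lit 75, nat_lit 76, nat_lit 77, nat_lit 78]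

def k11_0 : KP := KP.mk (nat_lit 90) (nat_lit 19) (nat_lit 462) (nat_lit 6) (nat_lit 100) [
  SI.mk (nat_lit 88) (nat_lit 19) (nat_lit 0) (nat_lit 0),
  SI.mk (nat_lit 89) (nat_lit 16) (nat_lit 1) (nat_lit 0),
  SI.mk (nat_lit 90) (nat_lit 13) (nat_lit 2) (nat_lit 0),
  SI.mk (nat_lit 91) (nat_lit 10) (nat_lit 3) (nat_lit 0),
  SI.mk (nat_lit 92) (nat_lit 7) (nat_lit 4) (nat_lit 0),
  SI.mk (nat_lit 93) (nat_lit 4) (nat_lit 5) (nat_lit 0),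
  SI.mk (nat_lit 88) (nat_lit 9) (nat_lit 0) (nat_lit 1),
  SI.mk (nat_lit 89) (nat_lit 6) (nat_lit 1) (nat_lit 1),
  SI.mk (nat_lit 90) (nat_lit 3) (nat_lit 2) (nat_lit 1),
  SI.mk (nat_lit 90) (nat_lit 19) (nat_lit 0) (nat_lit 0),
  SI.mk (nat_lit 91) (nat_lit 16) (nat_lit 1) (nat_lit 0),
  SI.mk (nat_lit 92) (nat_lit 13) (nat_lit 2) (nat_lit 0),
  SI.mk (nat_lit 93) (nat_lit 10) (nat_lit 3) (nat_lit 0),
  SI.mk (nat_lit 94) (nat_lit 7) (nat_lit 4) (nat_lit 0),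
  SI.mk (nat_lit 95) (nat_lit 4) (nat_lit 5) (nat_lit 0),
  SI.mk (nat_lit 90) (nat_lit 9) (nat_lit 0) (nat_lit 1),
  SI.mk (nat_lit 91) (nat_lit 6) (nat_lit 1) (nat_lit 1),
  SI.mk (nat_lit 92) (nat_lit 3) (nat_lit 2) (nat_lit 1),
  SI.mk (nat_lit 88) (nat_lit 18) (nat_lit 0) (nat_lit 0),
  SI.mk (nat_lit 89) (nat_lit 15) (nat_lit 1) (nat_lit 0),
  SI.mk (nat_lit 90) (nat_lit 12) (nat_lit 2) (nat_lit 0),
  SI.mk (nat_lit 91) (nat_lit 9) (nat_lit 3) (nat_lit 0),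
  SI.mk (nat_lit 92) (nat_lit 6) (nat_lit 4) (nat_lit 0),
  SI.mk (nat_lit 93) (nat_lit 3) (nat_lit 5) (nat_lit 0),
  SI.mk (nat_lit 88) (nat_lit 8) (nat_lit 0) (nat_lit 1),
  SI.mk (nat_lit 89) (nat_lit 5) (nat_lit 1) (nat_lit 1),
  SI.mk (nat_lit 90) (nat_lit 2) (nat_lit 2) (nat_lit 1),
  SI.mk (nat_lit 90) (nat_lit 18) (nat_lit 0) (nat_lit 0),
  SI.mk (nat_lit 91) (nat_lit 15) (nat_lit 1) (nat_lit 0),
  SI.mk (nat_lit 92) (nat_lit 12) (nat_lit 2) (nat_lit 0),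
  SI.mk (nat_lit 93) (nat_lit 9) (nat_lit 3) (nat_lit 0),
  SI.mk (nat_lit 94) (nat_lit 6) (nat_lit 4) (nat_lit 0),
  SI.mk (nat_lit 95) (nat_lit 3) (nat_lit 5) (nat_lit 0),
  SI.mk (nat_lit 90) (nat_lit 8) (nat_lit 0) (nat_lit 1),
  SI.mk (nat_lit 91) (nat_lit 5) (nat_lit 1) (nat_lit 1),
  SI.mk (nat_lit 92) (nat_lit 2) (nat_lit 2) (nat_lit 1),
  SI.mk (nat_lit 88) (nat_lit 17) (nat_lit 0) (nat_lit 0),
  SI.mk (nat_lit 89) (nat_lit 14) (nat_lit 1) (nat_lit 0),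
  SI.mk (nat_lit 90) (nat_lit 11) (nat_lit 2) (nat_lit 0),
  SI.mk (nat_lit 91) (nat_lit 8) (nat_lit 3) (nat_lit 0),
  SI.mk (nat_lit 92) (nat_lit 5) (nat_lit 4) (nat_lit 0),
  SI.mk (nat_lit 93) (nat_lit 2) (nat_lit 5) (nat_lit 0),
  SI.mk (nat_lit 88) (nat_lit 7) (nat_lit 0) (nat_lit 1),
  SI.mk (nat_lit 89) (nat_lit 4) (nat_lit 1) (nat_lit 1),
  SI.mk (nat_lit 90) (nat_lit 1) (nat_lit 2) (nat_lit 1),
  SI.mk (nat_lit 87) (nat_lit 16) (nat_lit 0) (nat_lit 0),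
  SI.mk (nat_lit 88) (nat_lit 13) (nat_lit 1) (nat_lit 0),
  SI.mk (nat_lit 89) (nat_lit 10) (nat_lit 2) (nat_lit 0),
  SI.mk (nat_lit 90) (nat_lit 7) (nat_lit 3) (nat_lit 0),
  SI.mk (nat_lit 91) (nat_lit 4) (nat_lit 4) (nat_lit 0),
  SI.mk (nat_lit 0) (nat_lit 0) (nat_lit 0) (nat_lit 0),
  SI.mk (nat_lit 87) (nat_lit 6) (nat_lit 0) (nat_lit 1),
  SI.mk (nat_lit 88) (nat_lit 3) (nat_lit 1) (nat_lit 1),
  SI.mk (nat_lit 89) (nat_lit 16) (nat_lit 0) (nat_lit 0),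
  SI.mk (nat_lit 90) (nat_lit 13) (nat_lit 1) (nat_lit 0),
  SI.mk (nat_lit 91) (nat_lit 10) (nat_lit 2) (nat_lit 0),
  SI.mk (nat_lit 92) (nat_lit 7) (nat_lit 3) (nat_lit 0),
  SI.mk (nat_lit 93) (nat_lit 4) (nat_lit 4) (nat_lit 0),
  SI.mk (nat_lit 0) (nat_lit 0) (nat_lit 0) (nat_lit 0),
  SI.mk (nat_lit 89) (nat_lit 6) (nat_lit 0) (nat_lit 1),
  SI.mk (nat_lit 90) (nat_lit 3) (nat_lit 1) (nat_lit 1),
  SI.mk (nat_lit 87) (nat_lit 15) (nat_lit 0) (nat_lit 0),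
  SI.mk (nat_lit 88) (nat_lit 12) (nat_lit 1) (nat_lit 0),
  SI.mk (nat_lit 89) (nat_lit 9) (nat_lit 2) (nat_lit 0),
  SI.mk (nat_lit 90) (nat_lit 6) (nat_lit 3) (nat_lit 0),
  SI.mk (nat_lit 91) (nat_lit 3) (nat_lit 4) (nat_lit 0),
  SI.mk (nat_lit 0) (nat_lit 0) (nat_lit 0) (nat_lit 0),
  SI.mk (nat_lit 87) (nat_lit 5) (nat_lit 0) (nat_lit 1),
  SI.mk (nat_lit 88) (nat_lit 2) (nat_lit 1) (nat_lit 1),
  SI.mk (nat_lit 89) (nat_lit 15) (nat_lit 0) (nat_lit 0),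
  SI.mk (nat_lit 90) (nat_lit 12) (nat_lit 1) (nat_lit 0),
  SI.mk (nat_lit 91) (nat_lit 9) (nat_lit 2) (nat_lit 0),
  SI.mk (nat_lit 92) (nat_lit 6) (nat_lit 3) (nat_lit 0),
  SI.mk (nat_lit 93) (nat_lit 3) (nat_lit 4) (nat_lit 0),
  SI.mk (nat_lit 0) (nat_lit 0) (nat_lit 0) (nat_lit 0),
  SI.mk (nat_lit 89) (nat_lit 5) (nat_lit 0) (nat_lit 1),
  SI.mk (nat_lit 90) (nat_lit 2) (nat_lit 1) (nat_lit 1)]

def q11_0 : List Nat := [nat_lit 18, nat_lit 18, nat_lit 17, nat_lit 17, nat_lit 16, nat_lit 15, nat_lit 15, nat_lit 14, nat_lit 14]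

def b11_0 : List Nat := [nat_lit 0, nat_lit 9, nat_lit 18, nat_lit 27, nat_lit 36, nat_lit 45, nat_lit 53, nat_lit 61, nat_lit 69]

def k11_1 : KP := KP.mk (nat_lit 90) (nat_lit 14) (nat_lit 468) (nat_lit 13) (nat_lit 97) [
  SI.mk (nat_lit 87) (nat_lit 14) (nat_lit 0) (nat_lit 0),
  SI.mk (nat_lit 88) (nat_lit 11) (nat_lit 1) (nat_lit 0),
  SI.mk (nat_lit 89) (nat_lit 8) (nat_lit 2) (nat_lit 0),
  SI.mk (nat_lit 90) (nat_lit 5) (nat_lit 3) (nat_lit 0),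
  SI.mk (nat_lit 91) (nat_lit 2) (nat_lit 4) (nat_lit 0),
  SI.mk (nat_lit 89) (nat_lit 11) (nat_lit 0) (nat_lit 0),
  SI.mk (nat_lit 90) (nat_lit 8) (nat_lit 1) (nat_lit 0),
  SI.mk (nat_lit 91) (nat_lit 5) (nat_lit 2) (nat_lit 0),
  SI.mk (nat_lit 92) (nat_lit 2) (nat_lit 3) (nat_lit 0),
  SI.mk (nat_lit 87) (nat_lit 10) (nat_lit 0) (nat_lit 0),
  SI.mk (nat_lit 88) (nat_lit 7) (nat_lit 1) (nat_lit 0),
  SI.mk (nat_lit 89) (nat_lit 4) (nat_lit 2) (nat_lit 0),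
  SI.mk (nat_lit 90) (nat_lit 1) (nat_lit 3) (nat_lit 0),
  SI.mk (nat_lit 87) (nat_lit 4) (nat_lit 0) (nat_lit 1),
  SI.mk (nat_lit 88) (nat_lit 1) (nat_lit 1) (nat_lit 1),
  SI.mk (nat_lit 90) (nat_lit 10) (nat_lit 0) (nat_lit 0),
  SI.mk (nat_lit 91) (nat_lit 7) (nat_lit 1) (nat_lit 0),
  SI.mk (nat_lit 92) (nat_lit 4) (nat_lit 2) (nat_lit 0),
  SI.mk (nat_lit 89) (nat_lit 1) (nat_lit 0) (nat_lit 1),
  SI.mk (nat_lit 88) (nat_lit 9) (nat_lit 0) (nat_lit 0),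
  SI.mk (nat_lit 89) (nat_lit 6) (nat_lit 1) (nat_lit 0),
  SI.mk (nat_lit 90) (nat_lit 3) (nat_lit 2) (nat_lit 0),
  SI.mk (nat_lit 90) (nat_lit 9) (nat_lit 0) (nat_lit 0),
  SI.mk (nat_lit 91) (nat_lit 6) (nat_lit 1) (nat_lit 0),
  SI.mk (nat_lit 92) (nat_lit 3) (nat_lit 2) (nat_lit 0),
  SI.mk (nat_lit 88) (nat_lit 8) (nat_lit 0) (nat_lit 0),
  SI.mk (nat_lit 89) (nat_lit 5) (nat_lit 1) (nat_lit 0),
  SI.mk (nat_lit 90) (nat_lit 2) (nat_lit 2) (nat_lit 0),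
  SI.mk (nat_lit 88) (nat_lit 8) (nat_lit 0) (nat_lit 0),
  SI.mk (nat_lit 89) (nat_lit 5) (nat_lit 1) (nat_lit 0),
  SI.mk (nat_lit 90) (nat_lit 2) (nat_lit 2) (nat_lit 0),
  SI.mk (nat_lit 90) (nat_lit 8) (nat_lit 0) (nat_lit 0),
  SI.mk (nat_lit 91) (nat_lit 5) (nat_lit 1) (nat_lit 0),
  SI.mk (nat_lit 92) (nat_lit 2) (nat_lit 2) (nat_lit 0),
  SI.mk (nat_lit 90) (nat_lit 8) (nat_lit 0) (nat_lit 0),
  SI.mk (nat_lit 91) (nat_lit 5) (nat_lit 1) (nat_lit 0),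
  SI.mk (nat_lit 92) (nat_lit 2) (nat_lit 2) (nat_lit 0),
  SI.mk (nat_lit 88) (nat_lit 7) (nat_lit 0) (nat_lit 0),
  SI.mk (nat_lit 89) (nat_lit 4) (nat_lit 1) (nat_lit 0),
  SI.mk (nat_lit 90) (nat_lit 1) (nat_lit 2) (nat_lit 0),
  SI.mk (nat_lit 90) (nat_lit 7) (nat_lit 0) (nat_lit 0),
  SI.mk (nat_lit 91) (nat_lit 4) (nat_lit 1) (nat_lit 0),
  SI.mk (nat_lit 90) (nat_lit 7) (nat_lit 0) (nat_lit 0),
  SI.mk (nat_lit 91) (nat_lit 4) (nat_lit 1) (nat_lit 0),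
  SI.mk (nat_lit 87) (nat_lit 6) (nat_lit 0) (nat_lit 0),
  SI.mk (nat_lit 88) (nat_lit 3) (nat_lit 1) (nat_lit 0),
  SI.mk (nat_lit 88) (nat_lit 6) (nat_lit 0) (nat_lit 0),
  SI.mk (nat_lit 89) (nat_lit 3) (nat_lit 1) (nat_lit 0),
  SI.mk (nat_lit 89) (nat_lit 6) (nat_lit 0) (nat_lit 0),
  SI.mk (nat_lit 90) (nat_lit 3) (nat_lit 1) (nat_lit 0),
  SI.mk (nat_lit 89) (nat_lit 6) (nat_lit 0) (nat_lit 0),
  SI.mk (nat_lit 90) (nat_lit 3) (nat_lit 1) (nat_lit 0),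
  SI.mk (nat_lit 87) (nat_lit 5) (nat_lit 0) (nat_lit 0),
  SI.mk (nat_lit 88) (nat_lit 2) (nat_lit 1) (nat_lit 0),
  SI.mk (nat_lit 87) (nat_lit 5) (nat_lit 0) (nat_lit 0),
  SI.mk (nat_lit 88) (nat_lit 2) (nat_lit 1) (nat_lit 0),
  SI.mk (nat_lit 88) (nat_lit 5) (nat_lit 0) (nat_lit 0),
  SI.mk (nat_lit 89) (nat_lit 2) (nat_lit 1) (nat_lit 0),
  SI.mk (nat_lit 89) (nat_lit 5) (nat_lit 0) (nat_lit 0),
  SI.mk (nat_lit 90) (nat_lit 2) (nat_lit 1) (nat_lit 0),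
  SI.mk (nat_lit 89) (nat_lit 5) (nat_lit 0) (nat_lit 0),
  SI.mk (nat_lit 90) (nat_lit 2) (nat_lit 1) (nat_lit 0),
  SI.mk (nat_lit 87) (nat_lit 4) (nat_lit 0) (nat_lit 0),
  SI.mk (nat_lit 88) (nat_lit 1) (nat_lit 1) (nat_lit 0),
  SI.mk (nat_lit 87) (nat_lit 4) (nat_lit 0) (nat_lit 0),
  SI.mk (nat_lit 88) (nat_lit 1) (nat_lit 1) (nat_lit 0),
  SI.mk (nat_lit 89) (nat_lit 4) (nat_lit 0) (nat_lit 0),
  SI.mk (nat_lit 90) (nat_lit 1) (nat_lit 1) (nat_lit 0),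
  SI.mk (nat_lit 90) (nat_lit 4) (nat_lit 0) (nat_lit 0),
  SI.mk (nat_lit 87) (nat_lit 3) (nat_lit 0) (nat_lit 0),
  SI.mk (nat_lit 89) (nat_lit 3) (nat_lit 0) (nat_lit 0),
  SI.mk (nat_lit 90) (nat_lit 3) (nat_lit 0) (nat_lit 0),
  SI.mk (nat_lit 88) (nat_lit 2) (nat_lit 0) (nat_lit 0),
  SI.mk (nat_lit 88) (nat_lit 2) (nat_lit 0) (nat_lit 0),
  SI.mk (nat_lit 90) (nat_lit 2) (nat_lit 0) (nat_lit 0),
  SI.mk (nat_lit 90) (nat_lit 2) (nat_lit 0) (nat_lit 0),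
  SI.mk (nat_lit 88) (nat_lit 1) (nat_lit 0) (nat_lit 0),
  SI.mk (nat_lit 90) (nat_lit 1) (nat_lit 0) (nat_lit 0)]

def q11_1 : List Nat := [nat_lit 0, nat_lit 0, nat_lit 0, nat_lit 0, nat_lit 0, nat_lit 0, nat_lit 0, nat_lit 0, nat_lit 0, nat_lit 13, nat_lit 10, nat_lit 9, nat_lit 9, nat_lit 8, nat_lit 8, nat_lit 7, nat_lit 7, nat_lit 7, nat_lit 7, nat_lit 6, nat_lit 6, nat_lit 6, nat_lit 5, nat_lit 5, nat_lit 5, nat_lit 5, nat_lit 4, nat_lit 4, nat_lit 4, nat_lit 4, nat_lit 4, nat_lit 3, nat_lit 3, nat_lit 3, nat_lit 3, nat_lit 2, nat_lit 2, nat_lit 2, nat_lit 1, nat_lit 1, nat_lit 1, nat_lit 1, nat_lit 0, nat_lit 0]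

def b11_1 : List Nat := [nat_lit 0, nat_lit 0, nat_lit 0, nat_lit 0, nat_lit 0, nat_lit 0, nat_lit 0, nat_lit 0, nat_lit 0, nat_lit 0, nat_lit 5, nat_lit 9, nat_lit 15, nat_lit 19, nat_lit 22, nat_lit 25, nat_lit 28, nat_lit 31, nat_lit 34, nat_lit 37, nat_lit 40, nat_lit 42, nat_lit 44, nat_lit 46, nat_lit 48, nat_lit 50, nat_lit 52, nat_lit 54, nat_lit 56, nat_lit 58, nat_lit 60, nat_lit 62, nat_lit 64, nat_lit 66, nat_lit 68, nat_lit 69, nat_lit 70, nat_lit 71, nat_lit 72, nat_lit 73, nat_lit 74, nat_lit 75, nat_lit 76, nat_lit 77]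

def k12_0 : KP := KP.mk (nat_lit 90) (nat_lit 19) (nat_lit 408) (nat_lit 6) (nat_lit 100) [
  SI.mk (nat_lit 90) (nat_lit 19) (nat_lit 0) (nat_lit 0),
  SI.mk (nat_lit 91) (nat_lit 16) (nat_lit 1) (nat_lit 0),
  SI.mk (nat_lit 92) (nat_lit 13) (nat_lit 2) (nat_lit 0),
  SI.mk (nat_lit 93) (nat_lit 10) (nat_lit 3) (nat_lit 0),
  SI.mk (nat_lit 94) (nat_lit 7) (nat_lit 4) (nat_lit 0),
  SI.mk (nat_lit 95) (nat_lit 4) (nat_lit 5) (nat_lit 0),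
  SI.mk (nat_lit 90) (nat_lit 9) (nat_lit 0) (nat_lit 1),
  SI.mk (nat_lit 91) (nat_lit 6) (nat_lit 1) (nat_lit 1),
  SI.mk (nat_lit 92) (nat_lit 3) (nat_lit 2) (nat_lit 1),
  SI.mk (nat_lit 88) (nat_lit 18) (nat_lit 0) (nat_lit 0),
  SI.mk (nat_lit 89) (nat_lit 15) (nat_lit 1) (nat_lit 0),
  SI.mk (nat_lit 90) (nat_lit 12) (nat_lit 2) (nat_lit 0),
  SI.mk (nat_lit 91) (nat_lit 9) (nat_lit 3) (nat_lit 0),
  SI.mk (nat_lit 92) (nat_lit 6) (nat_lit 4) (nat_lit 0),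
  SI.mk (nat_lit 93) (nat_lit 3) (nat_lit 5) (nat_lit 0),
  SI.mk (nat_lit 88) (nat_lit 8) (nat_lit 0) (nat_lit 1),
  SI.mk (nat_lit 89) (nat_lit 5) (nat_lit 1) (nat_lit 1),
  SI.mk (nat_lit 90) (nat_lit 2) (nat_lit 2) (nat_lit 1),
  SI.mk (nat_lit 90) (nat_lit 18) (nat_lit 0) (nat_lit 0),
  SI.mk (nat_lit 91) (nat_lit 15) (nat_lit 1) (nat_lit 0),
  SI.mk (nat_lit 92) (nat_lit 12) (nat_lit 2) (nat_lit 0),
  SI.mk (nat_lit 93) (nat_lit 9) (nat_lit 3) (nat_lit 0),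
  SI.mk (nat_lit 94) (nat_lit 6) (nat_lit 4) (nat_lit 0),
  SI.mk (nat_lit 95) (nat_lit 3) (nat_lit 5) (nat_lit 0),
  SI.mk (nat_lit 90) (nat_lit 8) (nat_lit 0) (nat_lit 1),
  SI.mk (nat_lit 91) (nat_lit 5) (nat_lit 1) (nat_lit 1),
  SI.mk (nat_lit 92) (nat_lit 2) (nat_lit 2) (nat_lit 1),
  SI.mk (nat_lit 88) (nat_lit 17) (nat_lit 0) (nat_lit 0),
  SI.mk (nat_lit 89) (nat_lit 14) (nat_lit 1) (nat_lit 0),
  SI.mk (nat_lit 90) (nat_lit 11) (nat_lit 2) (nat_lit 0),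
  SI.mk (nat_lit 91) (nat_lit 8) (nat_lit 3) (nat_lit 0),
  SI.mk (nat_lit 92) (nat_lit 5) (nat_lit 4) (nat_lit 0),
  SI.mk (nat_lit 93) (nat_lit 2) (nat_lit 5) (nat_lit 0),
  SI.mk (nat_lit 88) (nat_lit 7) (nat_lit 0) (nat_lit 1),
  SI.mk (nat_lit 89) (nat_lit 4) (nat_lit 1) (nat_lit 1),
  SI.mk (nat_lit 90) (nat_lit 1) (nat_lit 2) (nat_lit 1),
  SI.mk (nat_lit 90) (nat_lit 17) (nat_lit 0) (nat_lit 0),
  SI.mk (nat_lit 91) (nat_lit 14) (nat_lit 1) (nat_lit 0),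
  SI.mk (nat_lit 92) (nat_lit 11) (nat_lit 2) (nat_lit 0),
  SI.mk (nat_lit 93) (nat_lit 8) (nat_lit 3) (nat_lit 0),
  SI.mk (nat_lit 94) (nat_lit 5) (nat_lit 4) (nat_lit 0),
  SI.mk (nat_lit 0) (nat_lit 0) (nat_lit 0) (nat_lit 0),
  SI.mk (nat_lit 90) (nat_lit 7) (nat_lit 0) (nat_lit 1),
  SI.mk (nat_lit 91) (nat_lit 4) (nat_lit 1) (nat_lit 1),
  SI.mk (nat_lit 88) (nat_lit 16) (nat_lit 0) (nat_lit 0),
  SI.mk (nat_lit 89) (nat_lit 13) (nat_lit 1) (nat_lit 0),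
  SI.mk (nat_lit 90) (nat_lit 10) (nat_lit 2) (nat_lit 0),
  SI.mk (nat_lit 91) (nat_lit 7) (nat_lit 3) (nat_lit 0),
  SI.mk (nat_lit 92) (nat_lit 4) (nat_lit 4) (nat_lit 0),
  SI.mk (nat_lit 0) (nat_lit 0) (nat_lit 0) (nat_lit 0),
  SI.mk (nat_lit 88) (nat_lit 6) (nat_lit 0) (nat_lit 1),
  SI.mk (nat_lit 89) (nat_lit 3) (nat_lit 1) (nat_lit 1),
  SI.mk (nat_lit 90) (nat_lit 16) (nat_lit 0) (nat_lit 0),
  SI.mk (nat_lit 91) (nat_lit 13) (nat_lit 1) (nat_lit 0),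
  SI.mk (nat_lit 92) (nat_lit 10) (nat_lit 2) (nat_lit 0),
  SI.mk (nat_lit 93) (nat_lit 7) (nat_lit 3) (nat_lit 0),
  SI.mk (nat_lit 94) (nat_lit 4) (nat_lit 4) (nat_lit 0),
  SI.mk (nat_lit 0) (nat_lit 0) (nat_lit 0) (nat_lit 0),
  SI.mk (nat_lit 90) (nat_lit 6) (nat_lit 0) (nat_lit 1),
  SI.mk (nat_lit 91) (nat_lit 3) (nat_lit 1) (nat_lit 1),
  SI.mk (nat_lit 88) (nat_lit 15) (nat_lit 0) (nat_lit 0),
  SI.mk (nat_lit 89) (nat_lit 12) (nat_lit 1) (nat_lit 0),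
  SI.mk (nat_lit 90) (nat_lit 9) (nat_lit 2) (nat_lit 0),
  SI.mk (nat_lit 91) (nat_lit 6) (nat_lit 3) (nat_lit 0),
  SI.mk (nat_lit 92) (nat_lit 3) (nat_lit 4) (nat_lit 0),
  SI.mk (nat_lit 0) (nat_lit 0) (nat_lit 0) (nat_lit 0),
  SI.mk (nat_lit 88) (nat_lit 5) (nat_lit 0) (nat_lit 1),
  SI.mk (nat_lit 89) (nat_lit 2) (nat_lit 1) (nat_lit 1)]

def q12_0 : List Nat := [nat_lit 18, nat_lit 17, nat_lit 17, nat_lit 16, nat_lit 16, nat_lit 15, nat_lit 15, nat_lit 14]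

def b12_0 : List Nat := [nat_lit 0, nat_lit 9, nat_lit 18, nat_lit 27, nat_lit 36, nat_lit 44, nat_lit 52, nat_lit 60]

def k12_1 : KP := KP.mk (nat_lit 90) (nat_lit 15) (nat_lit 444) (nat_lit 5) (nat_lit 99) [
  SI.mk (nat_lit 90) (nat_lit 15) (nat_lit 0) (nat_lit 0),
  SI.mk (nat_lit 91) (nat_lit 12) (nat_lit 1) (nat_lit 0),
  SI.mk (nat_lit 92) (nat_lit 9) (nat_lit 2) (nat_lit 0),
  SI.mk (nat_lit 93) (nat_lit 6) (nat_lit 3) (nat_lit 0),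
  SI.mk (nat_lit 94) (nat_lit 3) (nat_lit 4) (nat_lit 0),
  SI.mk (nat_lit 90) (nat_lit 5) (nat_lit 0) (nat_lit 1),
  SI.mk (nat_lit 91) (nat_lit 2) (nat_lit 1) (nat_lit 1),
  SI.mk (nat_lit 88) (nat_lit 14) (nat_lit 0) (nat_lit 0),
  SI.mk (nat_lit 89) (nat_lit 11) (nat_lit 1) (nat_lit 0),
  SI.mk (nat_lit 90) (nat_lit 8) (nat_lit 2) (nat_lit 0),
  SI.mk (nat_lit 91) (nat_lit 5) (nat_lit 3) (nat_lit 0),
  SI.mk (nat_lit 92) (nat_lit 2) (nat_lit 4) (nat_lit 0),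
  SI.mk (nat_lit 88) (nat_lit 4) (nat_lit 0) (nat_lit 1),
  SI.mk (nat_lit 89) (nat_lit 1) (nat_lit 1) (nat_lit 1),
  SI.mk (nat_lit 87) (nat_lit 10) (nat_lit 0) (nat_lit 0),
  SI.mk (nat_lit 88) (nat_lit 7) (nat_lit 1) (nat_lit 0),
  SI.mk (nat_lit 89) (nat_lit 4) (nat_lit 2) (nat_lit 0),
  SI.mk (nat_lit 90) (nat_lit 1) (nat_lit 3) (nat_lit 0),
  SI.mk (nat_lit 89) (nat_lit 10) (nat_lit 0) (nat_lit 0),
  SI.mk (nat_lit 90) (nat_lit 7) (nat_lit 1) (nat_lit 0),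
  SI.mk (nat_lit 91) (nat_lit 4) (nat_lit 2) (nat_lit 0),
  SI.mk (nat_lit 87) (nat_lit 9) (nat_lit 0) (nat_lit 0),
  SI.mk (nat_lit 88) (nat_lit 6) (nat_lit 1) (nat_lit 0),
  SI.mk (nat_lit 89) (nat_lit 3) (nat_lit 2) (nat_lit 0),
  SI.mk (nat_lit 89) (nat_lit 9) (nat_lit 0) (nat_lit 0),
  SI.mk (nat_lit 90) (nat_lit 6) (nat_lit 1) (nat_lit 0),
  SI.mk (nat_lit 91) (nat_lit 3) (nat_lit 2) (nat_lit 0),
  SI.mk (nat_lit 87) (nat_lit 8) (nat_lit 0) (nat_lit 0),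
  SI.mk (nat_lit 88) (nat_lit 5) (nat_lit 1) (nat_lit 0),
  SI.mk (nat_lit 89) (nat_lit 2) (nat_lit 2) (nat_lit 0),
  SI.mk (nat_lit 89) (nat_lit 8) (nat_lit 0) (nat_lit 0),
  SI.mk (nat_lit 90) (nat_lit 5) (nat_lit 1) (nat_lit 0),
  SI.mk (nat_lit 91) (nat_lit 2) (nat_lit 2) (nat_lit 0),
  SI.mk (nat_lit 90) (nat_lit 8) (nat_lit 0) (nat_lit 0),
  SI.mk (nat_lit 91) (nat_lit 5) (nat_lit 1) (nat_lit 0),
  SI.mk (nat_lit 92) (nat_lit 2) (nat_lit 2) (nat_lit 0),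
  SI.mk (nat_lit 87) (nat_lit 7) (nat_lit 0) (nat_lit 0),
  SI.mk (nat_lit 88) (nat_lit 4) (nat_lit 1) (nat_lit 0),
  SI.mk (nat_lit 89) (nat_lit 1) (nat_lit 2) (nat_lit 0),
  SI.mk (nat_lit 88) (nat_lit 7) (nat_lit 0) (nat_lit 0),
  SI.mk (nat_lit 89) (nat_lit 4) (nat_lit 1) (nat_lit 0),
  SI.mk (nat_lit 90) (nat_lit 1) (nat_lit 2) (nat_lit 0),
  SI.mk (nat_lit 90) (nat_lit 7) (nat_lit 0) (nat_lit 0),
  SI.mk (nat_lit 91) (nat_lit 4) (nat_lit 1) (nat_lit 0),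
  SI.mk (nat_lit 88) (nat_lit 6) (nat_lit 0) (nat_lit 0),
  SI.mk (nat_lit 89) (nat_lit 3) (nat_lit 1) (nat_lit 0),
  SI.mk (nat_lit 89) (nat_lit 6) (nat_lit 0) (nat_lit 0),
  SI.mk (nat_lit 90) (nat_lit 3) (nat_lit 1) (nat_lit 0),
  SI.mk (nat_lit 90) (nat_lit 6) (nat_lit 0) (nat_lit 0),
  SI.mk (nat_lit 91) (nat_lit 3) (nat_lit 1) (nat_lit 0),
  SI.mk (nat_lit 90) (nat_lit 6) (nat_lit 0) (nat_lit 0),
  SI.mk (nat_lit 91) (nat_lit 3) (nat_lit 1) (nat_lit 0),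
  SI.mk (nat_lit 88) (nat_lit 5) (nat_lit 0) (nat_lit 0),
  SI.mk (nat_lit 89) (nat_lit 2) (nat_lit 1) (nat_lit 0),
  SI.mk (nat_lit 88) (nat_lit 5) (nat_lit 0) (nat_lit 0),
  SI.mk (nat_lit 89) (nat_lit 2) (nat_lit 1) (nat_lit 0),
  SI.mk (nat_lit 90) (nat_lit 5) (nat_lit 0) (nat_lit 0),
  SI.mk (nat_lit 91) (nat_lit 2) (nat_lit 1) (nat_lit 0),
  SI.mk (nat_lit 90) (nat_lit 5) (nat_lit 0) (nat_lit 0),
  SI.mk (nat_lit 91) (nat_lit 2) (nat_lit 1) (nat_lit 0),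
  SI.mk (nat_lit 87) (nat_lit 4) (nat_lit 0) (nat_lit 0),
  SI.mk (nat_lit 88) (nat_lit 1) (nat_lit 1) (nat_lit 0),
  SI.mk (nat_lit 88) (nat_lit 4) (nat_lit 0) (nat_lit 0),
  SI.mk (nat_lit 89) (nat_lit 1) (nat_lit 1) (nat_lit 0),
  SI.mk (nat_lit 90) (nat_lit 4) (nat_lit 0) (nat_lit 0),
  SI.mk (nat_lit 88) (nat_lit 3) (nat_lit 0) (nat_lit 0),
  SI.mk (nat_lit 89) (nat_lit 3) (nat_lit 0) (nat_lit 0),
  SI.mk (nat_lit 89) (nat_lit 3) (nat_lit 0) (nat_lit 0),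
  SI.mk (nat_lit 87) (nat_lit 2) (nat_lit 0) (nat_lit 0),
  SI.mk (nat_lit 89) (nat_lit 2) (nat_lit 0) (nat_lit 0),
  SI.mk (nat_lit 89) (nat_lit 2) (nat_lit 0) (nat_lit 0),
  SI.mk (nat_lit 87) (nat_lit 1) (nat_lit 0) (nat_lit 0),
  SI.mk (nat_lit 87) (nat_lit 1) (nat_lit 0) (nat_lit 0),
  SI.mk (nat_lit 89) (nat_lit 1) (nat_lit 0) (nat_lit 0)]

def q12_1 : List Nat := [nat_lit 0, nat_lit 0, nat_lit 0, nat_lit 0, nat_lit 0, nat_lit 0, nat_lit 0, nat_lit 0, nat_lit 14, nat_lit 13, nat_lit 9, nat_lit 9, nat_lit 8, nat_lit 8, nat_lit 7, nat_lit 7, nat_lit 7, nat_lit 6, nat_lit 6, nat_lit 6, nat_lit 5, nat_lit 5, nat_lit 5, nat_lit 5, nat_lit 4, nat_lit 4, nat_lit 4, nat_lit 4, nat_lit 3, nat_lit 3, nat_lit 3, nat_lit 2, nat_lit 2, nat_lit 2, nat_lit 1, nat_lit 1, nat_lit 1, nat_lit 0, nat_lit 0, nat_lit 0]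

def b12_1 : List Nat := [nat_lit 0, nat_lit 0, nat_lit 0, nat_lit 0, nat_lit 0, nat_lit 0, nat_lit 0, nat_lit 0, nat_lit 0, nat_lit 7, nat_lit 14, nat_lit 18, nat_lit 21, nat_lit 24, nat_lit 27, nat_lit 30, nat_lit 33, nat_lit 36, nat_lit 39, nat_lit 42, nat_lit 44, nat_lit 46, nat_lit 48, nat_lit 50, nat_lit 52, nat_lit 54, nat_lit 56, nat_lit 58, nat_lit 60, nat_lit 62, nat_lit 64, nat_lit 65, nat_lit 66, nat_lit 67, nat_lit 68, nat_lit 69, nat_lit 70, nat_lit 71, nat_lit 72, nat_lit 73]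

def k13_0 : KP := KP.mk (nat_lit 90) (nat_lit 18) (nat_lit 354) (nat_lit 6) (nat_lit 99) [
  SI.mk (nat_lit 87) (nat_lit 18) (nat_lit 0) (nat_lit 0),
  SI.mk (nat_lit 88) (nat_lit 15) (nat_lit 1) (nat_lit 0),
  SI.mk (nat_lit 89) (nat_lit 12) (nat_lit 2) (nat_lit 0),
  SI.mk (nat_lit 90) (nat_lit 9) (nat_lit 3) (nat_lit 0),
  SI.mk (nat_lit 91) (nat_lit 6) (nat_lit 4) (nat_lit 0),
  SI.mk (nat_lit 92) (nat_lit 3) (nat_lit 5) (nat_lit 0),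
  SI.mk (nat_lit 87) (nat_lit 8) (nat_lit 0) (nat_lit 1),
  SI.mk (nat_lit 88) (nat_lit 5) (nat_lit 1) (nat_lit 1),
  SI.mk (nat_lit 89) (nat_lit 2) (nat_lit 2) (nat_lit 1),
  SI.mk (nat_lit 89) (nat_lit 18) (nat_lit 0) (nat_lit 0),
  SI.mk (nat_lit 90) (nat_lit 15) (nat_lit 1) (nat_lit 0),
  SI.mk (nat_lit 91) (nat_lit 12) (nat_lit 2) (nat_lit 0),
  SI.mk (nat_lit 92) (nat_lit 9) (nat_lit 3) (nat_lit 0),
  SI.mk (nat_lit 93) (nat_lit 6) (nat_lit 4) (nat_lit 0),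
  SI.mk (nat_lit 94) (nat_lit 3) (nat_lit 5) (nat_lit 0),
  SI.mk (nat_lit 89) (nat_lit 8) (nat_lit 0) (nat_lit 1),
  SI.mk (nat_lit 90) (nat_lit 5) (nat_lit 1) (nat_lit 1),
  SI.mk (nat_lit 91) (nat_lit 2) (nat_lit 2) (nat_lit 1),
  SI.mk (nat_lit 87) (nat_lit 17) (nat_lit 0) (nat_lit 0),
  SI.mk (nat_lit 88) (nat_lit 14) (nat_lit 1) (nat_lit 0),
  SI.mk (nat_lit 89) (nat_lit 11) (nat_lit 2) (nat_lit 0),
  SI.mk (nat_lit 90) (nat_lit 8) (nat_lit 3) (nat_lit 0),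
  SI.mk (nat_lit 91) (nat_lit 5) (nat_lit 4) (nat_lit 0),
  SI.mk (nat_lit 92) (nat_lit 2) (nat_lit 5) (nat_lit 0),
  SI.mk (nat_lit 87) (nat_lit 7) (nat_lit 0) (nat_lit 1),
  SI.mk (nat_lit 88) (nat_lit 4) (nat_lit 1) (nat_lit 1),
  SI.mk (nat_lit 89) (nat_lit 1) (nat_lit 2) (nat_lit 1),
  SI.mk (nat_lit 89) (nat_lit 17) (nat_lit 0) (nat_lit 0),
  SI.mk (nat_lit 90) (nat_lit 14) (nat_lit 1) (nat_lit 0),
  SI.mk (nat_lit 91) (nat_lit 11) (nat_lit 2) (nat_lit 0),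
  SI.mk (nat_lit 92) (nat_lit 8) (nat_lit 3) (nat_lit 0),
  SI.mk (nat_lit 93) (nat_lit 5) (nat_lit 4) (nat_lit 0),
  SI.mk (nat_lit 94) (nat_lit 2) (nat_lit 5) (nat_lit 0),
  SI.mk (nat_lit 89) (nat_lit 7) (nat_lit 0) (nat_lit 1),
  SI.mk (nat_lit 90) (nat_lit 4) (nat_lit 1) (nat_lit 1),
  SI.mk (nat_lit 87) (nat_lit 16) (nat_lit 0) (nat_lit 0),
  SI.mk (nat_lit 88) (nat_lit 13) (nat_lit 1) (nat_lit 0),
  SI.mk (nat_lit 89) (nat_lit 10) (nat_lit 2) (nat_lit 0),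
  SI.mk (nat_lit 90) (nat_lit 7) (nat_lit 3) (nat_lit 0),
  SI.mk (nat_lit 91) (nat_lit 4) (nat_lit 4) (nat_lit 0),
  SI.mk (nat_lit 0) (nat_lit 0) (nat_lit 0) (nat_lit 0),
  SI.mk (nat_lit 87) (nat_lit 6) (nat_lit 0) (nat_lit 1),
  SI.mk (nat_lit 88) (nat_lit 3) (nat_lit 1) (nat_lit 1),
  SI.mk (nat_lit 90) (nat_lit 16) (nat_lit 0) (nat_lit 0),
  SI.mk (nat_lit 91) (nat_lit 13) (nat_lit 1) (nat_lit 0),
  SI.mk (nat_lit 92) (nat_lit 10) (nat_lit 2) (nat_lit 0),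
  SI.mk (nat_lit 93) (nat_lit 7) (nat_lit 3) (nat_lit 0),
  SI.mk (nat_lit 94) (nat_lit 4) (nat_lit 4) (nat_lit 0),
  SI.mk (nat_lit 0) (nat_lit 0) (nat_lit 0) (nat_lit 0),
  SI.mk (nat_lit 90) (nat_lit 6) (nat_lit 0) (nat_lit 1),
  SI.mk (nat_lit 91) (nat_lit 3) (nat_lit 1) (nat_lit 1),
  SI.mk (nat_lit 88) (nat_lit 15) (nat_lit 0) (nat_lit 0),
  SI.mk (nat_lit 89) (nat_lit 12) (nat_lit 1) (nat_lit 0),
  SI.mk (nat_lit 90) (nat_lit 9) (nat_lit 2) (nat_lit 0),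
  SI.mk (nat_lit 91) (nat_lit 6) (nat_lit 3) (nat_lit 0),
  SI.mk (nat_lit 92) (nat_lit 3) (nat_lit 4) (nat_lit 0),
  SI.mk (nat_lit 0) (nat_lit 0) (nat_lit 0) (nat_lit 0),
  SI.mk (nat_lit 88) (nat_lit 5) (nat_lit 0) (nat_lit 1),
  SI.mk (nat_lit 89) (nat_lit 2) (nat_lit 1) (nat_lit 1)]

def q13_0 : List Nat := [nat_lit 17, nat_lit 17, nat_lit 16, nat_lit 16, nat_lit 15, nat_lit 15, nat_lit 14]

def b13_0 : List Nat := [nat_lit 0, nat_lit 9, nat_lit 18, nat_lit 27, nat_lit 35, nat_lit 43, nat_lit 51]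

def k13_1 : KP := KP.mk (nat_lit 90) (nat_lit 15) (nat_lit 402) (nat_lit 5) (nat_lit 99) [
  SI.mk (nat_lit 90) (nat_lit 15) (nat_lit 0) (nat_lit 0),
  SI.mk (nat_lit 91) (nat_lit 12) (nat_lit 1) (nat_lit 0),
  SI.mk (nat_lit 92) (nat_lit 9) (nat_lit 2) (nat_lit 0),
  SI.mk (nat_lit 93) (nat_lit 6) (nat_lit 3) (nat_lit 0),
  SI.mk (nat_lit 94) (nat_lit 3) (nat_lit 4) (nat_lit 0),
  SI.mk (nat_lit 90) (nat_lit 5) (nat_lit 0) (nat_lit 1),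
  SI.mk (nat_lit 91) (nat_lit 2) (nat_lit 1) (nat_lit 1),
  SI.mk (nat_lit 88) (nat_lit 14) (nat_lit 0) (nat_lit 0),
  SI.mk (nat_lit 89) (nat_lit 11) (nat_lit 1) (nat_lit 0),
  SI.mk (nat_lit 90) (nat_lit 8) (nat_lit 2) (nat_lit 0),
  SI.mk (nat_lit 91) (nat_lit 5) (nat_lit 3) (nat_lit 0),
  SI.mk (nat_lit 92) (nat_lit 2) (nat_lit 4) (nat_lit 0),
  SI.mk (nat_lit 88) (nat_lit 4) (nat_lit 0) (nat_lit 1),
  SI.mk (nat_lit 89) (nat_lit 1) (nat_lit 1) (nat_lit 1),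
  SI.mk (nat_lit 90) (nat_lit 14) (nat_lit 0) (nat_lit 0),
  SI.mk (nat_lit 91) (nat_lit 11) (nat_lit 1) (nat_lit 0),
  SI.mk (nat_lit 92) (nat_lit 8) (nat_lit 2) (nat_lit 0),
  SI.mk (nat_lit 93) (nat_lit 5) (nat_lit 3) (nat_lit 0),
  SI.mk (nat_lit 94) (nat_lit 2) (nat_lit 4) (nat_lit 0),
  SI.mk (nat_lit 90) (nat_lit 4) (nat_lit 0) (nat_lit 1),
  SI.mk (nat_lit 88) (nat_lit 10) (nat_lit 0) (nat_lit 0),
  SI.mk (nat_lit 89) (nat_lit 7) (nat_lit 1) (nat_lit 0),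
  SI.mk (nat_lit 90) (nat_lit 4) (nat_lit 2) (nat_lit 0),
  SI.mk (nat_lit 90) (nat_lit 10) (nat_lit 0) (nat_lit 0),
  SI.mk (nat_lit 91) (nat_lit 7) (nat_lit 1) (nat_lit 0),
  SI.mk (nat_lit 92) (nat_lit 4) (nat_lit 2) (nat_lit 0),
  SI.mk (nat_lit 89) (nat_lit 9) (nat_lit 0) (nat_lit 0),
  SI.mk (nat_lit 90) (nat_lit 6) (nat_lit 1) (nat_lit 0),
  SI.mk (nat_lit 91) (nat_lit 3) (nat_lit 2) (nat_lit 0),
  SI.mk (nat_lit 87) (nat_lit 8) (nat_lit 0) (nat_lit 0),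
  SI.mk (nat_lit 88) (nat_lit 5) (nat_lit 1) (nat_lit 0),
  SI.mk (nat_lit 89) (nat_lit 2) (nat_lit 2) (nat_lit 0),
  SI.mk (nat_lit 89) (nat_lit 8) (nat_lit 0) (nat_lit 0),
  SI.mk (nat_lit 90) (nat_lit 5) (nat_lit 1) (nat_lit 0),
  SI.mk (nat_lit 91) (nat_lit 2) (nat_lit 2) (nat_lit 0),
  SI.mk (nat_lit 87) (nat_lit 7) (nat_lit 0) (nat_lit 0),
  SI.mk (nat_lit 88) (nat_lit 4) (nat_lit 1) (nat_lit 0),
  SI.mk (nat_lit 89) (nat_lit 1) (nat_lit 2) (nat_lit 0),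
  SI.mk (nat_lit 87) (nat_lit 7) (nat_lit 0) (nat_lit 0),
  SI.mk (nat_lit 88) (nat_lit 4) (nat_lit 1) (nat_lit 0),
  SI.mk (nat_lit 89) (nat_lit 1) (nat_lit 2) (nat_lit 0),
  SI.mk (nat_lit 89) (nat_lit 7) (nat_lit 0) (nat_lit 0),
  SI.mk (nat_lit 90) (nat_lit 4) (nat_lit 1) (nat_lit 0),
  SI.mk (nat_lit 89) (nat_lit 7) (nat_lit 0) (nat_lit 0),
  SI.mk (nat_lit 90) (nat_lit 4) (nat_lit 1) (nat_lit 0),
  SI.mk (nat_lit 87) (nat_lit 6) (nat_lit 0) (nat_lit 0),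
  SI.mk (nat_lit 88) (nat_lit 3) (nat_lit 1) (nat_lit 0),
  SI.mk (nat_lit 89) (nat_lit 6) (nat_lit 0) (nat_lit 0),
  SI.mk (nat_lit 90) (nat_lit 3) (nat_lit 1) (nat_lit 0),
  SI.mk (nat_lit 87) (nat_lit 5) (nat_lit 0) (nat_lit 0),
  SI.mk (nat_lit 88) (nat_lit 2) (nat_lit 1) (nat_lit 0),
  SI.mk (nat_lit 90) (nat_lit 5) (nat_lit 0) (nat_lit 0),
  SI.mk (nat_lit 91) (nat_lit 2) (nat_lit 1) (nat_lit 0),
  SI.mk (nat_lit 90) (nat_lit 5) (nat_lit 0) (nat_lit 0),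
  SI.mk (nat_lit 91) (nat_lit 2) (nat_lit 1) (nat_lit 0),
  SI.mk (nat_lit 88) (nat_lit 4) (nat_lit 0) (nat_lit 0),
  SI.mk (nat_lit 89) (nat_lit 1) (nat_lit 1) (nat_lit 0),
  SI.mk (nat_lit 88) (nat_lit 4) (nat_lit 0) (nat_lit 0),
  SI.mk (nat_lit 89) (nat_lit 1) (nat_lit 1) (nat_lit 0),
  SI.mk (nat_lit 90) (nat_lit 4) (nat_lit 0) (nat_lit 0),
  SI.mk (nat_lit 88) (nat_lit 3) (nat_lit 0) (nat_lit 0),
  SI.mk (nat_lit 89) (nat_lit 3) (nat_lit 0) (nat_lit 0),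
  SI.mk (nat_lit 90) (nat_lit 3) (nat_lit 0) (nat_lit 0),
  SI.mk (nat_lit 89) (nat_lit 2) (nat_lit 0) (nat_lit 0),
  SI.mk (nat_lit 87) (nat_lit 1) (nat_lit 0) (nat_lit 0),
  SI.mk (nat_lit 87) (nat_lit 1) (nat_lit 0) (nat_lit 0),
  SI.mk (nat_lit 89) (nat_lit 1) (nat_lit 0) (nat_lit 0)]

def q13_1 : List Nat := [nat_lit 0, nat_lit 0, nat_lit 0, nat_lit 0, nat_lit 0, nat_lit 0, nat_lit 0, nat_lit 14, nat_lit 13, nat_lit 13, nat_lit 9, nat_lit 9, nat_lit 8, nat_lit 7, nat_lit 7, nat_lit 6, nat_lit 6, nat_lit 6, nat_lit 6, nat_lit 5, nat_lit 5, nat_lit 4, nat_lit 4, nat_lit 4, nat_lit 3, nat_lit 3, nat_lit 3, nat_lit 2, nat_lit 2, nat_lit 2, nat_lit 1, nat_lit 0, nat_lit 0, nat_lit 0]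

def b13_1 : List Nat := [nat_lit 0, nat_lit 0, nat_lit 0, nat_lit 0, nat_lit 0, nat_lit 0, nat_lit 0, nat_lit 0, nat_lit 7, nat_lit 14, nat_lit 20, nat_lit 23, nat_lit 26, nat_lit 29, nat_lit 32, nat_lit 35, nat_lit 38, nat_lit 41, nat_lit 43, nat_lit 45, nat_lit 47, nat_lit 49, nat_lit 51, nat_lit 53, nat_lit 55, nat_lit 57, nat_lit 59, nat_lit 60, nat_lit 61, nat_lit 62, nat_lit 63, nat_lit 64, nat_lit 65, nat_lit 66]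

def k14_0 : KP := KP.mk (nat_lit 90) (nat_lit 18) (nat_lit 348) (nat_lit 6) (nat_lit 99) [
  SI.mk (nat_lit 89) (nat_lit 18) (nat_lit 0) (nat_lit 0),
  SI.mk (nat_lit 90) (nat_lit 15) (nat_lit 1) (nat_lit 0),
  SI.mk (nat_lit 91) (nat_lit 12) (nat_lit 2) (nat_lit 0),
  SI.mk (nat_lit 92) (nat_lit 9) (nat_lit 3) (nat_lit 0),
  SI.mk (nat_lit 93) (nat_lit 6) (nat_lit 4) (nat_lit 0),
  SI.mk (nat_lit 94) (nat_lit 3) (nat_lit 5) (nat_lit 0),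
  SI.mk (nat_lit 89) (nat_lit 8) (nat_lit 0) (nat_lit 1),
  SI.mk (nat_lit 90) (nat_lit 5) (nat_lit 1) (nat_lit 1),
  SI.mk (nat_lit 91) (nat_lit 2) (nat_lit 2) (nat_lit 1),
  SI.mk (nat_lit 87) (nat_lit 17) (nat_lit 0) (nat_lit 0),
  SI.mk (nat_lit 88) (nat_lit 14) (nat_lit 1) (nat_lit 0),
  SI.mk (nat_lit 89) (nat_lit 11) (nat_lit 2) (nat_lit 0),
  SI.mk (nat_lit 90) (nat_lit 8) (nat_lit 3) (nat_lit 0),
  SI.mk (nat_lit 91) (nat_lit 5) (nat_lit 4) (nat_lit 0),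
  SI.mk (nat_lit 92) (nat_lit 2) (nat_lit 5) (nat_lit 0),
  SI.mk (nat_lit 87) (nat_lit 7) (nat_lit 0) (nat_lit 1),
  SI.mk (nat_lit 88) (nat_lit 4) (nat_lit 1) (nat_lit 1),
  SI.mk (nat_lit 89) (nat_lit 1) (nat_lit 2) (nat_lit 1),
  SI.mk (nat_lit 89) (nat_lit 17) (nat_lit 0) (nat_lit 0),
  SI.mk (nat_lit 90) (nat_lit 14) (nat_lit 1) (nat_lit 0),
  SI.mk (nat_lit 91) (nat_lit 11) (nat_lit 2) (nat_lit 0),
  SI.mk (nat_lit 92) (nat_lit 8) (nat_lit 3) (nat_lit 0),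
  SI.mk (nat_lit 93) (nat_lit 5) (nat_lit 4) (nat_lit 0),
  SI.mk (nat_lit 94) (nat_lit 2) (nat_lit 5) (nat_lit 0),
  SI.mk (nat_lit 89) (nat_lit 7) (nat_lit 0) (nat_lit 1),
  SI.mk (nat_lit 90) (nat_lit 4) (nat_lit 1) (nat_lit 1),
  SI.mk (nat_lit 87) (nat_lit 16) (nat_lit 0) (nat_lit 0),
  SI.mk (nat_lit 88) (nat_lit 13) (nat_lit 1) (nat_lit 0),
  SI.mk (nat_lit 89) (nat_lit 10) (nat_lit 2) (nat_lit 0),
  SI.mk (nat_lit 90) (nat_lit 7) (nat_lit 3) (nat_lit 0),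
  SI.mk (nat_lit 91) (nat_lit 4) (nat_lit 4) (nat_lit 0),
  SI.mk (nat_lit 0) (nat_lit 0) (nat_lit 0) (nat_lit 0),
  SI.mk (nat_lit 87) (nat_lit 6) (nat_lit 0) (nat_lit 1),
  SI.mk (nat_lit 88) (nat_lit 3) (nat_lit 1) (nat_lit 1),
  SI.mk (nat_lit 89) (nat_lit 16) (nat_lit 0) (nat_lit 0),
  SI.mk (nat_lit 90) (nat_lit 13) (nat_lit 1) (nat_lit 0),
  SI.mk (nat_lit 91) (nat_lit 10) (nat_lit 2) (nat_lit 0),
  SI.mk (nat_lit 92) (nat_lit 7) (nat_lit 3) (nat_lit 0),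
  SI.mk (nat_lit 93) (nat_lit 4) (nat_lit 4) (nat_lit 0),
  SI.mk (nat_lit 0) (nat_lit 0) (nat_lit 0) (nat_lit 0),
  SI.mk (nat_lit 89) (nat_lit 6) (nat_lit 0) (nat_lit 1),
  SI.mk (nat_lit 90) (nat_lit 3) (nat_lit 1) (nat_lit 1),
  SI.mk (nat_lit 87) (nat_lit 15) (nat_lit 0) (nat_lit 0),
  SI.mk (nat_lit 88) (nat_lit 12) (nat_lit 1) (nat_lit 0),
  SI.mk (nat_lit 89) (nat_lit 9) (nat_lit 2) (nat_lit 0),
  SI.mk (nat_lit 90) (nat_lit 6) (nat_lit 3) (nat_lit 0),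
  SI.mk (nat_lit 91) (nat_lit 3) (nat_lit 4) (nat_lit 0),
  SI.mk (nat_lit 0) (nat_lit 0) (nat_lit 0) (nat_lit 0),
  SI.mk (nat_lit 87) (nat_lit 5) (nat_lit 0) (nat_lit 1),
  SI.mk (nat_lit 88) (nat_lit 2) (nat_lit 1) (nat_lit 1),
  SI.mk (nat_lit 89) (nat_lit 15) (nat_lit 0) (nat_lit 0),
  SI.mk (nat_lit 90) (nat_lit 12) (nat_lit 1) (nat_lit 0),
  SI.mk (nat_lit 91) (nat_lit 9) (nat_lit 2) (nat_lit 0),
  SI.mk (nat_lit 92) (nat_lit 6) (nat_lit 3) (nat_lit 0),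
  SI.mk (nat_lit 93) (nat_lit 3) (nat_lit 4) (nat_lit 0),
  SI.mk (nat_lit 0) (nat_lit 0) (nat_lit 0) (nat_lit 0),
  SI.mk (nat_lit 89) (nat_lit 5) (nat_lit 0) (nat_lit 1),
  SI.mk (nat_lit 90) (nat_lit 2) (nat_lit 1) (nat_lit 1)]

def q14_0 : List Nat := [nat_lit 17, nat_lit 16, nat_lit 16, nat_lit 15, nat_lit 15, nat_lit 14, nat_lit 14]

def b14_0 : List Nat := [nat_lit 0, nat_lit 9, nat_lit 18, nat_lit 26, nat_lit 34, nat_lit 42, nat_lit 50]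

def k14_1 : KP := KP.mk (nat_lit 90) (nat_lit 14) (nat_lit 372) (nat_lit 14) (nat_lit 98) [
  SI.mk (nat_lit 87) (nat_lit 14) (nat_lit 0) (nat_lit 0),
  SI.mk (nat_lit 88) (nat_lit 11) (nat_lit 1) (nat_lit 0),
  SI.mk (nat_lit 89) (nat_lit 8) (nat_lit 2) (nat_lit 0),
  SI.mk (nat_lit 90) (nat_lit 5) (nat_lit 3) (nat_lit 0),
  SI.mk (nat_lit 91) (nat_lit 2) (nat_lit 4) (nat_lit 0),
  SI.mk (nat_lit 89) (nat_lit 14) (nat_lit 0) (nat_lit 0),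
  SI.mk (nat_lit 90) (nat_lit 11) (nat_lit 1) (nat_lit 0),
  SI.mk (nat_lit 91) (nat_lit 8) (nat_lit 2) (nat_lit 0),
  SI.mk (nat_lit 92) (nat_lit 5) (nat_lit 3) (nat_lit 0),
  SI.mk (nat_lit 93) (nat_lit 2) (nat_lit 4) (nat_lit 0),
  SI.mk (nat_lit 87) (nat_lit 13) (nat_lit 0) (nat_lit 0),
  SI.mk (nat_lit 88) (nat_lit 10) (nat_lit 1) (nat_lit 0),
  SI.mk (nat_lit 89) (nat_lit 7) (nat_lit 2) (nat_lit 0),
  SI.mk (nat_lit 90) (nat_lit 4) (nat_lit 3) (nat_lit 0),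
  SI.mk (nat_lit 87) (nat_lit 4) (nat_lit 0) (nat_lit 1),
  SI.mk (nat_lit 88) (nat_lit 1) (nat_lit 1) (nat_lit 1),
  SI.mk (nat_lit 90) (nat_lit 10) (nat_lit 0) (nat_lit 0),
  SI.mk (nat_lit 91) (nat_lit 7) (nat_lit 1) (nat_lit 0),
  SI.mk (nat_lit 92) (nat_lit 4) (nat_lit 2) (nat_lit 0),
  SI.mk (nat_lit 89) (nat_lit 4) (nat_lit 0) (nat_lit 1),
  SI.mk (nat_lit 90) (nat_lit 1) (nat_lit 1) (nat_lit 1),
  SI.mk (nat_lit 88) (nat_lit 9) (nat_lit 0) (nat_lit 0),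
  SI.mk (nat_lit 89) (nat_lit 6) (nat_lit 1) (nat_lit 0),
  SI.mk (nat_lit 90) (nat_lit 3) (nat_lit 2) (nat_lit 0),
  SI.mk (nat_lit 87) (nat_lit 3) (nat_lit 0) (nat_lit 1),
  SI.mk (nat_lit 90) (nat_lit 9) (nat_lit 0) (nat_lit 0),
  SI.mk (nat_lit 91) (nat_lit 6) (nat_lit 1) (nat_lit 0),
  SI.mk (nat_lit 92) (nat_lit 3) (nat_lit 2) (nat_lit 0),
  SI.mk (nat_lit 88) (nat_lit 8) (nat_lit 0) (nat_lit 0),
  SI.mk (nat_lit 89) (nat_lit 5) (nat_lit 1) (nat_lit 0),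
  SI.mk (nat_lit 90) (nat_lit 2) (nat_lit 2) (nat_lit 0),
  SI.mk (nat_lit 90) (nat_lit 8) (nat_lit 0) (nat_lit 0),
  SI.mk (nat_lit 91) (nat_lit 5) (nat_lit 1) (nat_lit 0),
  SI.mk (nat_lit 92) (nat_lit 2) (nat_lit 2) (nat_lit 0),
  SI.mk (nat_lit 88) (nat_lit 7) (nat_lit 0) (nat_lit 0),
  SI.mk (nat_lit 89) (nat_lit 4) (nat_lit 1) (nat_lit 0),
  SI.mk (nat_lit 90) (nat_lit 1) (nat_lit 2) (nat_lit 0),
  SI.mk (nat_lit 89) (nat_lit 7) (nat_lit 0) (nat_lit 0),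
  SI.mk (nat_lit 90) (nat_lit 4) (nat_lit 1) (nat_lit 0),
  SI.mk (nat_lit 90) (nat_lit 7) (nat_lit 0) (nat_lit 0),
  SI.mk (nat_lit 91) (nat_lit 4) (nat_lit 1) (nat_lit 0),
  SI.mk (nat_lit 87) (nat_lit 6) (nat_lit 0) (nat_lit 0),
  SI.mk (nat_lit 88) (nat_lit 3) (nat_lit 1) (nat_lit 0),
  SI.mk (nat_lit 89) (nat_lit 6) (nat_lit 0) (nat_lit 0),
  SI.mk (nat_lit 90) (nat_lit 3) (nat_lit 1) (nat_lit 0),
  SI.mk (nat_lit 87) (nat_lit 5) (nat_lit 0) (nat_lit 0),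
  SI.mk (nat_lit 88) (nat_lit 2) (nat_lit 1) (nat_lit 0),
  SI.mk (nat_lit 89) (nat_lit 5) (nat_lit 0) (nat_lit 0),
  SI.mk (nat_lit 90) (nat_lit 2) (nat_lit 1) (nat_lit 0),
  SI.mk (nat_lit 87) (nat_lit 4) (nat_lit 0) (nat_lit 0),
  SI.mk (nat_lit 88) (nat_lit 1) (nat_lit 1) (nat_lit 0),
  SI.mk (nat_lit 89) (nat_lit 4) (nat_lit 0) (nat_lit 0),
  SI.mk (nat_lit 90) (nat_lit 1) (nat_lit 1) (nat_lit 0),
  SI.mk (nat_lit 89) (nat_lit 4) (nat_lit 0) (nat_lit 0),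
  SI.mk (nat_lit 90) (nat_lit 1) (nat_lit 1) (nat_lit 0),
  SI.mk (nat_lit 87) (nat_lit 3) (nat_lit 0) (nat_lit 0),
  SI.mk (nat_lit 90) (nat_lit 3) (nat_lit 0) (nat_lit 0),
  SI.mk (nat_lit 88) (nat_lit 2) (nat_lit 0) (nat_lit 0),
  SI.mk (nat_lit 90) (nat_lit 2) (nat_lit 0) (nat_lit 0),
  SI.mk (nat_lit 87) (nat_lit 1) (nat_lit 0) (nat_lit 0),
  SI.mk (nat_lit 88) (nat_lit 1) (nat_lit 0) (nat_lit 0),
  SI.mk (nat_lit 90) (nat_lit 1) (nat_lit 0) (nat_lit 0)]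

def q14_1 : List Nat := [nat_lit 0, nat_lit 0, nat_lit 0, nat_lit 0, nat_lit 0, nat_lit 0, nat_lit 0, nat_lit 13, nat_lit 13, nat_lit 12, nat_lit 9, nat_lit 8, nat_lit 8, nat_lit 7, nat_lit 7, nat_lit 6, nat_lit 6, nat_lit 6, nat_lit 5, nat_lit 5, nat_lit 4, nat_lit 4, nat_lit 3, nat_lit 3, nat_lit 3, nat_lit 2, nat_lit 2, nat_lit 1, nat_lit 1, nat_lit 0, nat_lit 0, nat_lit 0]

def b14_1 : List Nat := [nat_lit 0, nat_lit 0, nat_lit 0, nat_lit 0, nat_lit 0, nat_lit 0, nat_lit 0, nat_lit 0, nat_lit 5, nat_lit 10, nat_lit 16, nat_lit 21, nat_lit 25, nat_lit 28, nat_lit 31, nat_lit 34, nat_lit 37, nat_lit 39, nat_lit 41, nat_lit 43, nat_lit 45, nat_lit 47, nat_lit 49, nat_lit 51, nat_lit 53, nat_lit 55, nat_lit 56, nat_lit 57, nat_lit 58, nat_lit 59, nat_lit 60, nat_lit 61]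

def k15_0 : KP := KP.mk (nat_lit 90) (nat_lit 18) (nat_lit 348) (nat_lit 6) (nat_lit 100) [
  SI.mk (nat_lit 90) (nat_lit 18) (nat_lit 0) (nat_lit 0),
  SI.mk (nat_lit 91) (nat_lit 15) (nat_lit 1) (nat_lit 0),
  SI.mk (nat_lit 92) (nat_lit 12) (nat_lit 2) (nat_lit 0),
  SI.mk (nat_lit 93) (nat_lit 9) (nat_lit 3) (nat_lit 0),
  SI.mk (nat_lit 94) (nat_lit 6) (nat_lit 4) (nat_lit 0),
  SI.mk (nat_lit 95) (nat_lit 3) (nat_lit 5) (nat_lit 0),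
  SI.mk (nat_lit 90) (nat_lit 8) (nat_lit 0) (nat_lit 1),
  SI.mk (nat_lit 91) (nat_lit 5) (nat_lit 1) (nat_lit 1),
  SI.mk (nat_lit 92) (nat_lit 2) (nat_lit 2) (nat_lit 1),
  SI.mk (nat_lit 88) (nat_lit 17) (nat_lit 0) (nat_lit 0),
  SI.mk (nat_lit 89) (nat_lit 14) (nat_lit 1) (nat_lit 0),
  SI.mk (nat_lit 90) (nat_lit 11) (nat_lit 2) (nat_lit 0),
  SI.mk (nat_lit 91) (nat_lit 8) (nat_lit 3) (nat_lit 0),
  SI.mk (nat_lit 92) (nat_lit 5) (nat_lit 4) (nat_lit 0),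
  SI.mk (nat_lit 93) (nat_lit 2) (nat_lit 5) (nat_lit 0),
  SI.mk (nat_lit 88) (nat_lit 7) (nat_lit 0) (nat_lit 1),
  SI.mk (nat_lit 89) (nat_lit 4) (nat_lit 1) (nat_lit 1),
  SI.mk (nat_lit 90) (nat_lit 1) (nat_lit 2) (nat_lit 1),
  SI.mk (nat_lit 90) (nat_lit 17) (nat_lit 0) (nat_lit 0),
  SI.mk (nat_lit 91) (nat_lit 14) (nat_lit 1) (nat_lit 0),
  SI.mk (nat_lit 92) (nat_lit 11) (nat_lit 2) (nat_lit 0),
  SI.mk (nat_lit 93) (nat_lit 8) (nat_lit 3) (nat_lit 0),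
  SI.mk (nat_lit 94) (nat_lit 5) (nat_lit 4) (nat_lit 0),
  SI.mk (nat_lit 0) (nat_lit 0) (nat_lit 0) (nat_lit 0),
  SI.mk (nat_lit 90) (nat_lit 7) (nat_lit 0) (nat_lit 1),
  SI.mk (nat_lit 91) (nat_lit 4) (nat_lit 1) (nat_lit 1),
  SI.mk (nat_lit 88) (nat_lit 16) (nat_lit 0) (nat_lit 0),
  SI.mk (nat_lit 89) (nat_lit 13) (nat_lit 1) (nat_lit 0),
  SI.mk (nat_lit 90) (nat_lit 10) (nat_lit 2) (nat_lit 0),
  SI.mk (nat_lit 91) (nat_lit 7) (nat_lit 3) (nat_lit 0),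
  SI.mk (nat_lit 92) (nat_lit 4) (nat_lit 4) (nat_lit 0),
  SI.mk (nat_lit 0) (nat_lit 0) (nat_lit 0) (nat_lit 0),
  SI.mk (nat_lit 88) (nat_lit 6) (nat_lit 0) (nat_lit 1),
  SI.mk (nat_lit 89) (nat_lit 3) (nat_lit 1) (nat_lit 1),
  SI.mk (nat_lit 90) (nat_lit 16) (nat_lit 0) (nat_lit 0),
  SI.mk (nat_lit 91) (nat_lit 13) (nat_lit 1) (nat_lit 0),
  SI.mk (nat_lit 92) (nat_lit 10) (nat_lit 2) (nat_lit 0),
  SI.mk (nat_lit 93) (nat_lit 7) (nat_lit 3) (nat_lit 0),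
  SI.mk (nat_lit 94) (nat_lit 4) (nat_lit 4) (nat_lit 0),
  SI.mk (nat_lit 0) (nat_lit 0) (nat_lit 0) (nat_lit 0),
  SI.mk (nat_lit 90) (nat_lit 6) (nat_lit 0) (nat_lit 1),
  SI.mk (nat_lit 91) (nat_lit 3) (nat_lit 1) (nat_lit 1),
  SI.mk (nat_lit 89) (nat_lit 15) (nat_lit 0) (nat_lit 0),
  SI.mk (nat_lit 90) (nat_lit 12) (nat_lit 1) (nat_lit 0),
  SI.mk (nat_lit 91) (nat_lit 9) (nat_lit 2) (nat_lit 0),
  SI.mk (nat_lit 92) (nat_lit 6) (nat_lit 3) (nat_lit 0),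
  SI.mk (nat_lit 93) (nat_lit 3) (nat_lit 4) (nat_lit 0),
  SI.mk (nat_lit 0) (nat_lit 0) (nat_lit 0) (nat_lit 0),
  SI.mk (nat_lit 89) (nat_lit 5) (nat_lit 0) (nat_lit 1),
  SI.mk (nat_lit 90) (nat_lit 2) (nat_lit 1) (nat_lit 1),
  SI.mk (nat_lit 87) (nat_lit 14) (nat_lit 0) (nat_lit 0),
  SI.mk (nat_lit 88) (nat_lit 11) (nat_lit 1) (nat_lit 0),
  SI.mk (nat_lit 89) (nat_lit 8) (nat_lit 2) (nat_lit 0),
  SI.mk (nat_lit 90) (nat_lit 5) (nat_lit 3) (nat_lit 0),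
  SI.mk (nat_lit 91) (nat_lit 2) (nat_lit 4) (nat_lit 0),
  SI.mk (nat_lit 0) (nat_lit 0) (nat_lit 0) (nat_lit 0),
  SI.mk (nat_lit 87) (nat_lit 4) (nat_lit 0) (nat_lit 1),
  SI.mk (nat_lit 88) (nat_lit 1) (nat_lit 1) (nat_lit 1)]

def q15_0 : List Nat := [nat_lit 17, nat_lit 16, nat_lit 16, nat_lit 15, nat_lit 15, nat_lit 14, nat_lit 13]

def b15_0 : List Nat := [nat_lit 0, nat_lit 9, nat_lit 18, nat_lit 26, nat_lit 34, nat_lit 42, nat_lit 50]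

def k15_1 : KP := KP.mk (nat_lit 90) (nat_lit 14) (nat_lit 324) (nat_lit 13) (nat_lit 98) [
  SI.mk (nat_lit 89) (nat_lit 14) (nat_lit 0) (nat_lit 0),
  SI.mk (nat_lit 90) (nat_lit 11) (nat_lit 1) (nat_lit 0),
  SI.mk (nat_lit 91) (nat_lit 8) (nat_lit 2) (nat_lit 0),
  SI.mk (nat_lit 92) (nat_lit 5) (nat_lit 3) (nat_lit 0),
  SI.mk (nat_lit 93) (nat_lit 2) (nat_lit 4) (nat_lit 0),
  SI.mk (nat_lit 87) (nat_lit 13) (nat_lit 0) (nat_lit 0),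
  SI.mk (nat_lit 88) (nat_lit 10) (nat_lit 1) (nat_lit 0),
  SI.mk (nat_lit 89) (nat_lit 7) (nat_lit 2) (nat_lit 0),
  SI.mk (nat_lit 90) (nat_lit 4) (nat_lit 3) (nat_lit 0),
  SI.mk (nat_lit 89) (nat_lit 13) (nat_lit 0) (nat_lit 0),
  SI.mk (nat_lit 90) (nat_lit 10) (nat_lit 1) (nat_lit 0),
  SI.mk (nat_lit 91) (nat_lit 7) (nat_lit 2) (nat_lit 0),
  SI.mk (nat_lit 92) (nat_lit 4) (nat_lit 3) (nat_lit 0),
  SI.mk (nat_lit 89) (nat_lit 4) (nat_lit 0) (nat_lit 1),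
  SI.mk (nat_lit 90) (nat_lit 1) (nat_lit 1) (nat_lit 1),
  SI.mk (nat_lit 87) (nat_lit 9) (nat_lit 0) (nat_lit 0),
  SI.mk (nat_lit 88) (nat_lit 6) (nat_lit 1) (nat_lit 0),
  SI.mk (nat_lit 89) (nat_lit 3) (nat_lit 2) (nat_lit 0),
  SI.mk (nat_lit 87) (nat_lit 3) (nat_lit 0) (nat_lit 1),
  SI.mk (nat_lit 89) (nat_lit 9) (nat_lit 0) (nat_lit 0),
  SI.mk (nat_lit 90) (nat_lit 6) (nat_lit 1) (nat_lit 0),
  SI.mk (nat_lit 91) (nat_lit 3) (nat_lit 2) (nat_lit 0),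
  SI.mk (nat_lit 89) (nat_lit 3) (nat_lit 0) (nat_lit 1),
  SI.mk (nat_lit 88) (nat_lit 8) (nat_lit 0) (nat_lit 0),
  SI.mk (nat_lit 89) (nat_lit 5) (nat_lit 1) (nat_lit 0),
  SI.mk (nat_lit 90) (nat_lit 2) (nat_lit 2) (nat_lit 0),
  SI.mk (nat_lit 90) (nat_lit 8) (nat_lit 0) (nat_lit 0),
  SI.mk (nat_lit 91) (nat_lit 5) (nat_lit 1) (nat_lit 0),
  SI.mk (nat_lit 92) (nat_lit 2) (nat_lit 2) (nat_lit 0),
  SI.mk (nat_lit 88) (nat_lit 7) (nat_lit 0) (nat_lit 0),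
  SI.mk (nat_lit 89) (nat_lit 4) (nat_lit 1) (nat_lit 0),
  SI.mk (nat_lit 90) (nat_lit 1) (nat_lit 2) (nat_lit 0),
  SI.mk (nat_lit 90) (nat_lit 7) (nat_lit 0) (nat_lit 0),
  SI.mk (nat_lit 91) (nat_lit 4) (nat_lit 1) (nat_lit 0),
  SI.mk (nat_lit 90) (nat_lit 7) (nat_lit 0) (nat_lit 0),
  SI.mk (nat_lit 91) (nat_lit 4) (nat_lit 1) (nat_lit 0),
  SI.mk (nat_lit 88) (nat_lit 6) (nat_lit 0) (nat_lit 0),
  SI.mk (nat_lit 89) (nat_lit 3) (nat_lit 1) (nat_lit 0),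
  SI.mk (nat_lit 88) (nat_lit 6) (nat_lit 0) (nat_lit 0),
  SI.mk (nat_lit 89) (nat_lit 3) (nat_lit 1) (nat_lit 0),
  SI.mk (nat_lit 90) (nat_lit 6) (nat_lit 0) (nat_lit 0),
  SI.mk (nat_lit 91) (nat_lit 3) (nat_lit 1) (nat_lit 0),
  SI.mk (nat_lit 88) (nat_lit 5) (nat_lit 0) (nat_lit 0),
  SI.mk (nat_lit 89) (nat_lit 2) (nat_lit 1) (nat_lit 0),
  SI.mk (nat_lit 90) (nat_lit 5) (nat_lit 0) (nat_lit 0),
  SI.mk (nat_lit 91) (nat_lit 2) (nat_lit 1) (nat_lit 0),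
  SI.mk (nat_lit 89) (nat_lit 4) (nat_lit 0) (nat_lit 0),
  SI.mk (nat_lit 90) (nat_lit 1) (nat_lit 1) (nat_lit 0),
  SI.mk (nat_lit 87) (nat_lit 3) (nat_lit 0) (nat_lit 0),
  SI.mk (nat_lit 87) (nat_lit 2) (nat_lit 0) (nat_lit 0),
  SI.mk (nat_lit 89) (nat_lit 2) (nat_lit 0) (nat_lit 0),
  SI.mk (nat_lit 88) (nat_lit 1) (nat_lit 0) (nat_lit 0),
  SI.mk (nat_lit 90) (nat_lit 1) (nat_lit 0) (nat_lit 0),
  SI.mk (nat_lit 90) (nat_lit 1) (nat_lit 0) (nat_lit 0)]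

def q15_1 : List Nat := [nat_lit 0, nat_lit 0, nat_lit 0, nat_lit 0, nat_lit 0, nat_lit 0, nat_lit 0, nat_lit 13, nat_lit 12, nat_lit 12, nat_lit 8, nat_lit 8, nat_lit 7, nat_lit 7, nat_lit 6, nat_lit 6, nat_lit 6, nat_lit 5, nat_lit 5, nat_lit 5, nat_lit 4, nat_lit 4, nat_lit 3, nat_lit 2, nat_lit 1, nat_lit 1, nat_lit 0, nat_lit 0, nat_lit 0]

def b15_1 : List Nat := [nat_lit 0, nat_lit 0, nat_lit 0, nat_lit 0, nat_lit 0, nat_lit 0, nat_lit 0, nat_lit 0, nat_lit 5, nat_lit 9, nat_lit 15, nat_lit 19, nat_lit 23, nat_lit 26, nat_lit 29, nat_lit 32, nat_lit 34, nat_lit 36, nat_lit 38, nat_lit 40, nat_lit 42, nat_lit 44, nat_lit 46, nat_lit 48, nat_lit 49, nat_lit 50, nat_lit 51, nat_lit 52, nat_lit 53]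

def k16_0 : KP := KP.mk (nat_lit 90) (nat_lit 17) (nat_lit 618) (nat_lit 49) (nat_lit 99) [
  SI.mk (nat_lit 88) (nat_lit 17) (nat_lit 0) (nat_lit 0),
  SI.mk (nat_lit 89) (nat_lit 14) (nat_lit 1) (nat_lit 0),
  SI.mk (nat_lit 90) (nat_lit 11) (nat_lit 2) (nat_lit 0),
  SI.mk (nat_lit 91) (nat_lit 8) (nat_lit 3) (nat_lit 0),
  SI.mk (nat_lit 92) (nat_lit 5) (nat_lit 4) (nat_lit 0),
  SI.mk (nat_lit 93) (nat_lit 2) (nat_lit 5) (nat_lit 0),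
  SI.mk (nat_lit 90) (nat_lit 17) (nat_lit 0) (nat_lit 0),
  SI.mk (nat_lit 91) (nat_lit 14) (nat_lit 1) (nat_lit 0),
  SI.mk (nat_lit 92) (nat_lit 11) (nat_lit 2) (nat_lit 0),
  SI.mk (nat_lit 93) (nat_lit 8) (nat_lit 3) (nat_lit 0),
  SI.mk (nat_lit 94) (nat_lit 5) (nat_lit 4) (nat_lit 0),
  SI.mk (nat_lit 88) (nat_lit 16) (nat_lit 0) (nat_lit 0),
  SI.mk (nat_lit 89) (nat_lit 13) (nat_lit 1) (nat_lit 0),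
  SI.mk (nat_lit 90) (nat_lit 10) (nat_lit 2) (nat_lit 0),
  SI.mk (nat_lit 91) (nat_lit 7) (nat_lit 3) (nat_lit 0),
  SI.mk (nat_lit 92) (nat_lit 4) (nat_lit 4) (nat_lit 0),
  SI.mk (nat_lit 90) (nat_lit 16) (nat_lit 0) (nat_lit 0),
  SI.mk (nat_lit 91) (nat_lit 13) (nat_lit 1) (nat_lit 0),
  SI.mk (nat_lit 92) (nat_lit 10) (nat_lit 2) (nat_lit 0),
  SI.mk (nat_lit 93) (nat_lit 7) (nat_lit 3) (nat_lit 0),
  SI.mk (nat_lit 94) (nat_lit 4) (nat_lit 4) (nat_lit 0),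
  SI.mk (nat_lit 88) (nat_lit 15) (nat_lit 0) (nat_lit 0),
  SI.mk (nat_lit 89) (nat_lit 12) (nat_lit 1) (nat_lit 0),
  SI.mk (nat_lit 90) (nat_lit 9) (nat_lit 2) (nat_lit 0),
  SI.mk (nat_lit 91) (nat_lit 6) (nat_lit 3) (nat_lit 0),
  SI.mk (nat_lit 92) (nat_lit 3) (nat_lit 4) (nat_lit 0),
  SI.mk (nat_lit 90) (nat_lit 15) (nat_lit 0) (nat_lit 0),
  SI.mk (nat_lit 91) (nat_lit 12) (nat_lit 1) (nat_lit 0),
  SI.mk (nat_lit 92) (nat_lit 9) (nat_lit 2) (nat_lit 0),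
  SI.mk (nat_lit 93) (nat_lit 6) (nat_lit 3) (nat_lit 0),
  SI.mk (nat_lit 94) (nat_lit 3) (nat_lit 4) (nat_lit 0),
  SI.mk (nat_lit 88) (nat_lit 14) (nat_lit 0) (nat_lit 0),
  SI.mk (nat_lit 89) (nat_lit 11) (nat_lit 1) (nat_lit 0),
  SI.mk (nat_lit 90) (nat_lit 8) (nat_lit 2) (nat_lit 0),
  SI.mk (nat_lit 91) (nat_lit 5) (nat_lit 3) (nat_lit 0),
  SI.mk (nat_lit 92) (nat_lit 2) (nat_lit 4) (nat_lit 0),
  SI.mk (nat_lit 90) (nat_lit 14) (nat_lit 0) (nat_lit 0),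
  SI.mk (nat_lit 91) (nat_lit 11) (nat_lit 1) (nat_lit 0),
  SI.mk (nat_lit 92) (nat_lit 8) (nat_lit 2) (nat_lit 0),
  SI.mk (nat_lit 93) (nat_lit 5) (nat_lit 3) (nat_lit 0),
  SI.mk (nat_lit 94) (nat_lit 2) (nat_lit 4) (nat_lit 0),
  SI.mk (nat_lit 88) (nat_lit 13) (nat_lit 0) (nat_lit 0),
  SI.mk (nat_lit 89) (nat_lit 10) (nat_lit 1) (nat_lit 0),
  SI.mk (nat_lit 90) (nat_lit 7) (nat_lit 2) (nat_lit 0),
  SI.mk (nat_lit 91) (nat_lit 4) (nat_lit 3) (nat_lit 0),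
  SI.mk (nat_lit 90) (nat_lit 13) (nat_lit 0) (nat_lit 0),
  SI.mk (nat_lit 91) (nat_lit 10) (nat_lit 1) (nat_lit 0),
  SI.mk (nat_lit 92) (nat_lit 7) (nat_lit 2) (nat_lit 0),
  SI.mk (nat_lit 93) (nat_lit 4) (nat_lit 3) (nat_lit 0),
  SI.mk (nat_lit 88) (nat_lit 7) (nat_lit 0) (nat_lit 1),
  SI.mk (nat_lit 89) (nat_lit 4) (nat_lit 1) (nat_lit 1),
  SI.mk (nat_lit 90) (nat_lit 1) (nat_lit 2) (nat_lit 1),
  SI.mk (nat_lit 89) (nat_lit 9) (nat_lit 0) (nat_lit 0),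
  SI.mk (nat_lit 90) (nat_lit 6) (nat_lit 1) (nat_lit 0),
  SI.mk (nat_lit 91) (nat_lit 3) (nat_lit 2) (nat_lit 0),
  SI.mk (nat_lit 90) (nat_lit 7) (nat_lit 0) (nat_lit 1),
  SI.mk (nat_lit 91) (nat_lit 4) (nat_lit 1) (nat_lit 1),
  SI.mk (nat_lit 87) (nat_lit 8) (nat_lit 0) (nat_lit 0),
  SI.mk (nat_lit 88) (nat_lit 5) (nat_lit 1) (nat_lit 0),
  SI.mk (nat_lit 89) (nat_lit 2) (nat_lit 2) (nat_lit 0),
  SI.mk (nat_lit 88) (nat_lit 6) (nat_lit 0) (nat_lit 1),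
  SI.mk (nat_lit 89) (nat_lit 3) (nat_lit 1) (nat_lit 1),
  SI.mk (nat_lit 89) (nat_lit 8) (nat_lit 0) (nat_lit 0),
  SI.mk (nat_lit 90) (nat_lit 5) (nat_lit 1) (nat_lit 0),
  SI.mk (nat_lit 91) (nat_lit 2) (nat_lit 2) (nat_lit 0),
  SI.mk (nat_lit 90) (nat_lit 6) (nat_lit 0) (nat_lit 1),
  SI.mk (nat_lit 91) (nat_lit 3) (nat_lit 1) (nat_lit 1),
  SI.mk (nat_lit 87) (nat_lit 7) (nat_lit 0) (nat_lit 0),
  SI.mk (nat_lit 88) (nat_lit 4) (nat_lit 1) (nat_lit 0),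
  SI.mk (nat_lit 89) (nat_lit 1) (nat_lit 2) (nat_lit 0),
  SI.mk (nat_lit 88) (nat_lit 5) (nat_lit 0) (nat_lit 1),
  SI.mk (nat_lit 89) (nat_lit 2) (nat_lit 1) (nat_lit 1),
  SI.mk (nat_lit 89) (nat_lit 7) (nat_lit 0) (nat_lit 0),
  SI.mk (nat_lit 90) (nat_lit 4) (nat_lit 1) (nat_lit 0),
  SI.mk (nat_lit 0) (nat_lit 0) (nat_lit 0) (nat_lit 0),
  SI.mk (nat_lit 90) (nat_lit 5) (nat_lit 0) (nat_lit 1),
  SI.mk (nat_lit 91) (nat_lit 2) (nat_lit 1) (nat_lit 1),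
  SI.mk (nat_lit 87) (nat_lit 6) (nat_lit 0) (nat_lit 0),
  SI.mk (nat_lit 88) (nat_lit 3) (nat_lit 1) (nat_lit 0),
  SI.mk (nat_lit 0) (nat_lit 0) (nat_lit 0) (nat_lit 0),
  SI.mk (nat_lit 88) (nat_lit 4) (nat_lit 0) (nat_lit 1),
  SI.mk (nat_lit 89) (nat_lit 1) (nat_lit 1) (nat_lit 1),
  SI.mk (nat_lit 88) (nat_lit 6) (nat_lit 0) (nat_lit 0),
  SI.mk (nat_lit 89) (nat_lit 3) (nat_lit 1) (nat_lit 0),
  SI.mk (nat_lit 0) (nat_lit 0) (nat_lit 0) (nat_lit 0),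
  SI.mk (nat_lit 90) (nat_lit 4) (nat_lit 0) (nat_lit 1),
  SI.mk (nat_lit 89) (nat_lit 6) (nat_lit 0) (nat_lit 0),
  SI.mk (nat_lit 90) (nat_lit 3) (nat_lit 1) (nat_lit 0),
  SI.mk (nat_lit 90) (nat_lit 6) (nat_lit 0) (nat_lit 0),
  SI.mk (nat_lit 91) (nat_lit 3) (nat_lit 1) (nat_lit 0),
  SI.mk (nat_lit 88) (nat_lit 3) (nat_lit 0) (nat_lit 1),
  SI.mk (nat_lit 88) (nat_lit 5) (nat_lit 0) (nat_lit 0),
  SI.mk (nat_lit 89) (nat_lit 2) (nat_lit 1) (nat_lit 0),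
  SI.mk (nat_lit 0) (nat_lit 0) (nat_lit 0) (nat_lit 0),
  SI.mk (nat_lit 90) (nat_lit 3) (nat_lit 0) (nat_lit 1),
  SI.mk (nat_lit 90) (nat_lit 5) (nat_lit 0) (nat_lit 0),
  SI.mk (nat_lit 91) (nat_lit 2) (nat_lit 1) (nat_lit 0),
  SI.mk (nat_lit 88) (nat_lit 4) (nat_lit 0) (nat_lit 0),
  SI.mk (nat_lit 89) (nat_lit 1) (nat_lit 1) (nat_lit 0),
  SI.mk (nat_lit 90) (nat_lit 4) (nat_lit 0) (nat_lit 0),
  SI.mk (nat_lit 88) (nat_lit 3) (nat_lit 0) (nat_lit 0),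
  SI.mk (nat_lit 89) (nat_lit 1) (nat_lit 0) (nat_lit 0),
  SI.mk (nat_lit 90) (nat_lit 1) (nat_lit 0) (nat_lit 0)]

def q16_0 : List Nat := [nat_lit 16, nat_lit 16, nat_lit 15, nat_lit 15, nat_lit 14, nat_lit 14, nat_lit 13, nat_lit 13, nat_lit 12, nat_lit 12, nat_lit 8, nat_lit 7, nat_lit 7, nat_lit 6, nat_lit 6, nat_lit 5, nat_lit 5, nat_lit 5, nat_lit 5, nat_lit 4, nat_lit 4, nat_lit 3, nat_lit 3, nat_lit 2, nat_lit 0, nat_lit 0]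

def b16_0 : List Nat := [nat_lit 0, nat_lit 6, nat_lit 11, nat_lit 16, nat_lit 21, nat_lit 26, nat_lit 31, nat_lit 36, nat_lit 41, nat_lit 45, nat_lit 52, nat_lit 57, nat_lit 62, nat_lit 67, nat_lit 72, nat_lit 77, nat_lit 82, nat_lit 86, nat_lit 88, nat_lit 91, nat_lit 95, nat_lit 97, nat_lit 99, nat_lit 100, nat_lit 101, nat_lit 102]

def k17_0 : KP := KP.mk (nat_lit 90) (nat_lit 17) (nat_lit 582) (nat_lit 44) (nat_lit 99) [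
  SI.mk (nat_lit 89) (nat_lit 17) (nat_lit 0) (nat_lit 0),
  SI.mk (nat_lit 90) (nat_lit 14) (nat_lit 1) (nat_lit 0),
  SI.mk (nat_lit 91) (nat_lit 11) (nat_lit 2) (nat_lit 0),
  SI.mk (nat_lit 92) (nat_lit 8) (nat_lit 3) (nat_lit 0),
  SI.mk (nat_lit 93) (nat_lit 5) (nat_lit 4) (nat_lit 0),
  SI.mk (nat_lit 94) (nat_lit 2) (nat_lit 5) (nat_lit 0),
  SI.mk (nat_lit 87) (nat_lit 16) (nat_lit 0) (nat_lit 0),
  SI.mk (nat_lit 88) (nat_lit 13) (nat_lit 1) (nat_lit 0),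
  SI.mk (nat_lit 89) (nat_lit 10) (nat_lit 2) (nat_lit 0),
  SI.mk (nat_lit 90) (nat_lit 7) (nat_lit 3) (nat_lit 0),
  SI.mk (nat_lit 91) (nat_lit 4) (nat_lit 4) (nat_lit 0),
  SI.mk (nat_lit 89) (nat_lit 16) (nat_lit 0) (nat_lit 0),
  SI.mk (nat_lit 90) (nat_lit 13) (nat_lit 1) (nat_lit 0),
  SI.mk (nat_lit 91) (nat_lit 10) (nat_lit 2) (nat_lit 0),
  SI.mk (nat_lit 92) (nat_lit 7) (nat_lit 3) (nat_lit 0),
  SI.mk (nat_lit 93) (nat_lit 4) (nat_lit 4) (nat_lit 0),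
  SI.mk (nat_lit 87) (nat_lit 15) (nat_lit 0) (nat_lit 0),
  SI.mk (nat_lit 88) (nat_lit 12) (nat_lit 1) (nat_lit 0),
  SI.mk (nat_lit 89) (nat_lit 9) (nat_lit 2) (nat_lit 0),
  SI.mk (nat_lit 90) (nat_lit 6) (nat_lit 3) (nat_lit 0),
  SI.mk (nat_lit 91) (nat_lit 3) (nat_lit 4) (nat_lit 0),
  SI.mk (nat_lit 89) (nat_lit 15) (nat_lit 0) (nat_lit 0),
  SI.mk (nat_lit 90) (nat_lit 12) (nat_lit 1) (nat_lit 0),
  SI.mk (nat_lit 91) (nat_lit 9) (nat_lit 2) (nat_lit 0),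
  SI.mk (nat_lit 92) (nat_lit 6) (nat_lit 3) (nat_lit 0),
  SI.mk (nat_lit 93) (nat_lit 3) (nat_lit 4) (nat_lit 0),
  SI.mk (nat_lit 88) (nat_lit 14) (nat_lit 0) (nat_lit 0),
  SI.mk (nat_lit 89) (nat_lit 11) (nat_lit 1) (nat_lit 0),
  SI.mk (nat_lit 90) (nat_lit 8) (nat_lit 2) (nat_lit 0),
  SI.mk (nat_lit 91) (nat_lit 5) (nat_lit 3) (nat_lit 0),
  SI.mk (nat_lit 92) (nat_lit 2) (nat_lit 4) (nat_lit 0),
  SI.mk (nat_lit 90) (nat_lit 14) (nat_lit 0) (nat_lit 0),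
  SI.mk (nat_lit 91) (nat_lit 11) (nat_lit 1) (nat_lit 0),
  SI.mk (nat_lit 92) (nat_lit 8) (nat_lit 2) (nat_lit 0),
  SI.mk (nat_lit 93) (nat_lit 5) (nat_lit 3) (nat_lit 0),
  SI.mk (nat_lit 94) (nat_lit 2) (nat_lit 4) (nat_lit 0),
  SI.mk (nat_lit 88) (nat_lit 13) (nat_lit 0) (nat_lit 0),
  SI.mk (nat_lit 89) (nat_lit 10) (nat_lit 1) (nat_lit 0),
  SI.mk (nat_lit 90) (nat_lit 7) (nat_lit 2) (nat_lit 0),
  SI.mk (nat_lit 91) (nat_lit 4) (nat_lit 3) (nat_lit 0),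
  SI.mk (nat_lit 90) (nat_lit 13) (nat_lit 0) (nat_lit 0),
  SI.mk (nat_lit 91) (nat_lit 10) (nat_lit 1) (nat_lit 0),
  SI.mk (nat_lit 92) (nat_lit 7) (nat_lit 2) (nat_lit 0),
  SI.mk (nat_lit 93) (nat_lit 4) (nat_lit 3) (nat_lit 0),
  SI.mk (nat_lit 89) (nat_lit 7) (nat_lit 0) (nat_lit 1),
  SI.mk (nat_lit 90) (nat_lit 4) (nat_lit 1) (nat_lit 1),
  SI.mk (nat_lit 88) (nat_lit 12) (nat_lit 0) (nat_lit 0),
  SI.mk (nat_lit 89) (nat_lit 9) (nat_lit 1) (nat_lit 0),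
  SI.mk (nat_lit 90) (nat_lit 6) (nat_lit 2) (nat_lit 0),
  SI.mk (nat_lit 91) (nat_lit 3) (nat_lit 3) (nat_lit 0),
  SI.mk (nat_lit 87) (nat_lit 6) (nat_lit 0) (nat_lit 1),
  SI.mk (nat_lit 88) (nat_lit 3) (nat_lit 1) (nat_lit 1),
  SI.mk (nat_lit 90) (nat_lit 9) (nat_lit 0) (nat_lit 0),
  SI.mk (nat_lit 91) (nat_lit 6) (nat_lit 1) (nat_lit 0),
  SI.mk (nat_lit 92) (nat_lit 3) (nat_lit 2) (nat_lit 0),
  SI.mk (nat_lit 89) (nat_lit 6) (nat_lit 0) (nat_lit 1),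
  SI.mk (nat_lit 90) (nat_lit 3) (nat_lit 1) (nat_lit 1),
  SI.mk (nat_lit 88) (nat_lit 8) (nat_lit 0) (nat_lit 0),
  SI.mk (nat_lit 89) (nat_lit 5) (nat_lit 1) (nat_lit 0),
  SI.mk (nat_lit 90) (nat_lit 2) (nat_lit 2) (nat_lit 0),
  SI.mk (nat_lit 87) (nat_lit 5) (nat_lit 0) (nat_lit 1),
  SI.mk (nat_lit 88) (nat_lit 2) (nat_lit 1) (nat_lit 1),
  SI.mk (nat_lit 87) (nat_lit 7) (nat_lit 0) (nat_lit 0),
  SI.mk (nat_lit 88) (nat_lit 4) (nat_lit 1) (nat_lit 0),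
  SI.mk (nat_lit 89) (nat_lit 1) (nat_lit 2) (nat_lit 0),
  SI.mk (nat_lit 89) (nat_lit 5) (nat_lit 0) (nat_lit 1),
  SI.mk (nat_lit 90) (nat_lit 2) (nat_lit 1) (nat_lit 1),
  SI.mk (nat_lit 89) (nat_lit 7) (nat_lit 0) (nat_lit 0),
  SI.mk (nat_lit 90) (nat_lit 4) (nat_lit 1) (nat_lit 0),
  SI.mk (nat_lit 0) (nat_lit 0) (nat_lit 0) (nat_lit 0),
  SI.mk (nat_lit 88) (nat_lit 4) (nat_lit 0) (nat_lit 1),
  SI.mk (nat_lit 89) (nat_lit 1) (nat_lit 1) (nat_lit 1),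
  SI.mk (nat_lit 87) (nat_lit 6) (nat_lit 0) (nat_lit 0),
  SI.mk (nat_lit 88) (nat_lit 3) (nat_lit 1) (nat_lit 0),
  SI.mk (nat_lit 0) (nat_lit 0) (nat_lit 0) (nat_lit 0),
  SI.mk (nat_lit 90) (nat_lit 4) (nat_lit 0) (nat_lit 1),
  SI.mk (nat_lit 89) (nat_lit 6) (nat_lit 0) (nat_lit 0),
  SI.mk (nat_lit 90) (nat_lit 3) (nat_lit 1) (nat_lit 0),
  SI.mk (nat_lit 89) (nat_lit 6) (nat_lit 0) (nat_lit 0),
  SI.mk (nat_lit 90) (nat_lit 3) (nat_lit 1) (nat_lit 0),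
  SI.mk (nat_lit 88) (nat_lit 3) (nat_lit 0) (nat_lit 1),
  SI.mk (nat_lit 87) (nat_lit 5) (nat_lit 0) (nat_lit 0),
  SI.mk (nat_lit 88) (nat_lit 2) (nat_lit 1) (nat_lit 0),
  SI.mk (nat_lit 0) (nat_lit 0) (nat_lit 0) (nat_lit 0),
  SI.mk (nat_lit 90) (nat_lit 3) (nat_lit 0) (nat_lit 1),
  SI.mk (nat_lit 87) (nat_lit 5) (nat_lit 0) (nat_lit 0),
  SI.mk (nat_lit 88) (nat_lit 2) (nat_lit 1) (nat_lit 0),
  SI.mk (nat_lit 89) (nat_lit 5) (nat_lit 0) (nat_lit 0),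
  SI.mk (nat_lit 90) (nat_lit 2) (nat_lit 1) (nat_lit 0),
  SI.mk (nat_lit 0) (nat_lit 0) (nat_lit 0) (nat_lit 0),
  SI.mk (nat_lit 88) (nat_lit 2) (nat_lit 0) (nat_lit 1),
  SI.mk (nat_lit 87) (nat_lit 4) (nat_lit 0) (nat_lit 0),
  SI.mk (nat_lit 88) (nat_lit 1) (nat_lit 1) (nat_lit 0),
  SI.mk (nat_lit 89) (nat_lit 4) (nat_lit 0) (nat_lit 0),
  SI.mk (nat_lit 90) (nat_lit 1) (nat_lit 1) (nat_lit 0),
  SI.mk (nat_lit 88) (nat_lit 3) (nat_lit 0) (nat_lit 0),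
  SI.mk (nat_lit 90) (nat_lit 3) (nat_lit 0) (nat_lit 0)]

def q17_0 : List Nat := [nat_lit 16, nat_lit 15, nat_lit 15, nat_lit 14, nat_lit 14, nat_lit 13, nat_lit 13, nat_lit 12, nat_lit 12, nat_lit 11, nat_lit 8, nat_lit 7, nat_lit 6, nat_lit 6, nat_lit 5, nat_lit 5, nat_lit 5, nat_lit 4, nat_lit 4, nat_lit 4, nat_lit 3, nat_lit 3, nat_lit 2, nat_lit 2]

def b17_0 : List Nat := [nat_lit 0, nat_lit 6, nat_lit 11, nat_lit 16, nat_lit 21, nat_lit 26, nat_lit 31, nat_lit 36, nat_lit 40, nat_lit 46, nat_lit 52, nat_lit 57, nat_lit 62, nat_lit 67, nat_lit 72, nat_lit 76, nat_lit 78, nat_lit 81, nat_lit 85, nat_lit 87, nat_lit 91, nat_lit 93, nat_lit 95, nat_lit 96]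

def k18_0 : KP := KP.mk (nat_lit 90) (nat_lit 16) (nat_lit 564) (nat_lit 5) (nat_lit 98) [
  SI.mk (nat_lit 87) (nat_lit 16) (nat_lit 0) (nat_lit 0),
  SI.mk (nat_lit 88) (nat_lit 13) (nat_lit 1) (nat_lit 0),
  SI.mk (nat_lit 89) (nat_lit 10) (nat_lit 2) (nat_lit 0),
  SI.mk (nat_lit 90) (nat_lit 7) (nat_lit 3) (nat_lit 0),
  SI.mk (nat_lit 91) (nat_lit 4) (nat_lit 4) (nat_lit 0),
  SI.mk (nat_lit 87) (nat_lit 6) (nat_lit 0) (nat_lit 1),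
  SI.mk (nat_lit 88) (nat_lit 3) (nat_lit 1) (nat_lit 1),
  SI.mk (nat_lit 89) (nat_lit 16) (nat_lit 0) (nat_lit 0),
  SI.mk (nat_lit 90) (nat_lit 13) (nat_lit 1) (nat_lit 0),
  SI.mk (nat_lit 91) (nat_lit 10) (nat_lit 2) (nat_lit 0),
  SI.mk (nat_lit 92) (nat_lit 7) (nat_lit 3) (nat_lit 0),
  SI.mk (nat_lit 93) (nat_lit 4) (nat_lit 4) (nat_lit 0),
  SI.mk (nat_lit 89) (nat_lit 6) (nat_lit 0) (nat_lit 1),
  SI.mk (nat_lit 90) (nat_lit 3) (nat_lit 1) (nat_lit 1),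
  SI.mk (nat_lit 87) (nat_lit 15) (nat_lit 0) (nat_lit 0),
  SI.mk (nat_lit 88) (nat_lit 12) (nat_lit 1) (nat_lit 0),
  SI.mk (nat_lit 89) (nat_lit 9) (nat_lit 2) (nat_lit 0),
  SI.mk (nat_lit 90) (nat_lit 6) (nat_lit 3) (nat_lit 0),
  SI.mk (nat_lit 91) (nat_lit 3) (nat_lit 4) (nat_lit 0),
  SI.mk (nat_lit 87) (nat_lit 5) (nat_lit 0) (nat_lit 1),
  SI.mk (nat_lit 88) (nat_lit 2) (nat_lit 1) (nat_lit 1),
  SI.mk (nat_lit 89) (nat_lit 15) (nat_lit 0) (nat_lit 0),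
  SI.mk (nat_lit 90) (nat_lit 12) (nat_lit 1) (nat_lit 0),
  SI.mk (nat_lit 91) (nat_lit 9) (nat_lit 2) (nat_lit 0),
  SI.mk (nat_lit 92) (nat_lit 6) (nat_lit 3) (nat_lit 0),
  SI.mk (nat_lit 93) (nat_lit 3) (nat_lit 4) (nat_lit 0),
  SI.mk (nat_lit 89) (nat_lit 5) (nat_lit 0) (nat_lit 1),
  SI.mk (nat_lit 90) (nat_lit 2) (nat_lit 1) (nat_lit 1),
  SI.mk (nat_lit 87) (nat_lit 14) (nat_lit 0) (nat_lit 0),
  SI.mk (nat_lit 88) (nat_lit 11) (nat_lit 1) (nat_lit 0),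
  SI.mk (nat_lit 89) (nat_lit 8) (nat_lit 2) (nat_lit 0),
  SI.mk (nat_lit 90) (nat_lit 5) (nat_lit 3) (nat_lit 0),
  SI.mk (nat_lit 91) (nat_lit 2) (nat_lit 4) (nat_lit 0),
  SI.mk (nat_lit 87) (nat_lit 4) (nat_lit 0) (nat_lit 1),
  SI.mk (nat_lit 88) (nat_lit 1) (nat_lit 1) (nat_lit 1),
  SI.mk (nat_lit 89) (nat_lit 14) (nat_lit 0) (nat_lit 0),
  SI.mk (nat_lit 90) (nat_lit 11) (nat_lit 1) (nat_lit 0),
  SI.mk (nat_lit 91) (nat_lit 8) (nat_lit 2) (nat_lit 0),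
  SI.mk (nat_lit 92) (nat_lit 5) (nat_lit 3) (nat_lit 0),
  SI.mk (nat_lit 93) (nat_lit 2) (nat_lit 4) (nat_lit 0),
  SI.mk (nat_lit 89) (nat_lit 4) (nat_lit 0) (nat_lit 1),
  SI.mk (nat_lit 90) (nat_lit 1) (nat_lit 1) (nat_lit 1),
  SI.mk (nat_lit 87) (nat_lit 13) (nat_lit 0) (nat_lit 0),
  SI.mk (nat_lit 88) (nat_lit 10) (nat_lit 1) (nat_lit 0),
  SI.mk (nat_lit 89) (nat_lit 7) (nat_lit 2) (nat_lit 0),
  SI.mk (nat_lit 90) (nat_lit 4) (nat_lit 3) (nat_lit 0),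
  SI.mk (nat_lit 0) (nat_lit 0) (nat_lit 0) (nat_lit 0),
  SI.mk (nat_lit 87) (nat_lit 3) (nat_lit 0) (nat_lit 1),
  SI.mk (nat_lit 89) (nat_lit 13) (nat_lit 0) (nat_lit 0),
  SI.mk (nat_lit 90) (nat_lit 10) (nat_lit 1) (nat_lit 0),
  SI.mk (nat_lit 91) (nat_lit 7) (nat_lit 2) (nat_lit 0),
  SI.mk (nat_lit 92) (nat_lit 4) (nat_lit 3) (nat_lit 0),
  SI.mk (nat_lit 0) (nat_lit 0) (nat_lit 0) (nat_lit 0),
  SI.mk (nat_lit 89) (nat_lit 3) (nat_lit 0) (nat_lit 1),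
  SI.mk (nat_lit 87) (nat_lit 12) (nat_lit 0) (nat_lit 0),
  SI.mk (nat_lit 88) (nat_lit 9) (nat_lit 1) (nat_lit 0),
  SI.mk (nat_lit 89) (nat_lit 6) (nat_lit 2) (nat_lit 0),
  SI.mk (nat_lit 90) (nat_lit 3) (nat_lit 3) (nat_lit 0),
  SI.mk (nat_lit 0) (nat_lit 0) (nat_lit 0) (nat_lit 0),
  SI.mk (nat_lit 87) (nat_lit 2) (nat_lit 0) (nat_lit 1),
  SI.mk (nat_lit 89) (nat_lit 12) (nat_lit 0) (nat_lit 0),
  SI.mk (nat_lit 90) (nat_lit 9) (nat_lit 1) (nat_lit 0),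
  SI.mk (nat_lit 91) (nat_lit 6) (nat_lit 2) (nat_lit 0),
  SI.mk (nat_lit 92) (nat_lit 3) (nat_lit 3) (nat_lit 0),
  SI.mk (nat_lit 0) (nat_lit 0) (nat_lit 0) (nat_lit 0),
  SI.mk (nat_lit 89) (nat_lit 2) (nat_lit 0) (nat_lit 1),
  SI.mk (nat_lit 88) (nat_lit 8) (nat_lit 0) (nat_lit 0),
  SI.mk (nat_lit 89) (nat_lit 5) (nat_lit 1) (nat_lit 0),
  SI.mk (nat_lit 90) (nat_lit 2) (nat_lit 2) (nat_lit 0),
  SI.mk (nat_lit 90) (nat_lit 8) (nat_lit 0) (nat_lit 0),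
  SI.mk (nat_lit 91) (nat_lit 5) (nat_lit 1) (nat_lit 0),
  SI.mk (nat_lit 92) (nat_lit 2) (nat_lit 2) (nat_lit 0),
  SI.mk (nat_lit 88) (nat_lit 7) (nat_lit 0) (nat_lit 0),
  SI.mk (nat_lit 89) (nat_lit 4) (nat_lit 1) (nat_lit 0),
  SI.mk (nat_lit 90) (nat_lit 1) (nat_lit 2) (nat_lit 0),
  SI.mk (nat_lit 90) (nat_lit 7) (nat_lit 0) (nat_lit 0),
  SI.mk (nat_lit 91) (nat_lit 4) (nat_lit 1) (nat_lit 0),
  SI.mk (nat_lit 88) (nat_lit 6) (nat_lit 0) (nat_lit 0),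
  SI.mk (nat_lit 89) (nat_lit 3) (nat_lit 1) (nat_lit 0),
  SI.mk (nat_lit 90) (nat_lit 6) (nat_lit 0) (nat_lit 0),
  SI.mk (nat_lit 91) (nat_lit 3) (nat_lit 1) (nat_lit 0),
  SI.mk (nat_lit 87) (nat_lit 5) (nat_lit 0) (nat_lit 0),
  SI.mk (nat_lit 88) (nat_lit 2) (nat_lit 1) (nat_lit 0),
  SI.mk (nat_lit 88) (nat_lit 5) (nat_lit 0) (nat_lit 0),
  SI.mk (nat_lit 89) (nat_lit 2) (nat_lit 1) (nat_lit 0),
  SI.mk (nat_lit 89) (nat_lit 5) (nat_lit 0) (nat_lit 0),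
  SI.mk (nat_lit 90) (nat_lit 2) (nat_lit 1) (nat_lit 0),
  SI.mk (nat_lit 87) (nat_lit 4) (nat_lit 0) (nat_lit 0),
  SI.mk (nat_lit 88) (nat_lit 1) (nat_lit 1) (nat_lit 0),
  SI.mk (nat_lit 89) (nat_lit 4) (nat_lit 0) (nat_lit 0),
  SI.mk (nat_lit 90) (nat_lit 1) (nat_lit 1) (nat_lit 0),
  SI.mk (nat_lit 87) (nat_lit 3) (nat_lit 0) (nat_lit 0),
  SI.mk (nat_lit 89) (nat_lit 3) (nat_lit 0) (nat_lit 0),
  SI.mk (nat_lit 87) (nat_lit 2) (nat_lit 0) (nat_lit 0)]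

def q18_0 : List Nat := [nat_lit 15, nat_lit 15, nat_lit 14, nat_lit 14, nat_lit 13, nat_lit 13, nat_lit 12, nat_lit 12, nat_lit 11, nat_lit 11, nat_lit 7, nat_lit 7, nat_lit 6, nat_lit 6, nat_lit 5, nat_lit 5, nat_lit 4, nat_lit 4, nat_lit 4, nat_lit 3, nat_lit 3, nat_lit 2, nat_lit 2, nat_lit 1]

def b18_0 : List Nat := [nat_lit 0, nat_lit 7, nat_lit 14, nat_lit 21, nat_lit 28, nat_lit 35, nat_lit 42, nat_lit 48, nat_lit 54, nat_lit 60, nat_lit 66, nat_lit 69, nat_lit 72, nat_lit 75, nat_lit 77, nat_lit 79, nat_lit 81, nat_lit 83, nat_lit 85, nat_lit 87, nat_lit 89, nat_lit 91, nat_lit 92, nat_lit 93]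

def k19_0 : KP := KP.mk (nat_lit 90) (nat_lit 16) (nat_lit 546) (nat_lit 5) (nat_lit 99) [
  SI.mk (nat_lit 88) (nat_lit 16) (nat_lit 0) (nat_lit 0),
  SI.mk (nat_lit 89) (nat_lit 13) (nat_lit 1) (nat_lit 0),
  SI.mk (nat_lit 90) (nat_lit 10) (nat_lit 2) (nat_lit 0),
  SI.mk (nat_lit 91) (nat_lit 7) (nat_lit 3) (nat_lit 0),
  SI.mk (nat_lit 92) (nat_lit 4) (nat_lit 4) (nat_lit 0),
  SI.mk (nat_lit 88) (nat_lit 6) (nat_lit 0) (nat_lit 1),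
  SI.mk (nat_lit 89) (nat_lit 3) (nat_lit 1) (nat_lit 1),
  SI.mk (nat_lit 90) (nat_lit 16) (nat_lit 0) (nat_lit 0),
  SI.mk (nat_lit 91) (nat_lit 13) (nat_lit 1) (nat_lit 0),
  SI.mk (nat_lit 92) (nat_lit 10) (nat_lit 2) (nat_lit 0),
  SI.mk (nat_lit 93) (nat_lit 7) (nat_lit 3) (nat_lit 0),
  SI.mk (nat_lit 94) (nat_lit 4) (nat_lit 4) (nat_lit 0),
  SI.mk (nat_lit 90) (nat_lit 6) (nat_lit 0) (nat_lit 1),
  SI.mk (nat_lit 91) (nat_lit 3) (nat_lit 1) (nat_lit 1),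
  SI.mk (nat_lit 88) (nat_lit 15) (nat_lit 0) (nat_lit 0),
  SI.mk (nat_lit 89) (nat_lit 12) (nat_lit 1) (nat_lit 0),
  SI.mk (nat_lit 90) (nat_lit 9) (nat_lit 2) (nat_lit 0),
  SI.mk (nat_lit 91) (nat_lit 6) (nat_lit 3) (nat_lit 0),
  SI.mk (nat_lit 92) (nat_lit 3) (nat_lit 4) (nat_lit 0),
  SI.mk (nat_lit 88) (nat_lit 5) (nat_lit 0) (nat_lit 1),
  SI.mk (nat_lit 89) (nat_lit 2) (nat_lit 1) (nat_lit 1),
  SI.mk (nat_lit 90) (nat_lit 15) (nat_lit 0) (nat_lit 0),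
  SI.mk (nat_lit 91) (nat_lit 12) (nat_lit 1) (nat_lit 0),
  SI.mk (nat_lit 92) (nat_lit 9) (nat_lit 2) (nat_lit 0),
  SI.mk (nat_lit 93) (nat_lit 6) (nat_lit 3) (nat_lit 0),
  SI.mk (nat_lit 94) (nat_lit 3) (nat_lit 4) (nat_lit 0),
  SI.mk (nat_lit 90) (nat_lit 5) (nat_lit 0) (nat_lit 1),
  SI.mk (nat_lit 91) (nat_lit 2) (nat_lit 1) (nat_lit 1),
  SI.mk (nat_lit 88) (nat_lit 14) (nat_lit 0) (nat_lit 0),
  SI.mk (nat_lit 89) (nat_lit 11) (nat_lit 1) (nat_lit 0),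
  SI.mk (nat_lit 90) (nat_lit 8) (nat_lit 2) (nat_lit 0),
  SI.mk (nat_lit 91) (nat_lit 5) (nat_lit 3) (nat_lit 0),
  SI.mk (nat_lit 92) (nat_lit 2) (nat_lit 4) (nat_lit 0),
  SI.mk (nat_lit 88) (nat_lit 4) (nat_lit 0) (nat_lit 1),
  SI.mk (nat_lit 89) (nat_lit 1) (nat_lit 1) (nat_lit 1),
  SI.mk (nat_lit 87) (nat_lit 13) (nat_lit 0) (nat_lit 0),
  SI.mk (nat_lit 88) (nat_lit 10) (nat_lit 1) (nat_lit 0),
  SI.mk (nat_lit 89) (nat_lit 7) (nat_lit 2) (nat_lit 0),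
  SI.mk (nat_lit 90) (nat_lit 4) (nat_lit 3) (nat_lit 0),
  SI.mk (nat_lit 0) (nat_lit 0) (nat_lit 0) (nat_lit 0),
  SI.mk (nat_lit 87) (nat_lit 3) (nat_lit 0) (nat_lit 1),
  SI.mk (nat_lit 89) (nat_lit 13) (nat_lit 0) (nat_lit 0),
  SI.mk (nat_lit 90) (nat_lit 10) (nat_lit 1) (nat_lit 0),
  SI.mk (nat_lit 91) (nat_lit 7) (nat_lit 2) (nat_lit 0),
  SI.mk (nat_lit 92) (nat_lit 4) (nat_lit 3) (nat_lit 0),
  SI.mk (nat_lit 0) (nat_lit 0) (nat_lit 0) (nat_lit 0),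
  SI.mk (nat_lit 89) (nat_lit 3) (nat_lit 0) (nat_lit 1),
  SI.mk (nat_lit 87) (nat_lit 12) (nat_lit 0) (nat_lit 0),
  SI.mk (nat_lit 88) (nat_lit 9) (nat_lit 1) (nat_lit 0),
  SI.mk (nat_lit 89) (nat_lit 6) (nat_lit 2) (nat_lit 0),
  SI.mk (nat_lit 90) (nat_lit 3) (nat_lit 3) (nat_lit 0),
  SI.mk (nat_lit 0) (nat_lit 0) (nat_lit 0) (nat_lit 0),
  SI.mk (nat_lit 87) (nat_lit 2) (nat_lit 0) (nat_lit 1),
  SI.mk (nat_lit 89) (nat_lit 12) (nat_lit 0) (nat_lit 0),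
  SI.mk (nat_lit 90) (nat_lit 9) (nat_lit 1) (nat_lit 0),
  SI.mk (nat_lit 91) (nat_lit 6) (nat_lit 2) (nat_lit 0),
  SI.mk (nat_lit 92) (nat_lit 3) (nat_lit 3) (nat_lit 0),
  SI.mk (nat_lit 0) (nat_lit 0) (nat_lit 0) (nat_lit 0),
  SI.mk (nat_lit 89) (nat_lit 2) (nat_lit 0) (nat_lit 1),
  SI.mk (nat_lit 87) (nat_lit 11) (nat_lit 0) (nat_lit 0),
  SI.mk (nat_lit 88) (nat_lit 8) (nat_lit 1) (nat_lit 0),
  SI.mk (nat_lit 89) (nat_lit 5) (nat_lit 2) (nat_lit 0),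
  SI.mk (nat_lit 90) (nat_lit 2) (nat_lit 3) (nat_lit 0),
  SI.mk (nat_lit 0) (nat_lit 0) (nat_lit 0) (nat_lit 0),
  SI.mk (nat_lit 87) (nat_lit 1) (nat_lit 0) (nat_lit 1),
  SI.mk (nat_lit 89) (nat_lit 8) (nat_lit 0) (nat_lit 0),
  SI.mk (nat_lit 90) (nat_lit 5) (nat_lit 1) (nat_lit 0),
  SI.mk (nat_lit 91) (nat_lit 2) (nat_lit 2) (nat_lit 0),
  SI.mk (nat_lit 87) (nat_lit 7) (nat_lit 0) (nat_lit 0),
  SI.mk (nat_lit 88) (nat_lit 4) (nat_lit 1) (nat_lit 0),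
  SI.mk (nat_lit 89) (nat_lit 1) (nat_lit 2) (nat_lit 0),
  SI.mk (nat_lit 90) (nat_lit 7) (nat_lit 0) (nat_lit 0),
  SI.mk (nat_lit 91) (nat_lit 4) (nat_lit 1) (nat_lit 0),
  SI.mk (nat_lit 88) (nat_lit 6) (nat_lit 0) (nat_lit 0),
  SI.mk (nat_lit 89) (nat_lit 3) (nat_lit 1) (nat_lit 0),
  SI.mk (nat_lit 90) (nat_lit 6) (nat_lit 0) (nat_lit 0),
  SI.mk (nat_lit 91) (nat_lit 3) (nat_lit 1) (nat_lit 0),
  SI.mk (nat_lit 88) (nat_lit 5) (nat_lit 0) (nat_lit 0),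
  SI.mk (nat_lit 89) (nat_lit 2) (nat_lit 1) (nat_lit 0),
  SI.mk (nat_lit 88) (nat_lit 5) (nat_lit 0) (nat_lit 0),
  SI.mk (nat_lit 89) (nat_lit 2) (nat_lit 1) (nat_lit 0),
  SI.mk (nat_lit 90) (nat_lit 5) (nat_lit 0) (nat_lit 0),
  SI.mk (nat_lit 91) (nat_lit 2) (nat_lit 1) (nat_lit 0),
  SI.mk (nat_lit 90) (nat_lit 5) (nat_lit 0) (nat_lit 0),
  SI.mk (nat_lit 91) (nat_lit 2) (nat_lit 1) (nat_lit 0),
  SI.mk (nat_lit 88) (nat_lit 4) (nat_lit 0) (nat_lit 0),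
  SI.mk (nat_lit 89) (nat_lit 1) (nat_lit 1) (nat_lit 0),
  SI.mk (nat_lit 90) (nat_lit 4) (nat_lit 0) (nat_lit 0),
  SI.mk (nat_lit 88) (nat_lit 3) (nat_lit 0) (nat_lit 0),
  SI.mk (nat_lit 87) (nat_lit 2) (nat_lit 0) (nat_lit 0),
  SI.mk (nat_lit 89) (nat_lit 2) (nat_lit 0) (nat_lit 0)]

def q19_0 : List Nat := [nat_lit 15, nat_lit 15, nat_lit 14, nat_lit 14, nat_lit 13, nat_lit 12, nat_lit 12, nat_lit 11, nat_lit 11, nat_lit 10, nat_lit 7, nat_lit 6, nat_lit 6, nat_lit 5, nat_lit 5, nat_lit 4, nat_lit 4, nat_lit 4, nat_lit 4, nat_lit 3, nat_lit 3, nat_lit 2, nat_lit 1, nat_lit 1]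

def b19_0 : List Nat := [nat_lit 0, nat_lit 7, nat_lit 14, nat_lit 21, nat_lit 28, nat_lit 35, nat_lit 41, nat_lit 47, nat_lit 53, nat_lit 59, nat_lit 65, nat_lit 68, nat_lit 71, nat_lit 73, nat_lit 75, nat_lit 77, nat_lit 79, nat_lit 81, nat_lit 83, nat_lit 85, nat_lit 87, nat_lit 88, nat_lit 89, nat_lit 90]

def k20_0 : KP := KP.mk (nat_lit 90) (nat_lit 16) (nat_lit 528) (nat_lit 5) (nat_lit 99) [
  SI.mk (nat_lit 90) (nat_lit 16) (nat_lit 0) (nat_lit 0),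
  SI.mk (nat_lit 91) (nat_lit 13) (nat_lit 1) (nat_lit 0),
  SI.mk (nat_lit 92) (nat_lit 10) (nat_lit 2) (nat_lit 0),
  SI.mk (nat_lit 93) (nat_lit 7) (nat_lit 3) (nat_lit 0),
  SI.mk (nat_lit 94) (nat_lit 4) (nat_lit 4) (nat_lit 0),
  SI.mk (nat_lit 90) (nat_lit 6) (nat_lit 0) (nat_lit 1),
  SI.mk (nat_lit 91) (nat_lit 3) (nat_lit 1) (nat_lit 1),
  SI.mk (nat_lit 88) (nat_lit 15) (nat_lit 0) (nat_lit 0),
  SI.mk (nat_lit 89) (nat_lit 12) (nat_lit 1) (nat_lit 0),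
  SI.mk (nat_lit 90) (nat_lit 9) (nat_lit 2) (nat_lit 0),
  SI.mk (nat_lit 91) (nat_lit 6) (nat_lit 3) (nat_lit 0),
  SI.mk (nat_lit 92) (nat_lit 3) (nat_lit 4) (nat_lit 0),
  SI.mk (nat_lit 88) (nat_lit 5) (nat_lit 0) (nat_lit 1),
  SI.mk (nat_lit 89) (nat_lit 2) (nat_lit 1) (nat_lit 1),
  SI.mk (nat_lit 90) (nat_lit 15) (nat_lit 0) (nat_lit 0),
  SI.mk (nat_lit 91) (nat_lit 12) (nat_lit 1) (nat_lit 0),
  SI.mk (nat_lit 92) (nat_lit 9) (nat_lit 2) (nat_lit 0),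
  SI.mk (nat_lit 93) (nat_lit 6) (nat_lit 3) (nat_lit 0),
  SI.mk (nat_lit 94) (nat_lit 3) (nat_lit 4) (nat_lit 0),
  SI.mk (nat_lit 90) (nat_lit 5) (nat_lit 0) (nat_lit 1),
  SI.mk (nat_lit 91) (nat_lit 2) (nat_lit 1) (nat_lit 1),
  SI.mk (nat_lit 88) (nat_lit 14) (nat_lit 0) (nat_lit 0),
  SI.mk (nat_lit 89) (nat_lit 11) (nat_lit 1) (nat_lit 0),
  SI.mk (nat_lit 90) (nat_lit 8) (nat_lit 2) (nat_lit 0),
  SI.mk (nat_lit 91) (nat_lit 5) (nat_lit 3) (nat_lit 0),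
  SI.mk (nat_lit 92) (nat_lit 2) (nat_lit 4) (nat_lit 0),
  SI.mk (nat_lit 88) (nat_lit 4) (nat_lit 0) (nat_lit 1),
  SI.mk (nat_lit 89) (nat_lit 1) (nat_lit 1) (nat_lit 1),
  SI.mk (nat_lit 90) (nat_lit 14) (nat_lit 0) (nat_lit 0),
  SI.mk (nat_lit 91) (nat_lit 11) (nat_lit 1) (nat_lit 0),
  SI.mk (nat_lit 92) (nat_lit 8) (nat_lit 2) (nat_lit 0),
  SI.mk (nat_lit 93) (nat_lit 5) (nat_lit 3) (nat_lit 0),
  SI.mk (nat_lit 94) (nat_lit 2) (nat_lit 4) (nat_lit 0),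
  SI.mk (nat_lit 90) (nat_lit 4) (nat_lit 0) (nat_lit 1),
  SI.mk (nat_lit 88) (nat_lit 13) (nat_lit 0) (nat_lit 0),
  SI.mk (nat_lit 89) (nat_lit 10) (nat_lit 1) (nat_lit 0),
  SI.mk (nat_lit 90) (nat_lit 7) (nat_lit 2) (nat_lit 0),
  SI.mk (nat_lit 91) (nat_lit 4) (nat_lit 3) (nat_lit 0),
  SI.mk (nat_lit 0) (nat_lit 0) (nat_lit 0) (nat_lit 0),
  SI.mk (nat_lit 88) (nat_lit 3) (nat_lit 0) (nat_lit 1),
  SI.mk (nat_lit 90) (nat_lit 13) (nat_lit 0) (nat_lit 0),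
  SI.mk (nat_lit 91) (nat_lit 10) (nat_lit 1) (nat_lit 0),
  SI.mk (nat_lit 92) (nat_lit 7) (nat_lit 2) (nat_lit 0),
  SI.mk (nat_lit 93) (nat_lit 4) (nat_lit 3) (nat_lit 0),
  SI.mk (nat_lit 0) (nat_lit 0) (nat_lit 0) (nat_lit 0),
  SI.mk (nat_lit 90) (nat_lit 3) (nat_lit 0) (nat_lit 1),
  SI.mk (nat_lit 88) (nat_lit 12) (nat_lit 0) (nat_lit 0),
  SI.mk (nat_lit 89) (nat_lit 9) (nat_lit 1) (nat_lit 0),
  SI.mk (nat_lit 90) (nat_lit 6) (nat_lit 2) (nat_lit 0),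
  SI.mk (nat_lit 91) (nat_lit 3) (nat_lit 3) (nat_lit 0),
  SI.mk (nat_lit 0) (nat_lit 0) (nat_lit 0) (nat_lit 0),
  SI.mk (nat_lit 88) (nat_lit 2) (nat_lit 0) (nat_lit 1),
  SI.mk (nat_lit 90) (nat_lit 12) (nat_lit 0) (nat_lit 0),
  SI.mk (nat_lit 91) (nat_lit 9) (nat_lit 1) (nat_lit 0),
  SI.mk (nat_lit 92) (nat_lit 6) (nat_lit 2) (nat_lit 0),
  SI.mk (nat_lit 93) (nat_lit 3) (nat_lit 3) (nat_lit 0),
  SI.mk (nat_lit 0) (nat_lit 0) (nat_lit 0) (nat_lit 0),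
  SI.mk (nat_lit 90) (nat_lit 2) (nat_lit 0) (nat_lit 1),
  SI.mk (nat_lit 88) (nat_lit 11) (nat_lit 0) (nat_lit 0),
  SI.mk (nat_lit 89) (nat_lit 8) (nat_lit 1) (nat_lit 0),
  SI.mk (nat_lit 90) (nat_lit 5) (nat_lit 2) (nat_lit 0),
  SI.mk (nat_lit 91) (nat_lit 2) (nat_lit 3) (nat_lit 0),
  SI.mk (nat_lit 0) (nat_lit 0) (nat_lit 0) (nat_lit 0),
  SI.mk (nat_lit 88) (nat_lit 1) (nat_lit 0) (nat_lit 1),
  SI.mk (nat_lit 87) (nat_lit 7) (nat_lit 0) (nat_lit 0),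
  SI.mk (nat_lit 88) (nat_lit 4) (nat_lit 1) (nat_lit 0),
  SI.mk (nat_lit 89) (nat_lit 1) (nat_lit 2) (nat_lit 0),
  SI.mk (nat_lit 89) (nat_lit 7) (nat_lit 0) (nat_lit 0),
  SI.mk (nat_lit 90) (nat_lit 4) (nat_lit 1) (nat_lit 0),
  SI.mk (nat_lit 87) (nat_lit 6) (nat_lit 0) (nat_lit 0),
  SI.mk (nat_lit 88) (nat_lit 3) (nat_lit 1) (nat_lit 0),
  SI.mk (nat_lit 89) (nat_lit 6) (nat_lit 0) (nat_lit 0),
  SI.mk (nat_lit 90) (nat_lit 3) (nat_lit 1) (nat_lit 0),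
  SI.mk (nat_lit 87) (nat_lit 5) (nat_lit 0) (nat_lit 0),
  SI.mk (nat_lit 88) (nat_lit 2) (nat_lit 1) (nat_lit 0),
  SI.mk (nat_lit 89) (nat_lit 5) (nat_lit 0) (nat_lit 0),
  SI.mk (nat_lit 90) (nat_lit 2) (nat_lit 1) (nat_lit 0),
  SI.mk (nat_lit 90) (nat_lit 5) (nat_lit 0) (nat_lit 0),
  SI.mk (nat_lit 91) (nat_lit 2) (nat_lit 1) (nat_lit 0),
  SI.mk (nat_lit 87) (nat_lit 4) (nat_lit 0) (nat_lit 0),
  SI.mk (nat_lit 88) (nat_lit 1) (nat_lit 1) (nat_lit 0),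
  SI.mk (nat_lit 88) (nat_lit 4) (nat_lit 0) (nat_lit 0),
  SI.mk (nat_lit 89) (nat_lit 1) (nat_lit 1) (nat_lit 0),
  SI.mk (nat_lit 90) (nat_lit 4) (nat_lit 0) (nat_lit 0),
  SI.mk (nat_lit 88) (nat_lit 3) (nat_lit 0) (nat_lit 0),
  SI.mk (nat_lit 90) (nat_lit 3) (nat_lit 0) (nat_lit 0),
  SI.mk (nat_lit 88) (nat_lit 2) (nat_lit 0) (nat_lit 0),
  SI.mk (nat_lit 90) (nat_lit 2) (nat_lit 0) (nat_lit 0)]

def q20_0 : List Nat := [nat_lit 15, nat_lit 14, nat_lit 14, nat_lit 13, nat_lit 13, nat_lit 12, nat_lit 12, nat_lit 11, nat_lit 11, nat_lit 10, nat_lit 6, nat_lit 6, nat_lit 5, nat_lit 5, nat_lit 4, nat_lit 4, nat_lit 4, nat_lit 3, nat_lit 3, nat_lit 3, nat_lit 2, nat_lit 2, nat_lit 1, nat_lit 1]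

def b20_0 : List Nat := [nat_lit 0, nat_lit 7, nat_lit 14, nat_lit 21, nat_lit 28, nat_lit 34, nat_lit 40, nat_lit 46, nat_lit 52, nat_lit 58, nat_lit 64, nat_lit 67, nat_lit 69, nat_lit 71, nat_lit 73, nat_lit 75, nat_lit 77, nat_lit 79, nat_lit 81, nat_lit 83, nat_lit 84, nat_lit 85, nat_lit 86, nat_lit 87]

def k21_0 : KP := KP.mk (nat_lit 90) (nat_lit 15) (nat_lit 528) (nat_lit 5) (nat_lit 98) [
  SI.mk (nat_lit 87) (nat_lit 15) (nat_lit 0) (nat_lit 0),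
  SI.mk (nat_lit 88) (nat_lit 12) (nat_lit 1) (nat_lit 0),
  SI.mk (nat_lit 89) (nat_lit 9) (nat_lit 2) (nat_lit 0),
  SI.mk (nat_lit 90) (nat_lit 6) (nat_lit 3) (nat_lit 0),
  SI.mk (nat_lit 91) (nat_lit 3) (nat_lit 4) (nat_lit 0),
  SI.mk (nat_lit 87) (nat_lit 5) (nat_lit 0) (nat_lit 1),
  SI.mk (nat_lit 88) (nat_lit 2) (nat_lit 1) (nat_lit 1),
  SI.mk (nat_lit 89) (nat_lit 15) (nat_lit 0) (nat_lit 0),
  SI.mk (nat_lit 90) (nat_lit 12) (nat_lit 1) (nat_lit 0),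
  SI.mk (nat_lit 91) (nat_lit 9) (nat_lit 2) (nat_lit 0),
  SI.mk (nat_lit 92) (nat_lit 6) (nat_lit 3) (nat_lit 0),
  SI.mk (nat_lit 93) (nat_lit 3) (nat_lit 4) (nat_lit 0),
  SI.mk (nat_lit 89) (nat_lit 5) (nat_lit 0) (nat_lit 1),
  SI.mk (nat_lit 90) (nat_lit 2) (nat_lit 1) (nat_lit 1),
  SI.mk (nat_lit 87) (nat_lit 14) (nat_lit 0) (nat_lit 0),
  SI.mk (nat_lit 88) (nat_lit 11) (nat_lit 1) (nat_lit 0),
  SI.mk (nat_lit 89) (nat_lit 8) (nat_lit 2) (nat_lit 0),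
  SI.mk (nat_lit 90) (nat_lit 5) (nat_lit 3) (nat_lit 0),
  SI.mk (nat_lit 91) (nat_lit 2) (nat_lit 4) (nat_lit 0),
  SI.mk (nat_lit 87) (nat_lit 4) (nat_lit 0) (nat_lit 1),
  SI.mk (nat_lit 88) (nat_lit 1) (nat_lit 1) (nat_lit 1),
  SI.mk (nat_lit 89) (nat_lit 14) (nat_lit 0) (nat_lit 0),
  SI.mk (nat_lit 90) (nat_lit 11) (nat_lit 1) (nat_lit 0),
  SI.mk (nat_lit 91) (nat_lit 8) (nat_lit 2) (nat_lit 0),
  SI.mk (nat_lit 92) (nat_lit 5) (nat_lit 3) (nat_lit 0),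
  SI.mk (nat_lit 93) (nat_lit 2) (nat_lit 4) (nat_lit 0),
  SI.mk (nat_lit 89) (nat_lit 4) (nat_lit 0) (nat_lit 1),
  SI.mk (nat_lit 90) (nat_lit 1) (nat_lit 1) (nat_lit 1),
  SI.mk (nat_lit 87) (nat_lit 13) (nat_lit 0) (nat_lit 0),
  SI.mk (nat_lit 88) (nat_lit 10) (nat_lit 1) (nat_lit 0),
  SI.mk (nat_lit 89) (nat_lit 7) (nat_lit 2) (nat_lit 0),
  SI.mk (nat_lit 90) (nat_lit 4) (nat_lit 3) (nat_lit 0),
  SI.mk (nat_lit 0) (nat_lit 0) (nat_lit 0) (nat_lit 0),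
  SI.mk (nat_lit 87) (nat_lit 3) (nat_lit 0) (nat_lit 1),
  SI.mk (nat_lit 90) (nat_lit 13) (nat_lit 0) (nat_lit 0),
  SI.mk (nat_lit 91) (nat_lit 10) (nat_lit 1) (nat_lit 0),
  SI.mk (nat_lit 92) (nat_lit 7) (nat_lit 2) (nat_lit 0),
  SI.mk (nat_lit 93) (nat_lit 4) (nat_lit 3) (nat_lit 0),
  SI.mk (nat_lit 0) (nat_lit 0) (nat_lit 0) (nat_lit 0),
  SI.mk (nat_lit 90) (nat_lit 3) (nat_lit 0) (nat_lit 1),
  SI.mk (nat_lit 88) (nat_lit 12) (nat_lit 0) (nat_lit 0),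
  SI.mk (nat_lit 89) (nat_lit 9) (nat_lit 1) (nat_lit 0),
  SI.mk (nat_lit 90) (nat_lit 6) (nat_lit 2) (nat_lit 0),
  SI.mk (nat_lit 91) (nat_lit 3) (nat_lit 3) (nat_lit 0),
  SI.mk (nat_lit 0) (nat_lit 0) (nat_lit 0) (nat_lit 0),
  SI.mk (nat_lit 88) (nat_lit 2) (nat_lit 0) (nat_lit 1),
  SI.mk (nat_lit 90) (nat_lit 12) (nat_lit 0) (nat_lit 0),
  SI.mk (nat_lit 91) (nat_lit 9) (nat_lit 1) (nat_lit 0),
  SI.mk (nat_lit 92) (nat_lit 6) (nat_lit 2) (nat_lit 0),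
  SI.mk (nat_lit 93) (nat_lit 3) (nat_lit 3) (nat_lit 0),
  SI.mk (nat_lit 0) (nat_lit 0) (nat_lit 0) (nat_lit 0),
  SI.mk (nat_lit 90) (nat_lit 2) (nat_lit 0) (nat_lit 1),
  SI.mk (nat_lit 88) (nat_lit 11) (nat_lit 0) (nat_lit 0),
  SI.mk (nat_lit 89) (nat_lit 8) (nat_lit 1) (nat_lit 0),
  SI.mk (nat_lit 90) (nat_lit 5) (nat_lit 2) (nat_lit 0),
  SI.mk (nat_lit 91) (nat_lit 2) (nat_lit 3) (nat_lit 0),
  SI.mk (nat_lit 0) (nat_lit 0) (nat_lit 0) (nat_lit 0),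
  SI.mk (nat_lit 88) (nat_lit 1) (nat_lit 0) (nat_lit 1),
  SI.mk (nat_lit 90) (nat_lit 11) (nat_lit 0) (nat_lit 0),
  SI.mk (nat_lit 91) (nat_lit 8) (nat_lit 1) (nat_lit 0),
  SI.mk (nat_lit 92) (nat_lit 5) (nat_lit 2) (nat_lit 0),
  SI.mk (nat_lit 93) (nat_lit 2) (nat_lit 3) (nat_lit 0),
  SI.mk (nat_lit 0) (nat_lit 0) (nat_lit 0) (nat_lit 0),
  SI.mk (nat_lit 90) (nat_lit 1) (nat_lit 0) (nat_lit 1),
  SI.mk (nat_lit 88) (nat_lit 7) (nat_lit 0) (nat_lit 0),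
  SI.mk (nat_lit 89) (nat_lit 4) (nat_lit 1) (nat_lit 0),
  SI.mk (nat_lit 90) (nat_lit 1) (nat_lit 2) (nat_lit 0),
  SI.mk (nat_lit 90) (nat_lit 7) (nat_lit 0) (nat_lit 0),
  SI.mk (nat_lit 91) (nat_lit 4) (nat_lit 1) (nat_lit 0),
  SI.mk (nat_lit 89) (nat_lit 6) (nat_lit 0) (nat_lit 0),
  SI.mk (nat_lit 90) (nat_lit 3) (nat_lit 1) (nat_lit 0),
  SI.mk (nat_lit 87) (nat_lit 5) (nat_lit 0) (nat_lit 0),
  SI.mk (nat_lit 88) (nat_lit 2) (nat_lit 1) (nat_lit 0),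
  SI.mk (nat_lit 89) (nat_lit 5) (nat_lit 0) (nat_lit 0),
  SI.mk (nat_lit 90) (nat_lit 2) (nat_lit 1) (nat_lit 0),
  SI.mk (nat_lit 87) (nat_lit 4) (nat_lit 0) (nat_lit 0),
  SI.mk (nat_lit 88) (nat_lit 1) (nat_lit 1) (nat_lit 0),
  SI.mk (nat_lit 87) (nat_lit 4) (nat_lit 0) (nat_lit 0),
  SI.mk (nat_lit 88) (nat_lit 1) (nat_lit 1) (nat_lit 0),
  SI.mk (nat_lit 89) (nat_lit 4) (nat_lit 0) (nat_lit 0),
  SI.mk (nat_lit 90) (nat_lit 1) (nat_lit 1) (nat_lit 0),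
  SI.mk (nat_lit 89) (nat_lit 4) (nat_lit 0) (nat_lit 0),
  SI.mk (nat_lit 90) (nat_lit 1) (nat_lit 1) (nat_lit 0),
  SI.mk (nat_lit 87) (nat_lit 3) (nat_lit 0) (nat_lit 0),
  SI.mk (nat_lit 89) (nat_lit 3) (nat_lit 0) (nat_lit 0),
  SI.mk (nat_lit 87) (nat_lit 2) (nat_lit 0) (nat_lit 0),
  SI.mk (nat_lit 90) (nat_lit 2) (nat_lit 0) (nat_lit 0),
  SI.mk (nat_lit 88) (nat_lit 1) (nat_lit 0) (nat_lit 0)]

def q21_0 : List Nat := [nat_lit 14, nat_lit 14, nat_lit 13, nat_lit 13, nat_lit 12, nat_lit 12, nat_lit 11, nat_lit 11, nat_lit 10, nat_lit 10, nat_lit 6, nat_lit 6, nat_lit 5, nat_lit 4, nat_lit 4, nat_lit 3, nat_lit 3, nat_lit 3, nat_lit 3, nat_lit 2, nat_lit 2, nat_lit 1, nat_lit 1, nat_lit 0]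

def b21_0 : List Nat := [nat_lit 0, nat_lit 7, nat_lit 14, nat_lit 21, nat_lit 28, nat_lit 34, nat_lit 40, nat_lit 46, nat_lit 52, nat_lit 58, nat_lit 64, nat_lit 67, nat_lit 69, nat_lit 71, nat_lit 73, nat_lit 75, nat_lit 77, nat_lit 79, nat_lit 81, nat_lit 83, nat_lit 84, nat_lit 85, nat_lit 86, nat_lit 87]

def k22_0 : KP := KP.mk (nat_lit 90) (nat_lit 15) (nat_lit 486) (nat_lit 45) (nat_lit 98) [
  SI.mk (nat_lit 89) (nat_lit 15) (nat_lit 0) (nat_lit 0),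
  SI.mk (nat_lit 90) (nat_lit 12) (nat_lit 1) (nat_lit 0),
  SI.mk (nat_lit 91) (nat_lit 9) (nat_lit 2) (nat_lit 0),
  SI.mk (nat_lit 92) (nat_lit 6) (nat_lit 3) (nat_lit 0),
  SI.mk (nat_lit 93) (nat_lit 3) (nat_lit 4) (nat_lit 0),
  SI.mk (nat_lit 87) (nat_lit 14) (nat_lit 0) (nat_lit 0),
  SI.mk (nat_lit 88) (nat_lit 11) (nat_lit 1) (nat_lit 0),
  SI.mk (nat_lit 89) (nat_lit 8) (nat_lit 2) (nat_lit 0),
  SI.mk (nat_lit 90) (nat_lit 5) (nat_lit 3) (nat_lit 0),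
  SI.mk (nat_lit 91) (nat_lit 2) (nat_lit 4) (nat_lit 0),
  SI.mk (nat_lit 89) (nat_lit 14) (nat_lit 0) (nat_lit 0),
  SI.mk (nat_lit 90) (nat_lit 11) (nat_lit 1) (nat_lit 0),
  SI.mk (nat_lit 91) (nat_lit 8) (nat_lit 2) (nat_lit 0),
  SI.mk (nat_lit 92) (nat_lit 5) (nat_lit 3) (nat_lit 0),
  SI.mk (nat_lit 93) (nat_lit 2) (nat_lit 4) (nat_lit 0),
  SI.mk (nat_lit 87) (nat_lit 13) (nat_lit 0) (nat_lit 0),
  SI.mk (nat_lit 88) (nat_lit 10) (nat_lit 1) (nat_lit 0),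
  SI.mk (nat_lit 89) (nat_lit 7) (nat_lit 2) (nat_lit 0),
  SI.mk (nat_lit 90) (nat_lit 4) (nat_lit 3) (nat_lit 0),
  SI.mk (nat_lit 89) (nat_lit 13) (nat_lit 0) (nat_lit 0),
  SI.mk (nat_lit 90) (nat_lit 10) (nat_lit 1) (nat_lit 0),
  SI.mk (nat_lit 91) (nat_lit 7) (nat_lit 2) (nat_lit 0),
  SI.mk (nat_lit 92) (nat_lit 4) (nat_lit 3) (nat_lit 0),
  SI.mk (nat_lit 87) (nat_lit 12) (nat_lit 0) (nat_lit 0),
  SI.mk (nat_lit 88) (nat_lit 9) (nat_lit 1) (nat_lit 0),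
  SI.mk (nat_lit 89) (nat_lit 6) (nat_lit 2) (nat_lit 0),
  SI.mk (nat_lit 90) (nat_lit 3) (nat_lit 3) (nat_lit 0),
  SI.mk (nat_lit 89) (nat_lit 12) (nat_lit 0) (nat_lit 0),
  SI.mk (nat_lit 90) (nat_lit 9) (nat_lit 1) (nat_lit 0),
  SI.mk (nat_lit 91) (nat_lit 6) (nat_lit 2) (nat_lit 0),
  SI.mk (nat_lit 92) (nat_lit 3) (nat_lit 3) (nat_lit 0),
  SI.mk (nat_lit 87) (nat_lit 11) (nat_lit 0) (nat_lit 0),
  SI.mk (nat_lit 88) (nat_lit 8) (nat_lit 1) (nat_lit 0),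
  SI.mk (nat_lit 89) (nat_lit 5) (nat_lit 2) (nat_lit 0),
  SI.mk (nat_lit 90) (nat_lit 2) (nat_lit 3) (nat_lit 0),
  SI.mk (nat_lit 89) (nat_lit 11) (nat_lit 0) (nat_lit 0),
  SI.mk (nat_lit 90) (nat_lit 8) (nat_lit 1) (nat_lit 0),
  SI.mk (nat_lit 91) (nat_lit 5) (nat_lit 2) (nat_lit 0),
  SI.mk (nat_lit 92) (nat_lit 2) (nat_lit 3) (nat_lit 0),
  SI.mk (nat_lit 87) (nat_lit 10) (nat_lit 0) (nat_lit 0),
  SI.mk (nat_lit 88) (nat_lit 7) (nat_lit 1) (nat_lit 0),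
  SI.mk (nat_lit 89) (nat_lit 4) (nat_lit 2) (nat_lit 0),
  SI.mk (nat_lit 90) (nat_lit 1) (nat_lit 3) (nat_lit 0),
  SI.mk (nat_lit 90) (nat_lit 7) (nat_lit 0) (nat_lit 0),
  SI.mk (nat_lit 91) (nat_lit 4) (nat_lit 1) (nat_lit 0),
  SI.mk (nat_lit 89) (nat_lit 5) (nat_lit 0) (nat_lit 1),
  SI.mk (nat_lit 90) (nat_lit 2) (nat_lit 1) (nat_lit 1),
  SI.mk (nat_lit 88) (nat_lit 6) (nat_lit 0) (nat_lit 0),
  SI.mk (nat_lit 89) (nat_lit 3) (nat_lit 1) (nat_lit 0),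
  SI.mk (nat_lit 0) (nat_lit 0) (nat_lit 0) (nat_lit 0),
  SI.mk (nat_lit 87) (nat_lit 4) (nat_lit 0) (nat_lit 1),
  SI.mk (nat_lit 88) (nat_lit 1) (nat_lit 1) (nat_lit 1),
  SI.mk (nat_lit 90) (nat_lit 6) (nat_lit 0) (nat_lit 0),
  SI.mk (nat_lit 91) (nat_lit 3) (nat_lit 1) (nat_lit 0),
  SI.mk (nat_lit 0) (nat_lit 0) (nat_lit 0) (nat_lit 0),
  SI.mk (nat_lit 89) (nat_lit 4) (nat_lit 0) (nat_lit 1),
  SI.mk (nat_lit 90) (nat_lit 1) (nat_lit 1) (nat_lit 1),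
  SI.mk (nat_lit 88) (nat_lit 5) (nat_lit 0) (nat_lit 0),
  SI.mk (nat_lit 89) (nat_lit 2) (nat_lit 1) (nat_lit 0),
  SI.mk (nat_lit 0) (nat_lit 0) (nat_lit 0) (nat_lit 0),
  SI.mk (nat_lit 87) (nat_lit 3) (nat_lit 0) (nat_lit 1),
  SI.mk (nat_lit 90) (nat_lit 5) (nat_lit 0) (nat_lit 0),
  SI.mk (nat_lit 91) (nat_lit 2) (nat_lit 1) (nat_lit 0),
  SI.mk (nat_lit 0) (nat_lit 0) (nat_lit 0) (nat_lit 0),
  SI.mk (nat_lit 89) (nat_lit 3) (nat_lit 0) (nat_lit 1),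
  SI.mk (nat_lit 88) (nat_lit 4) (nat_lit 0) (nat_lit 0),
  SI.mk (nat_lit 89) (nat_lit 1) (nat_lit 1) (nat_lit 0),
  SI.mk (nat_lit 0) (nat_lit 0) (nat_lit 0) (nat_lit 0),
  SI.mk (nat_lit 87) (nat_lit 2) (nat_lit 0) (nat_lit 1),
  SI.mk (nat_lit 89) (nat_lit 4) (nat_lit 0) (nat_lit 0),
  SI.mk (nat_lit 90) (nat_lit 1) (nat_lit 1) (nat_lit 0),
  SI.mk (nat_lit 90) (nat_lit 4) (nat_lit 0) (nat_lit 0),
  SI.mk (nat_lit 89) (nat_lit 2) (nat_lit 0) (nat_lit 1),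
  SI.mk (nat_lit 87) (nat_lit 3) (nat_lit 0) (nat_lit 0),
  SI.mk (nat_lit 89) (nat_lit 3) (nat_lit 0) (nat_lit 0),
  SI.mk (nat_lit 87) (nat_lit 2) (nat_lit 0) (nat_lit 0),
  SI.mk (nat_lit 87) (nat_lit 1) (nat_lit 0) (nat_lit 1),
  SI.mk (nat_lit 89) (nat_lit 2) (nat_lit 0) (nat_lit 0),
  SI.mk (nat_lit 87) (nat_lit 1) (nat_lit 0) (nat_lit 0),
  SI.mk (nat_lit 89) (nat_lit 1) (nat_lit 0) (nat_lit 0),
  SI.mk (nat_lit 89) (nat_lit 1) (nat_lit 0) (nat_lit 1)]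

def q22_0 : List Nat := [nat_lit 14, nat_lit 13, nat_lit 13, nat_lit 12, nat_lit 12, nat_lit 11, nat_lit 11, nat_lit 10, nat_lit 10, nat_lit 9, nat_lit 6, nat_lit 5, nat_lit 5, nat_lit 4, nat_lit 4, nat_lit 3, nat_lit 3, nat_lit 3, nat_lit 2, nat_lit 2, nat_lit 1, nat_lit 1, nat_lit 0, nat_lit 0]

def b22_0 : List Nat := [nat_lit 0, nat_lit 5, nat_lit 10, nat_lit 15, nat_lit 19, nat_lit 23, nat_lit 27, nat_lit 31, nat_lit 35, nat_lit 39, nat_lit 43, nat_lit 47, nat_lit 52, nat_lit 57, nat_lit 61, nat_lit 65, nat_lit 69, nat_lit 71, nat_lit 73, nat_lit 74, nat_lit 75, nat_lit 77, nat_lit 78, nat_lit 79]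

def k23_0 : KP := KP.mk (nat_lit 90) (nat_lit 15) (nat_lit 432) (nat_lit 39) (nat_lit 99) [
  SI.mk (nat_lit 90) (nat_lit 15) (nat_lit 0) (nat_lit 0),
  SI.mk (nat_lit 91) (nat_lit 12) (nat_lit 1) (nat_lit 0),
  SI.mk (nat_lit 92) (nat_lit 9) (nat_lit 2) (nat_lit 0),
  SI.mk (nat_lit 93) (nat_lit 6) (nat_lit 3) (nat_lit 0),
  SI.mk (nat_lit 94) (nat_lit 3) (nat_lit 4) (nat_lit 0),
  SI.mk (nat_lit 88) (nat_lit 14) (nat_lit 0) (nat_lit 0),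
  SI.mk (nat_lit 89) (nat_lit 11) (nat_lit 1) (nat_lit 0),
  SI.mk (nat_lit 90) (nat_lit 8) (nat_lit 2) (nat_lit 0),
  SI.mk (nat_lit 91) (nat_lit 5) (nat_lit 3) (nat_lit 0),
  SI.mk (nat_lit 92) (nat_lit 2) (nat_lit 4) (nat_lit 0),
  SI.mk (nat_lit 90) (nat_lit 14) (nat_lit 0) (nat_lit 0),
  SI.mk (nat_lit 91) (nat_lit 11) (nat_lit 1) (nat_lit 0),
  SI.mk (nat_lit 92) (nat_lit 8) (nat_lit 2) (nat_lit 0),
  SI.mk (nat_lit 93) (nat_lit 5) (nat_lit 3) (nat_lit 0),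
  SI.mk (nat_lit 94) (nat_lit 2) (nat_lit 4) (nat_lit 0),
  SI.mk (nat_lit 88) (nat_lit 13) (nat_lit 0) (nat_lit 0),
  SI.mk (nat_lit 89) (nat_lit 10) (nat_lit 1) (nat_lit 0),
  SI.mk (nat_lit 90) (nat_lit 7) (nat_lit 2) (nat_lit 0),
  SI.mk (nat_lit 91) (nat_lit 4) (nat_lit 3) (nat_lit 0),
  SI.mk (nat_lit 90) (nat_lit 13) (nat_lit 0) (nat_lit 0),
  SI.mk (nat_lit 91) (nat_lit 10) (nat_lit 1) (nat_lit 0),
  SI.mk (nat_lit 92) (nat_lit 7) (nat_lit 2) (nat_lit 0),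
  SI.mk (nat_lit 93) (nat_lit 4) (nat_lit 3) (nat_lit 0),
  SI.mk (nat_lit 89) (nat_lit 12) (nat_lit 0) (nat_lit 0),
  SI.mk (nat_lit 90) (nat_lit 9) (nat_lit 1) (nat_lit 0),
  SI.mk (nat_lit 91) (nat_lit 6) (nat_lit 2) (nat_lit 0),
  SI.mk (nat_lit 92) (nat_lit 3) (nat_lit 3) (nat_lit 0),
  SI.mk (nat_lit 87) (nat_lit 11) (nat_lit 0) (nat_lit 0),
  SI.mk (nat_lit 88) (nat_lit 8) (nat_lit 1) (nat_lit 0),
  SI.mk (nat_lit 89) (nat_lit 5) (nat_lit 2) (nat_lit 0),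
  SI.mk (nat_lit 90) (nat_lit 2) (nat_lit 3) (nat_lit 0),
  SI.mk (nat_lit 89) (nat_lit 11) (nat_lit 0) (nat_lit 0),
  SI.mk (nat_lit 90) (nat_lit 8) (nat_lit 1) (nat_lit 0),
  SI.mk (nat_lit 91) (nat_lit 5) (nat_lit 2) (nat_lit 0),
  SI.mk (nat_lit 92) (nat_lit 2) (nat_lit 3) (nat_lit 0),
  SI.mk (nat_lit 87) (nat_lit 10) (nat_lit 0) (nat_lit 0),
  SI.mk (nat_lit 88) (nat_lit 7) (nat_lit 1) (nat_lit 0),
  SI.mk (nat_lit 89) (nat_lit 4) (nat_lit 2) (nat_lit 0),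
  SI.mk (nat_lit 90) (nat_lit 1) (nat_lit 3) (nat_lit 0),
  SI.mk (nat_lit 90) (nat_lit 5) (nat_lit 0) (nat_lit 1),
  SI.mk (nat_lit 91) (nat_lit 2) (nat_lit 1) (nat_lit 1),
  SI.mk (nat_lit 89) (nat_lit 10) (nat_lit 0) (nat_lit 0),
  SI.mk (nat_lit 90) (nat_lit 7) (nat_lit 1) (nat_lit 0),
  SI.mk (nat_lit 91) (nat_lit 4) (nat_lit 2) (nat_lit 0),
  SI.mk (nat_lit 88) (nat_lit 4) (nat_lit 0) (nat_lit 1),
  SI.mk (nat_lit 89) (nat_lit 1) (nat_lit 1) (nat_lit 1),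
  SI.mk (nat_lit 87) (nat_lit 6) (nat_lit 0) (nat_lit 0),
  SI.mk (nat_lit 88) (nat_lit 3) (nat_lit 1) (nat_lit 0),
  SI.mk (nat_lit 0) (nat_lit 0) (nat_lit 0) (nat_lit 0),
  SI.mk (nat_lit 90) (nat_lit 4) (nat_lit 0) (nat_lit 1),
  SI.mk (nat_lit 89) (nat_lit 6) (nat_lit 0) (nat_lit 0),
  SI.mk (nat_lit 90) (nat_lit 3) (nat_lit 1) (nat_lit 0),
  SI.mk (nat_lit 88) (nat_lit 5) (nat_lit 0) (nat_lit 0),
  SI.mk (nat_lit 89) (nat_lit 2) (nat_lit 1) (nat_lit 0),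
  SI.mk (nat_lit 88) (nat_lit 3) (nat_lit 0) (nat_lit 1),
  SI.mk (nat_lit 90) (nat_lit 5) (nat_lit 0) (nat_lit 0),
  SI.mk (nat_lit 91) (nat_lit 2) (nat_lit 1) (nat_lit 0),
  SI.mk (nat_lit 0) (nat_lit 0) (nat_lit 0) (nat_lit 0),
  SI.mk (nat_lit 90) (nat_lit 3) (nat_lit 0) (nat_lit 1),
  SI.mk (nat_lit 88) (nat_lit 4) (nat_lit 0) (nat_lit 0),
  SI.mk (nat_lit 89) (nat_lit 1) (nat_lit 1) (nat_lit 0),
  SI.mk (nat_lit 90) (nat_lit 4) (nat_lit 0) (nat_lit 0),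
  SI.mk (nat_lit 89) (nat_lit 2) (nat_lit 0) (nat_lit 1),
  SI.mk (nat_lit 90) (nat_lit 4) (nat_lit 0) (nat_lit 0),
  SI.mk (nat_lit 88) (nat_lit 3) (nat_lit 0) (nat_lit 0),
  SI.mk (nat_lit 88) (nat_lit 3) (nat_lit 0) (nat_lit 0),
  SI.mk (nat_lit 87) (nat_lit 1) (nat_lit 0) (nat_lit 1),
  SI.mk (nat_lit 90) (nat_lit 3) (nat_lit 0) (nat_lit 0),
  SI.mk (nat_lit 88) (nat_lit 2) (nat_lit 0) (nat_lit 0),
  SI.mk (nat_lit 90) (nat_lit 2) (nat_lit 0) (nat_lit 0),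
  SI.mk (nat_lit 89) (nat_lit 1) (nat_lit 0) (nat_lit 1),
  SI.mk (nat_lit 89) (nat_lit 1) (nat_lit 0) (nat_lit 0)]

def q23_0 : List Nat := [nat_lit 14, nat_lit 13, nat_lit 13, nat_lit 12, nat_lit 12, nat_lit 11, nat_lit 10, nat_lit 10, nat_lit 9, nat_lit 9, nat_lit 5, nat_lit 5, nat_lit 4, nat_lit 4, nat_lit 3, nat_lit 3, nat_lit 3, nat_lit 2, nat_lit 2, nat_lit 2, nat_lit 1, nat_lit 1, nat_lit 0]

def b23_0 : List Nat := [nat_lit 0, nat_lit 5, nat_lit 10, nat_lit 15, nat_lit 19, nat_lit 23, nat_lit 27, nat_lit 31, nat_lit 35, nat_lit 41, nat_lit 46, nat_lit 50, nat_lit 52, nat_lit 55, nat_lit 59, nat_lit 61, nat_lit 63, nat_lit 64, nat_lit 65, nat_lit 67, nat_lit 68, nat_lit 69, nat_lit 71]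

def k24_0 : KP := KP.mk (nat_lit 90) (nat_lit 14) (nat_lit 414) (nat_lit 37) (nat_lit 99) [
  SI.mk (nat_lit 88) (nat_lit 14) (nat_lit 0) (nat_lit 0),
  SI.mk (nat_lit 89) (nat_lit 11) (nat_lit 1) (nat_lit 0),
  SI.mk (nat_lit 90) (nat_lit 8) (nat_lit 2) (nat_lit 0),
  SI.mk (nat_lit 91) (nat_lit 5) (nat_lit 3) (nat_lit 0),
  SI.mk (nat_lit 92) (nat_lit 2) (nat_lit 4) (nat_lit 0),
  SI.mk (nat_lit 90) (nat_lit 14) (nat_lit 0) (nat_lit 0),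
  SI.mk (nat_lit 91) (nat_lit 11) (nat_lit 1) (nat_lit 0),
  SI.mk (nat_lit 92) (nat_lit 8) (nat_lit 2) (nat_lit 0),
  SI.mk (nat_lit 93) (nat_lit 5) (nat_lit 3) (nat_lit 0),
  SI.mk (nat_lit 94) (nat_lit 2) (nat_lit 4) (nat_lit 0),
  SI.mk (nat_lit 88) (nat_lit 13) (nat_lit 0) (nat_lit 0),
  SI.mk (nat_lit 89) (nat_lit 10) (nat_lit 1) (nat_lit 0),
  SI.mk (nat_lit 90) (nat_lit 7) (nat_lit 2) (nat_lit 0),
  SI.mk (nat_lit 91) (nat_lit 4) (nat_lit 3) (nat_lit 0),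
  SI.mk (nat_lit 90) (nat_lit 13) (nat_lit 0) (nat_lit 0),
  SI.mk (nat_lit 91) (nat_lit 10) (nat_lit 1) (nat_lit 0),
  SI.mk (nat_lit 92) (nat_lit 7) (nat_lit 2) (nat_lit 0),
  SI.mk (nat_lit 93) (nat_lit 4) (nat_lit 3) (nat_lit 0),
  SI.mk (nat_lit 88) (nat_lit 12) (nat_lit 0) (nat_lit 0),
  SI.mk (nat_lit 89) (nat_lit 9) (nat_lit 1) (nat_lit 0),
  SI.mk (nat_lit 90) (nat_lit 6) (nat_lit 2) (nat_lit 0),
  SI.mk (nat_lit 91) (nat_lit 3) (nat_lit 3) (nat_lit 0),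
  SI.mk (nat_lit 90) (nat_lit 12) (nat_lit 0) (nat_lit 0),
  SI.mk (nat_lit 91) (nat_lit 9) (nat_lit 1) (nat_lit 0),
  SI.mk (nat_lit 92) (nat_lit 6) (nat_lit 2) (nat_lit 0),
  SI.mk (nat_lit 93) (nat_lit 3) (nat_lit 3) (nat_lit 0),
  SI.mk (nat_lit 88) (nat_lit 11) (nat_lit 0) (nat_lit 0),
  SI.mk (nat_lit 89) (nat_lit 8) (nat_lit 1) (nat_lit 0),
  SI.mk (nat_lit 90) (nat_lit 5) (nat_lit 2) (nat_lit 0),
  SI.mk (nat_lit 91) (nat_lit 2) (nat_lit 3) (nat_lit 0),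
  SI.mk (nat_lit 90) (nat_lit 11) (nat_lit 0) (nat_lit 0),
  SI.mk (nat_lit 91) (nat_lit 8) (nat_lit 1) (nat_lit 0),
  SI.mk (nat_lit 92) (nat_lit 5) (nat_lit 2) (nat_lit 0),
  SI.mk (nat_lit 93) (nat_lit 2) (nat_lit 3) (nat_lit 0),
  SI.mk (nat_lit 88) (nat_lit 10) (nat_lit 0) (nat_lit 0),
  SI.mk (nat_lit 89) (nat_lit 7) (nat_lit 1) (nat_lit 0),
  SI.mk (nat_lit 90) (nat_lit 4) (nat_lit 2) (nat_lit 0),
  SI.mk (nat_lit 88) (nat_lit 4) (nat_lit 0) (nat_lit 1),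
  SI.mk (nat_lit 89) (nat_lit 1) (nat_lit 1) (nat_lit 1),
  SI.mk (nat_lit 90) (nat_lit 10) (nat_lit 0) (nat_lit 0),
  SI.mk (nat_lit 91) (nat_lit 7) (nat_lit 1) (nat_lit 0),
  SI.mk (nat_lit 92) (nat_lit 4) (nat_lit 2) (nat_lit 0),
  SI.mk (nat_lit 90) (nat_lit 4) (nat_lit 0) (nat_lit 1),
  SI.mk (nat_lit 89) (nat_lit 6) (nat_lit 0) (nat_lit 0),
  SI.mk (nat_lit 90) (nat_lit 3) (nat_lit 1) (nat_lit 0),
  SI.mk (nat_lit 87) (nat_lit 5) (nat_lit 0) (nat_lit 0),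
  SI.mk (nat_lit 88) (nat_lit 2) (nat_lit 1) (nat_lit 0),
  SI.mk (nat_lit 88) (nat_lit 3) (nat_lit 0) (nat_lit 1),
  SI.mk (nat_lit 89) (nat_lit 5) (nat_lit 0) (nat_lit 0),
  SI.mk (nat_lit 90) (nat_lit 2) (nat_lit 1) (nat_lit 0),
  SI.mk (nat_lit 0) (nat_lit 0) (nat_lit 0) (nat_lit 0),
  SI.mk (nat_lit 90) (nat_lit 3) (nat_lit 0) (nat_lit 1),
  SI.mk (nat_lit 87) (nat_lit 4) (nat_lit 0) (nat_lit 0),
  SI.mk (nat_lit 88) (nat_lit 1) (nat_lit 1) (nat_lit 0),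
  SI.mk (nat_lit 0) (nat_lit 0) (nat_lit 0) (nat_lit 0),
  SI.mk (nat_lit 88) (nat_lit 2) (nat_lit 0) (nat_lit 1),
  SI.mk (nat_lit 89) (nat_lit 4) (nat_lit 0) (nat_lit 0),
  SI.mk (nat_lit 90) (nat_lit 1) (nat_lit 1) (nat_lit 0),
  SI.mk (nat_lit 87) (nat_lit 3) (nat_lit 0) (nat_lit 0),
  SI.mk (nat_lit 90) (nat_lit 2) (nat_lit 0) (nat_lit 1),
  SI.mk (nat_lit 88) (nat_lit 3) (nat_lit 0) (nat_lit 0),
  SI.mk (nat_lit 89) (nat_lit 3) (nat_lit 0) (nat_lit 0),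
  SI.mk (nat_lit 90) (nat_lit 3) (nat_lit 0) (nat_lit 0),
  SI.mk (nat_lit 88) (nat_lit 1) (nat_lit 0) (nat_lit 1),
  SI.mk (nat_lit 88) (nat_lit 2) (nat_lit 0) (nat_lit 0),
  SI.mk (nat_lit 90) (nat_lit 2) (nat_lit 0) (nat_lit 0),
  SI.mk (nat_lit 88) (nat_lit 1) (nat_lit 0) (nat_lit 0),
  SI.mk (nat_lit 90) (nat_lit 1) (nat_lit 0) (nat_lit 1),
  SI.mk (nat_lit 90) (nat_lit 1) (nat_lit 0) (nat_lit 0)]

def q24_0 : List Nat := [nat_lit 13, nat_lit 13, nat_lit 12, nat_lit 12, nat_lit 11, nat_lit 11, nat_lit 10, nat_lit 10, nat_lit 9, nat_lit 9, nat_lit 5, nat_lit 4, nat_lit 4, nat_lit 3, nat_lit 3, nat_lit 2, nat_lit 2, nat_lit 2, nat_lit 2, nat_lit 1, nat_lit 1, nat_lit 0, nat_lit 0]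

def b24_0 : List Nat := [nat_lit 0, nat_lit 5, nat_lit 10, nat_lit 14, nat_lit 18, nat_lit 22, nat_lit 26, nat_lit 30, nat_lit 34, nat_lit 39, nat_lit 43, nat_lit 45, nat_lit 48, nat_lit 52, nat_lit 56, nat_lit 58, nat_lit 60, nat_lit 61, nat_lit 62, nat_lit 64, nat_lit 65, nat_lit 66, nat_lit 68]

def k25_0 : KP := KP.mk (nat_lit 90) (nat_lit 14) (nat_lit 390) (nat_lit 29) (nat_lit 98) [
  SI.mk (nat_lit 89) (nat_lit 14) (nat_lit 0) (nat_lit 0),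
  SI.mk (nat_lit 90) (nat_lit 11) (nat_lit 1) (nat_lit 0),
  SI.mk (nat_lit 91) (nat_lit 8) (nat_lit 2) (nat_lit 0),
  SI.mk (nat_lit 92) (nat_lit 5) (nat_lit 3) (nat_lit 0),
  SI.mk (nat_lit 93) (nat_lit 2) (nat_lit 4) (nat_lit 0),
  SI.mk (nat_lit 87) (nat_lit 13) (nat_lit 0) (nat_lit 0),
  SI.mk (nat_lit 88) (nat_lit 10) (nat_lit 1) (nat_lit 0),
  SI.mk (nat_lit 89) (nat_lit 7) (nat_lit 2) (nat_lit 0),
  SI.mk (nat_lit 90) (nat_lit 4) (nat_lit 3) (nat_lit 0),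
  SI.mk (nat_lit 89) (nat_lit 13) (nat_lit 0) (nat_lit 0),
  SI.mk (nat_lit 90) (nat_lit 10) (nat_lit 1) (nat_lit 0),
  SI.mk (nat_lit 91) (nat_lit 7) (nat_lit 2) (nat_lit 0),
  SI.mk (nat_lit 92) (nat_lit 4) (nat_lit 3) (nat_lit 0),
  SI.mk (nat_lit 87) (nat_lit 12) (nat_lit 0) (nat_lit 0),
  SI.mk (nat_lit 88) (nat_lit 9) (nat_lit 1) (nat_lit 0),
  SI.mk (nat_lit 89) (nat_lit 6) (nat_lit 2) (nat_lit 0),
  SI.mk (nat_lit 90) (nat_lit 3) (nat_lit 3) (nat_lit 0),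
  SI.mk (nat_lit 89) (nat_lit 12) (nat_lit 0) (nat_lit 0),
  SI.mk (nat_lit 90) (nat_lit 9) (nat_lit 1) (nat_lit 0),
  SI.mk (nat_lit 91) (nat_lit 6) (nat_lit 2) (nat_lit 0),
  SI.mk (nat_lit 92) (nat_lit 3) (nat_lit 3) (nat_lit 0),
  SI.mk (nat_lit 88) (nat_lit 11) (nat_lit 0) (nat_lit 0),
  SI.mk (nat_lit 89) (nat_lit 8) (nat_lit 1) (nat_lit 0),
  SI.mk (nat_lit 90) (nat_lit 5) (nat_lit 2) (nat_lit 0),
  SI.mk (nat_lit 91) (nat_lit 2) (nat_lit 3) (nat_lit 0),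
  SI.mk (nat_lit 90) (nat_lit 11) (nat_lit 0) (nat_lit 0),
  SI.mk (nat_lit 91) (nat_lit 8) (nat_lit 1) (nat_lit 0),
  SI.mk (nat_lit 92) (nat_lit 5) (nat_lit 2) (nat_lit 0),
  SI.mk (nat_lit 93) (nat_lit 2) (nat_lit 3) (nat_lit 0),
  SI.mk (nat_lit 89) (nat_lit 4) (nat_lit 0) (nat_lit 1),
  SI.mk (nat_lit 90) (nat_lit 1) (nat_lit 1) (nat_lit 1),
  SI.mk (nat_lit 88) (nat_lit 10) (nat_lit 0) (nat_lit 0),
  SI.mk (nat_lit 89) (nat_lit 7) (nat_lit 1) (nat_lit 0),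
  SI.mk (nat_lit 90) (nat_lit 4) (nat_lit 2) (nat_lit 0),
  SI.mk (nat_lit 87) (nat_lit 3) (nat_lit 0) (nat_lit 1),
  SI.mk (nat_lit 90) (nat_lit 10) (nat_lit 0) (nat_lit 0),
  SI.mk (nat_lit 91) (nat_lit 7) (nat_lit 1) (nat_lit 0),
  SI.mk (nat_lit 92) (nat_lit 4) (nat_lit 2) (nat_lit 0),
  SI.mk (nat_lit 89) (nat_lit 3) (nat_lit 0) (nat_lit 1),
  SI.mk (nat_lit 88) (nat_lit 9) (nat_lit 0) (nat_lit 0),
  SI.mk (nat_lit 89) (nat_lit 6) (nat_lit 1) (nat_lit 0),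
  SI.mk (nat_lit 90) (nat_lit 3) (nat_lit 2) (nat_lit 0),
  SI.mk (nat_lit 87) (nat_lit 2) (nat_lit 0) (nat_lit 1),
  SI.mk (nat_lit 90) (nat_lit 6) (nat_lit 0) (nat_lit 0),
  SI.mk (nat_lit 91) (nat_lit 3) (nat_lit 1) (nat_lit 0),
  SI.mk (nat_lit 0) (nat_lit 0) (nat_lit 0) (nat_lit 0),
  SI.mk (nat_lit 89) (nat_lit 2) (nat_lit 0) (nat_lit 1),
  SI.mk (nat_lit 88) (nat_lit 5) (nat_lit 0) (nat_lit 0),
  SI.mk (nat_lit 89) (nat_lit 2) (nat_lit 1) (nat_lit 0),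
  SI.mk (nat_lit 0) (nat_lit 0) (nat_lit 0) (nat_lit 0),
  SI.mk (nat_lit 88) (nat_lit 1) (nat_lit 0) (nat_lit 1),
  SI.mk (nat_lit 87) (nat_lit 4) (nat_lit 0) (nat_lit 0),
  SI.mk (nat_lit 88) (nat_lit 1) (nat_lit 1) (nat_lit 0),
  SI.mk (nat_lit 0) (nat_lit 0) (nat_lit 0) (nat_lit 0),
  SI.mk (nat_lit 90) (nat_lit 1) (nat_lit 0) (nat_lit 1),
  SI.mk (nat_lit 89) (nat_lit 4) (nat_lit 0) (nat_lit 0),
  SI.mk (nat_lit 90) (nat_lit 1) (nat_lit 1) (nat_lit 0),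
  SI.mk (nat_lit 87) (nat_lit 3) (nat_lit 0) (nat_lit 0),
  SI.mk (nat_lit 89) (nat_lit 3) (nat_lit 0) (nat_lit 0),
  SI.mk (nat_lit 89) (nat_lit 3) (nat_lit 0) (nat_lit 0),
  SI.mk (nat_lit 87) (nat_lit 2) (nat_lit 0) (nat_lit 0),
  SI.mk (nat_lit 87) (nat_lit 2) (nat_lit 0) (nat_lit 0),
  SI.mk (nat_lit 89) (nat_lit 2) (nat_lit 0) (nat_lit 0),
  SI.mk (nat_lit 87) (nat_lit 1) (nat_lit 0) (nat_lit 0),
  SI.mk (nat_lit 89) (nat_lit 1) (nat_lit 0) (nat_lit 0)]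

def q25_0 : List Nat := [nat_lit 13, nat_lit 12, nat_lit 12, nat_lit 11, nat_lit 11, nat_lit 10, nat_lit 10, nat_lit 9, nat_lit 9, nat_lit 8, nat_lit 5, nat_lit 4, nat_lit 3, nat_lit 3, nat_lit 2, nat_lit 2, nat_lit 2, nat_lit 1, nat_lit 1, nat_lit 1, nat_lit 0, nat_lit 0]

def b25_0 : List Nat := [nat_lit 0, nat_lit 5, nat_lit 9, nat_lit 13, nat_lit 17, nat_lit 21, nat_lit 25, nat_lit 31, nat_lit 35, nat_lit 39, nat_lit 43, nat_lit 47, nat_lit 51, nat_lit 55, nat_lit 57, nat_lit 58, nat_lit 59, nat_lit 60, nat_lit 61, nat_lit 62, nat_lit 63, nat_lit 64]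

def k26_0 : KP := KP.mk (nat_lit 90) (nat_lit 13) (nat_lit 342) (nat_lit 4) (nat_lit 97) [
  SI.mk (nat_lit 87) (nat_lit 13) (nat_lit 0) (nat_lit 0),
  SI.mk (nat_lit 88) (nat_lit 10) (nat_lit 1) (nat_lit 0),
  SI.mk (nat_lit 89) (nat_lit 7) (nat_lit 2) (nat_lit 0),
  SI.mk (nat_lit 90) (nat_lit 4) (nat_lit 3) (nat_lit 0),
  SI.mk (nat_lit 87) (nat_lit 3) (nat_lit 0) (nat_lit 1),
  SI.mk (nat_lit 89) (nat_lit 13) (nat_lit 0) (nat_lit 0),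
  SI.mk (nat_lit 90) (nat_lit 10) (nat_lit 1) (nat_lit 0),
  SI.mk (nat_lit 91) (nat_lit 7) (nat_lit 2) (nat_lit 0),
  SI.mk (nat_lit 92) (nat_lit 4) (nat_lit 3) (nat_lit 0),
  SI.mk (nat_lit 89) (nat_lit 3) (nat_lit 0) (nat_lit 1),
  SI.mk (nat_lit 87) (nat_lit 12) (nat_lit 0) (nat_lit 0),
  SI.mk (nat_lit 88) (nat_lit 9) (nat_lit 1) (nat_lit 0),
  SI.mk (nat_lit 89) (nat_lit 6) (nat_lit 2) (nat_lit 0),
  SI.mk (nat_lit 90) (nat_lit 3) (nat_lit 3) (nat_lit 0),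
  SI.mk (nat_lit 87) (nat_lit 2) (nat_lit 0) (nat_lit 1),
  SI.mk (nat_lit 89) (nat_lit 12) (nat_lit 0) (nat_lit 0),
  SI.mk (nat_lit 90) (nat_lit 9) (nat_lit 1) (nat_lit 0),
  SI.mk (nat_lit 91) (nat_lit 6) (nat_lit 2) (nat_lit 0),
  SI.mk (nat_lit 92) (nat_lit 3) (nat_lit 3) (nat_lit 0),
  SI.mk (nat_lit 89) (nat_lit 2) (nat_lit 0) (nat_lit 1),
  SI.mk (nat_lit 87) (nat_lit 11) (nat_lit 0) (nat_lit 0),
  SI.mk (nat_lit 88) (nat_lit 8) (nat_lit 1) (nat_lit 0),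
  SI.mk (nat_lit 89) (nat_lit 5) (nat_lit 2) (nat_lit 0),
  SI.mk (nat_lit 90) (nat_lit 2) (nat_lit 3) (nat_lit 0),
  SI.mk (nat_lit 87) (nat_lit 1) (nat_lit 0) (nat_lit 1),
  SI.mk (nat_lit 89) (nat_lit 11) (nat_lit 0) (nat_lit 0),
  SI.mk (nat_lit 90) (nat_lit 8) (nat_lit 1) (nat_lit 0),
  SI.mk (nat_lit 91) (nat_lit 5) (nat_lit 2) (nat_lit 0),
  SI.mk (nat_lit 92) (nat_lit 2) (nat_lit 3) (nat_lit 0),
  SI.mk (nat_lit 89) (nat_lit 1) (nat_lit 0) (nat_lit 1),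
  SI.mk (nat_lit 87) (nat_lit 10) (nat_lit 0) (nat_lit 0),
  SI.mk (nat_lit 88) (nat_lit 7) (nat_lit 1) (nat_lit 0),
  SI.mk (nat_lit 89) (nat_lit 4) (nat_lit 2) (nat_lit 0),
  SI.mk (nat_lit 90) (nat_lit 1) (nat_lit 3) (nat_lit 0),
  SI.mk (nat_lit 89) (nat_lit 10) (nat_lit 0) (nat_lit 0),
  SI.mk (nat_lit 90) (nat_lit 7) (nat_lit 1) (nat_lit 0),
  SI.mk (nat_lit 91) (nat_lit 4) (nat_lit 2) (nat_lit 0),
  SI.mk (nat_lit 87) (nat_lit 9) (nat_lit 0) (nat_lit 0),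
  SI.mk (nat_lit 88) (nat_lit 6) (nat_lit 1) (nat_lit 0),
  SI.mk (nat_lit 89) (nat_lit 3) (nat_lit 2) (nat_lit 0),
  SI.mk (nat_lit 89) (nat_lit 9) (nat_lit 0) (nat_lit 0),
  SI.mk (nat_lit 90) (nat_lit 6) (nat_lit 1) (nat_lit 0),
  SI.mk (nat_lit 91) (nat_lit 3) (nat_lit 2) (nat_lit 0),
  SI.mk (nat_lit 88) (nat_lit 5) (nat_lit 0) (nat_lit 0),
  SI.mk (nat_lit 89) (nat_lit 2) (nat_lit 1) (nat_lit 0),
  SI.mk (nat_lit 90) (nat_lit 5) (nat_lit 0) (nat_lit 0),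
  SI.mk (nat_lit 91) (nat_lit 2) (nat_lit 1) (nat_lit 0),
  SI.mk (nat_lit 88) (nat_lit 4) (nat_lit 0) (nat_lit 0),
  SI.mk (nat_lit 89) (nat_lit 1) (nat_lit 1) (nat_lit 0),
  SI.mk (nat_lit 90) (nat_lit 4) (nat_lit 0) (nat_lit 0),
  SI.mk (nat_lit 88) (nat_lit 3) (nat_lit 0) (nat_lit 0),
  SI.mk (nat_lit 90) (nat_lit 3) (nat_lit 0) (nat_lit 0),
  SI.mk (nat_lit 87) (nat_lit 2) (nat_lit 0) (nat_lit 0),
  SI.mk (nat_lit 88) (nat_lit 2) (nat_lit 0) (nat_lit 0),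
  SI.mk (nat_lit 89) (nat_lit 2) (nat_lit 0) (nat_lit 0),
  SI.mk (nat_lit 87) (nat_lit 1) (nat_lit 0) (nat_lit 0),
  SI.mk (nat_lit 89) (nat_lit 1) (nat_lit 0) (nat_lit 0)]

def q26_0 : List Nat := [nat_lit 12, nat_lit 12, nat_lit 11, nat_lit 11, nat_lit 10, nat_lit 10, nat_lit 9, nat_lit 9, nat_lit 8, nat_lit 8, nat_lit 4, nat_lit 4, nat_lit 3, nat_lit 3, nat_lit 2, nat_lit 2, nat_lit 1, nat_lit 1, nat_lit 1, nat_lit 0, nat_lit 0]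

def b26_0 : List Nat := [nat_lit 0, nat_lit 5, nat_lit 10, nat_lit 15, nat_lit 20, nat_lit 25, nat_lit 30, nat_lit 34, nat_lit 37, nat_lit 40, nat_lit 43, nat_lit 45, nat_lit 47, nat_lit 49, nat_lit 50, nat_lit 51, nat_lit 52, nat_lit 53, nat_lit 54, nat_lit 55, nat_lit 56]

def k27_0 : KP := KP.mk (nat_lit 90) (nat_lit 13) (nat_lit 324) (nat_lit 4) (nat_lit 98) [
  SI.mk (nat_lit 88) (nat_lit 13) (nat_lit 0) (nat_lit 0),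
  SI.mk (nat_lit 89) (nat_lit 10) (nat_lit 1) (nat_lit 0),
  SI.mk (nat_lit 90) (nat_lit 7) (nat_lit 2) (nat_lit 0),
  SI.mk (nat_lit 91) (nat_lit 4) (nat_lit 3) (nat_lit 0),
  SI.mk (nat_lit 88) (nat_lit 3) (nat_lit 0) (nat_lit 1),
  SI.mk (nat_lit 90) (nat_lit 13) (nat_lit 0) (nat_lit 0),
  SI.mk (nat_lit 91) (nat_lit 10) (nat_lit 1) (nat_lit 0),
  SI.mk (nat_lit 92) (nat_lit 7) (nat_lit 2) (nat_lit 0),
  SI.mk (nat_lit 93) (nat_lit 4) (nat_lit 3) (nat_lit 0),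
  SI.mk (nat_lit 90) (nat_lit 3) (nat_lit 0) (nat_lit 1),
  SI.mk (nat_lit 88) (nat_lit 12) (nat_lit 0) (nat_lit 0),
  SI.mk (nat_lit 89) (nat_lit 9) (nat_lit 1) (nat_lit 0),
  SI.mk (nat_lit 90) (nat_lit 6) (nat_lit 2) (nat_lit 0),
  SI.mk (nat_lit 91) (nat_lit 3) (nat_lit 3) (nat_lit 0),
  SI.mk (nat_lit 88) (nat_lit 2) (nat_lit 0) (nat_lit 1),
  SI.mk (nat_lit 90) (nat_lit 12) (nat_lit 0) (nat_lit 0),
  SI.mk (nat_lit 91) (nat_lit 9) (nat_lit 1) (nat_lit 0),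
  SI.mk (nat_lit 92) (nat_lit 6) (nat_lit 2) (nat_lit 0),
  SI.mk (nat_lit 93) (nat_lit 3) (nat_lit 3) (nat_lit 0),
  SI.mk (nat_lit 90) (nat_lit 2) (nat_lit 0) (nat_lit 1),
  SI.mk (nat_lit 88) (nat_lit 11) (nat_lit 0) (nat_lit 0),
  SI.mk (nat_lit 89) (nat_lit 8) (nat_lit 1) (nat_lit 0),
  SI.mk (nat_lit 90) (nat_lit 5) (nat_lit 2) (nat_lit 0),
  SI.mk (nat_lit 91) (nat_lit 2) (nat_lit 3) (nat_lit 0),
  SI.mk (nat_lit 88) (nat_lit 1) (nat_lit 0) (nat_lit 1),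
  SI.mk (nat_lit 87) (nat_lit 10) (nat_lit 0) (nat_lit 0),
  SI.mk (nat_lit 88) (nat_lit 7) (nat_lit 1) (nat_lit 0),
  SI.mk (nat_lit 89) (nat_lit 4) (nat_lit 2) (nat_lit 0),
  SI.mk (nat_lit 90) (nat_lit 1) (nat_lit 3) (nat_lit 0),
  SI.mk (nat_lit 89) (nat_lit 10) (nat_lit 0) (nat_lit 0),
  SI.mk (nat_lit 90) (nat_lit 7) (nat_lit 1) (nat_lit 0),
  SI.mk (nat_lit 91) (nat_lit 4) (nat_lit 2) (nat_lit 0),
  SI.mk (nat_lit 87) (nat_lit 9) (nat_lit 0) (nat_lit 0),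
  SI.mk (nat_lit 88) (nat_lit 6) (nat_lit 1) (nat_lit 0),
  SI.mk (nat_lit 89) (nat_lit 3) (nat_lit 2) (nat_lit 0),
  SI.mk (nat_lit 89) (nat_lit 9) (nat_lit 0) (nat_lit 0),
  SI.mk (nat_lit 90) (nat_lit 6) (nat_lit 1) (nat_lit 0),
  SI.mk (nat_lit 91) (nat_lit 3) (nat_lit 2) (nat_lit 0),
  SI.mk (nat_lit 87) (nat_lit 8) (nat_lit 0) (nat_lit 0),
  SI.mk (nat_lit 88) (nat_lit 5) (nat_lit 1) (nat_lit 0),
  SI.mk (nat_lit 89) (nat_lit 2) (nat_lit 2) (nat_lit 0),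
  SI.mk (nat_lit 89) (nat_lit 5) (nat_lit 0) (nat_lit 0),
  SI.mk (nat_lit 90) (nat_lit 2) (nat_lit 1) (nat_lit 0),
  SI.mk (nat_lit 87) (nat_lit 4) (nat_lit 0) (nat_lit 0),
  SI.mk (nat_lit 88) (nat_lit 1) (nat_lit 1) (nat_lit 0),
  SI.mk (nat_lit 90) (nat_lit 4) (nat_lit 0) (nat_lit 0),
  SI.mk (nat_lit 88) (nat_lit 3) (nat_lit 0) (nat_lit 0),
  SI.mk (nat_lit 90) (nat_lit 3) (nat_lit 0) (nat_lit 0),
  SI.mk (nat_lit 88) (nat_lit 2) (nat_lit 0) (nat_lit 0),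
  SI.mk (nat_lit 88) (nat_lit 2) (nat_lit 0) (nat_lit 0),
  SI.mk (nat_lit 90) (nat_lit 2) (nat_lit 0) (nat_lit 0),
  SI.mk (nat_lit 90) (nat_lit 2) (nat_lit 0) (nat_lit 0),
  SI.mk (nat_lit 88) (nat_lit 1) (nat_lit 0) (nat_lit 0),
  SI.mk (nat_lit 90) (nat_lit 1) (nat_lit 0) (nat_lit 0)]

def q27_0 : List Nat := [nat_lit 12, nat_lit 12, nat_lit 11, nat_lit 11, nat_lit 10, nat_lit 9, nat_lit 9, nat_lit 8, nat_lit 8, nat_lit 7, nat_lit 4, nat_lit 3, nat_lit 3, nat_lit 2, nat_lit 2, nat_lit 1, nat_lit 1, nat_lit 1, nat_lit 1, nat_lit 0, nat_lit 0]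

def b27_0 : List Nat := [nat_lit 0, nat_lit 5, nat_lit 10, nat_lit 15, nat_lit 20, nat_lit 25, nat_lit 29, nat_lit 32, nat_lit 35, nat_lit 38, nat_lit 41, nat_lit 43, nat_lit 45, nat_lit 46, nat_lit 47, nat_lit 48, nat_lit 49, nat_lit 50, nat_lit 51, nat_lit 52, nat_lit 53]

def k28_0 : KP := KP.mk (nat_lit 90) (nat_lit 13) (nat_lit 312) (nat_lit 4) (nat_lit 98) [
  SI.mk (nat_lit 90) (nat_lit 13) (nat_lit 0) (nat_lit 0),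
  SI.mk (nat_lit 91) (nat_lit 10) (nat_lit 1) (nat_lit 0),
  SI.mk (nat_lit 92) (nat_lit 7) (nat_lit 2) (nat_lit 0),
  SI.mk (nat_lit 93) (nat_lit 4) (nat_lit 3) (nat_lit 0),
  SI.mk (nat_lit 90) (nat_lit 3) (nat_lit 0) (nat_lit 1),
  SI.mk (nat_lit 88) (nat_lit 12) (nat_lit 0) (nat_lit 0),
  SI.mk (nat_lit 89) (nat_lit 9) (nat_lit 1) (nat_lit 0),
  SI.mk (nat_lit 90) (nat_lit 6) (nat_lit 2) (nat_lit 0),
  SI.mk (nat_lit 91) (nat_lit 3) (nat_lit 3) (nat_lit 0),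
  SI.mk (nat_lit 88) (nat_lit 2) (nat_lit 0) (nat_lit 1),
  SI.mk (nat_lit 90) (nat_lit 12) (nat_lit 0) (nat_lit 0),
  SI.mk (nat_lit 91) (nat_lit 9) (nat_lit 1) (nat_lit 0),
  SI.mk (nat_lit 92) (nat_lit 6) (nat_lit 2) (nat_lit 0),
  SI.mk (nat_lit 93) (nat_lit 3) (nat_lit 3) (nat_lit 0),
  SI.mk (nat_lit 90) (nat_lit 2) (nat_lit 0) (nat_lit 1),
  SI.mk (nat_lit 88) (nat_lit 11) (nat_lit 0) (nat_lit 0),
  SI.mk (nat_lit 89) (nat_lit 8) (nat_lit 1) (nat_lit 0),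
  SI.mk (nat_lit 90) (nat_lit 5) (nat_lit 2) (nat_lit 0),
  SI.mk (nat_lit 91) (nat_lit 2) (nat_lit 3) (nat_lit 0),
  SI.mk (nat_lit 88) (nat_lit 1) (nat_lit 0) (nat_lit 1),
  SI.mk (nat_lit 90) (nat_lit 11) (nat_lit 0) (nat_lit 0),
  SI.mk (nat_lit 91) (nat_lit 8) (nat_lit 1) (nat_lit 0),
  SI.mk (nat_lit 92) (nat_lit 5) (nat_lit 2) (nat_lit 0),
  SI.mk (nat_lit 93) (nat_lit 2) (nat_lit 3) (nat_lit 0),
  SI.mk (nat_lit 90) (nat_lit 1) (nat_lit 0) (nat_lit 1),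
  SI.mk (nat_lit 88) (nat_lit 10) (nat_lit 0) (nat_lit 0),
  SI.mk (nat_lit 89) (nat_lit 7) (nat_lit 1) (nat_lit 0),
  SI.mk (nat_lit 90) (nat_lit 4) (nat_lit 2) (nat_lit 0),
  SI.mk (nat_lit 90) (nat_lit 10) (nat_lit 0) (nat_lit 0),
  SI.mk (nat_lit 91) (nat_lit 7) (nat_lit 1) (nat_lit 0),
  SI.mk (nat_lit 92) (nat_lit 4) (nat_lit 2) (nat_lit 0),
  SI.mk (nat_lit 88) (nat_lit 9) (nat_lit 0) (nat_lit 0),
  SI.mk (nat_lit 89) (nat_lit 6) (nat_lit 1) (nat_lit 0),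
  SI.mk (nat_lit 90) (nat_lit 3) (nat_lit 2) (nat_lit 0),
  SI.mk (nat_lit 90) (nat_lit 9) (nat_lit 0) (nat_lit 0),
  SI.mk (nat_lit 91) (nat_lit 6) (nat_lit 1) (nat_lit 0),
  SI.mk (nat_lit 92) (nat_lit 3) (nat_lit 2) (nat_lit 0),
  SI.mk (nat_lit 88) (nat_lit 8) (nat_lit 0) (nat_lit 0),
  SI.mk (nat_lit 89) (nat_lit 5) (nat_lit 1) (nat_lit 0),
  SI.mk (nat_lit 90) (nat_lit 2) (nat_lit 2) (nat_lit 0),
  SI.mk (nat_lit 87) (nat_lit 4) (nat_lit 0) (nat_lit 0),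
  SI.mk (nat_lit 88) (nat_lit 1) (nat_lit 1) (nat_lit 0),
  SI.mk (nat_lit 89) (nat_lit 4) (nat_lit 0) (nat_lit 0),
  SI.mk (nat_lit 90) (nat_lit 1) (nat_lit 1) (nat_lit 0),
  SI.mk (nat_lit 87) (nat_lit 3) (nat_lit 0) (nat_lit 0),
  SI.mk (nat_lit 89) (nat_lit 3) (nat_lit 0) (nat_lit 0),
  SI.mk (nat_lit 87) (nat_lit 2) (nat_lit 0) (nat_lit 0),
  SI.mk (nat_lit 89) (nat_lit 2) (nat_lit 0) (nat_lit 0),
  SI.mk (nat_lit 90) (nat_lit 2) (nat_lit 0) (nat_lit 0),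
  SI.mk (nat_lit 87) (nat_lit 1) (nat_lit 0) (nat_lit 0),
  SI.mk (nat_lit 88) (nat_lit 1) (nat_lit 0) (nat_lit 0),
  SI.mk (nat_lit 90) (nat_lit 1) (nat_lit 0) (nat_lit 0)]

def q28_0 : List Nat := [nat_lit 12, nat_lit 11, nat_lit 11, nat_lit 10, nat_lit 10, nat_lit 9, nat_lit 9, nat_lit 8, nat_lit 8, nat_lit 7, nat_lit 3, nat_lit 3, nat_lit 2, nat_lit 2, nat_lit 1, nat_lit 1, nat_lit 1, nat_lit 0, nat_lit 0, nat_lit 0]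

def b28_0 : List Nat := [nat_lit 0, nat_lit 5, nat_lit 10, nat_lit 15, nat_lit 20, nat_lit 25, nat_lit 28, nat_lit 31, nat_lit 34, nat_lit 37, nat_lit 40, nat_lit 42, nat_lit 44, nat_lit 45, nat_lit 46, nat_lit 47, nat_lit 48, nat_lit 49, nat_lit 50, nat_lit 51]

def k29_0 : KP := KP.mk (nat_lit 90) (nat_lit 12) (nat_lit 294) (nat_lit 4) (nat_lit 97) [
  SI.mk (nat_lit 87) (nat_lit 12) (nat_lit 0) (nat_lit 0),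
  SI.mk (nat_lit 88) (nat_lit 9) (nat_lit 1) (nat_lit 0),
  SI.mk (nat_lit 89) (nat_lit 6) (nat_lit 2) (nat_lit 0),
  SI.mk (nat_lit 90) (nat_lit 3) (nat_lit 3) (nat_lit 0),
  SI.mk (nat_lit 87) (nat_lit 2) (nat_lit 0) (nat_lit 1),
  SI.mk (nat_lit 89) (nat_lit 12) (nat_lit 0) (nat_lit 0),
  SI.mk (nat_lit 90) (nat_lit 9) (nat_lit 1) (nat_lit 0),
  SI.mk (nat_lit 91) (nat_lit 6) (nat_lit 2) (nat_lit 0),
  SI.mk (nat_lit 92) (nat_lit 3) (nat_lit 3) (nat_lit 0),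
  SI.mk (nat_lit 89) (nat_lit 2) (nat_lit 0) (nat_lit 1),
  SI.mk (nat_lit 87) (nat_lit 11) (nat_lit 0) (nat_lit 0),
  SI.mk (nat_lit 88) (nat_lit 8) (nat_lit 1) (nat_lit 0),
  SI.mk (nat_lit 89) (nat_lit 5) (nat_lit 2) (nat_lit 0),
  SI.mk (nat_lit 90) (nat_lit 2) (nat_lit 3) (nat_lit 0),
  SI.mk (nat_lit 87) (nat_lit 1) (nat_lit 0) (nat_lit 1),
  SI.mk (nat_lit 89) (nat_lit 11) (nat_lit 0) (nat_lit 0),
  SI.mk (nat_lit 90) (nat_lit 8) (nat_lit 1) (nat_lit 0),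
  SI.mk (nat_lit 91) (nat_lit 5) (nat_lit 2) (nat_lit 0),
  SI.mk (nat_lit 92) (nat_lit 2) (nat_lit 3) (nat_lit 0),
  SI.mk (nat_lit 89) (nat_lit 1) (nat_lit 0) (nat_lit 1),
  SI.mk (nat_lit 87) (nat_lit 10) (nat_lit 0) (nat_lit 0),
  SI.mk (nat_lit 88) (nat_lit 7) (nat_lit 1) (nat_lit 0),
  SI.mk (nat_lit 89) (nat_lit 4) (nat_lit 2) (nat_lit 0),
  SI.mk (nat_lit 90) (nat_lit 1) (nat_lit 3) (nat_lit 0),
  SI.mk (nat_lit 90) (nat_lit 10) (nat_lit 0) (nat_lit 0),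
  SI.mk (nat_lit 91) (nat_lit 7) (nat_lit 1) (nat_lit 0),
  SI.mk (nat_lit 92) (nat_lit 4) (nat_lit 2) (nat_lit 0),
  SI.mk (nat_lit 88) (nat_lit 9) (nat_lit 0) (nat_lit 0),
  SI.mk (nat_lit 89) (nat_lit 6) (nat_lit 1) (nat_lit 0),
  SI.mk (nat_lit 90) (nat_lit 3) (nat_lit 2) (nat_lit 0),
  SI.mk (nat_lit 90) (nat_lit 9) (nat_lit 0) (nat_lit 0),
  SI.mk (nat_lit 91) (nat_lit 6) (nat_lit 1) (nat_lit 0),
  SI.mk (nat_lit 92) (nat_lit 3) (nat_lit 2) (nat_lit 0),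
  SI.mk (nat_lit 88) (nat_lit 8) (nat_lit 0) (nat_lit 0),
  SI.mk (nat_lit 89) (nat_lit 5) (nat_lit 1) (nat_lit 0),
  SI.mk (nat_lit 90) (nat_lit 2) (nat_lit 2) (nat_lit 0),
  SI.mk (nat_lit 90) (nat_lit 8) (nat_lit 0) (nat_lit 0),
  SI.mk (nat_lit 91) (nat_lit 5) (nat_lit 1) (nat_lit 0),
  SI.mk (nat_lit 92) (nat_lit 2) (nat_lit 2) (nat_lit 0),
  SI.mk (nat_lit 88) (nat_lit 4) (nat_lit 0) (nat_lit 0),
  SI.mk (nat_lit 89) (nat_lit 1) (nat_lit 1) (nat_lit 0),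
  SI.mk (nat_lit 90) (nat_lit 4) (nat_lit 0) (nat_lit 0),
  SI.mk (nat_lit 89) (nat_lit 3) (nat_lit 0) (nat_lit 0),
  SI.mk (nat_lit 87) (nat_lit 2) (nat_lit 0) (nat_lit 0),
  SI.mk (nat_lit 89) (nat_lit 2) (nat_lit 0) (nat_lit 0),
  SI.mk (nat_lit 87) (nat_lit 1) (nat_lit 0) (nat_lit 0),
  SI.mk (nat_lit 87) (nat_lit 1) (nat_lit 0) (nat_lit 0),
  SI.mk (nat_lit 89) (nat_lit 1) (nat_lit 0) (nat_lit 0),
  SI.mk (nat_lit 89) (nat_lit 1) (nat_lit 0) (nat_lit 0)]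

def q29_0 : List Nat := [nat_lit 11, nat_lit 11, nat_lit 10, nat_lit 10, nat_lit 9, nat_lit 9, nat_lit 8, nat_lit 8, nat_lit 7, nat_lit 7, nat_lit 3, nat_lit 3, nat_lit 2, nat_lit 1, nat_lit 1, nat_lit 0, nat_lit 0, nat_lit 0, nat_lit 0]

def b29_0 : List Nat := [nat_lit 0, nat_lit 5, nat_lit 10, nat_lit 15, nat_lit 20, nat_lit 24, nat_lit 27, nat_lit 30, nat_lit 33, nat_lit 36, nat_lit 39, nat_lit 41, nat_lit 42, nat_lit 43, nat_lit 44, nat_lit 45, nat_lit 46, nat_lit 47, nat_lit 48]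

def k30_0 : KP := KP.mk (nat_lit 90) (nat_lit 12) (nat_lit 270) (nat_lit 4) (nat_lit 97) [
  SI.mk (nat_lit 89) (nat_lit 12) (nat_lit 0) (nat_lit 0),
  SI.mk (nat_lit 90) (nat_lit 9) (nat_lit 1) (nat_lit 0),
  SI.mk (nat_lit 91) (nat_lit 6) (nat_lit 2) (nat_lit 0),
  SI.mk (nat_lit 92) (nat_lit 3) (nat_lit 3) (nat_lit 0),
  SI.mk (nat_lit 89) (nat_lit 2) (nat_lit 0) (nat_lit 1),
  SI.mk (nat_lit 87) (nat_lit 11) (nat_lit 0) (nat_lit 0),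
  SI.mk (nat_lit 88) (nat_lit 8) (nat_lit 1) (nat_lit 0),
  SI.mk (nat_lit 89) (nat_lit 5) (nat_lit 2) (nat_lit 0),
  SI.mk (nat_lit 90) (nat_lit 2) (nat_lit 3) (nat_lit 0),
  SI.mk (nat_lit 87) (nat_lit 1) (nat_lit 0) (nat_lit 1),
  SI.mk (nat_lit 89) (nat_lit 11) (nat_lit 0) (nat_lit 0),
  SI.mk (nat_lit 90) (nat_lit 8) (nat_lit 1) (nat_lit 0),
  SI.mk (nat_lit 91) (nat_lit 5) (nat_lit 2) (nat_lit 0),
  SI.mk (nat_lit 92) (nat_lit 2) (nat_lit 3) (nat_lit 0),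
  SI.mk (nat_lit 89) (nat_lit 1) (nat_lit 0) (nat_lit 1),
  SI.mk (nat_lit 87) (nat_lit 10) (nat_lit 0) (nat_lit 0),
  SI.mk (nat_lit 88) (nat_lit 7) (nat_lit 1) (nat_lit 0),
  SI.mk (nat_lit 89) (nat_lit 4) (nat_lit 2) (nat_lit 0),
  SI.mk (nat_lit 90) (nat_lit 1) (nat_lit 3) (nat_lit 0),
  SI.mk (nat_lit 89) (nat_lit 10) (nat_lit 0) (nat_lit 0),
  SI.mk (nat_lit 90) (nat_lit 7) (nat_lit 1) (nat_lit 0),
  SI.mk (nat_lit 91) (nat_lit 4) (nat_lit 2) (nat_lit 0),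
  SI.mk (nat_lit 87) (nat_lit 9) (nat_lit 0) (nat_lit 0),
  SI.mk (nat_lit 88) (nat_lit 6) (nat_lit 1) (nat_lit 0),
  SI.mk (nat_lit 89) (nat_lit 3) (nat_lit 2) (nat_lit 0),
  SI.mk (nat_lit 89) (nat_lit 9) (nat_lit 0) (nat_lit 0),
  SI.mk (nat_lit 90) (nat_lit 6) (nat_lit 1) (nat_lit 0),
  SI.mk (nat_lit 91) (nat_lit 3) (nat_lit 2) (nat_lit 0),
  SI.mk (nat_lit 87) (nat_lit 8) (nat_lit 0) (nat_lit 0),
  SI.mk (nat_lit 88) (nat_lit 5) (nat_lit 1) (nat_lit 0),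
  SI.mk (nat_lit 89) (nat_lit 2) (nat_lit 2) (nat_lit 0),
  SI.mk (nat_lit 89) (nat_lit 8) (nat_lit 0) (nat_lit 0),
  SI.mk (nat_lit 90) (nat_lit 5) (nat_lit 1) (nat_lit 0),
  SI.mk (nat_lit 91) (nat_lit 2) (nat_lit 2) (nat_lit 0),
  SI.mk (nat_lit 87) (nat_lit 7) (nat_lit 0) (nat_lit 0),
  SI.mk (nat_lit 88) (nat_lit 4) (nat_lit 1) (nat_lit 0),
  SI.mk (nat_lit 89) (nat_lit 1) (nat_lit 2) (nat_lit 0),
  SI.mk (nat_lit 90) (nat_lit 4) (nat_lit 0) (nat_lit 0),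
  SI.mk (nat_lit 88) (nat_lit 3) (nat_lit 0) (nat_lit 0),
  SI.mk (nat_lit 90) (nat_lit 3) (nat_lit 0) (nat_lit 0),
  SI.mk (nat_lit 88) (nat_lit 2) (nat_lit 0) (nat_lit 0),
  SI.mk (nat_lit 90) (nat_lit 2) (nat_lit 0) (nat_lit 0),
  SI.mk (nat_lit 88) (nat_lit 1) (nat_lit 0) (nat_lit 0),
  SI.mk (nat_lit 89) (nat_lit 1) (nat_lit 0) (nat_lit 0),
  SI.mk (nat_lit 90) (nat_lit 1) (nat_lit 0) (nat_lit 0)]

def q30_0 : List Nat := [nat_lit 11, nat_lit 10, nat_lit 10, nat_lit 9, nat_lit 9, nat_lit 8, nat_lit 8, nat_lit 7, nat_lit 7, nat_lit 6, nat_lit 3, nat_lit 2, nat_lit 2, nat_lit 1, nat_lit 1, nat_lit 0, nat_lit 0, nat_lit 0]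

def b30_0 : List Nat := [nat_lit 0, nat_lit 5, nat_lit 10, nat_lit 15, nat_lit 19, nat_lit 22, nat_lit 25, nat_lit 28, nat_lit 31, nat_lit 34, nat_lit 37, nat_lit 38, nat_lit 39, nat_lit 40, nat_lit 41, nat_lit 42, nat_lit 43, nat_lit 44]

def k31_0 : KP := KP.mk (nat_lit 90) (nat_lit 12) (nat_lit 252) (nat_lit 4) (nat_lit 98) [
  SI.mk (nat_lit 90) (nat_lit 12) (nat_lit 0) (nat_lit 0),
  SI.mk (nat_lit 91) (nat_lit 9) (nat_lit 1) (nat_lit 0),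
  SI.mk (nat_lit 92) (nat_lit 6) (nat_lit 2) (nat_lit 0),
  SI.mk (nat_lit 93) (nat_lit 3) (nat_lit 3) (nat_lit 0),
  SI.mk (nat_lit 90) (nat_lit 2) (nat_lit 0) (nat_lit 1),
  SI.mk (nat_lit 88) (nat_lit 11) (nat_lit 0) (nat_lit 0),
  SI.mk (nat_lit 89) (nat_lit 8) (nat_lit 1) (nat_lit 0),
  SI.mk (nat_lit 90) (nat_lit 5) (nat_lit 2) (nat_lit 0),
  SI.mk (nat_lit 91) (nat_lit 2) (nat_lit 3) (nat_lit 0),
  SI.mk (nat_lit 88) (nat_lit 1) (nat_lit 0) (nat_lit 1),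
  SI.mk (nat_lit 90) (nat_lit 11) (nat_lit 0) (nat_lit 0),
  SI.mk (nat_lit 91) (nat_lit 8) (nat_lit 1) (nat_lit 0),
  SI.mk (nat_lit 92) (nat_lit 5) (nat_lit 2) (nat_lit 0),
  SI.mk (nat_lit 93) (nat_lit 2) (nat_lit 3) (nat_lit 0),
  SI.mk (nat_lit 90) (nat_lit 1) (nat_lit 0) (nat_lit 1),
  SI.mk (nat_lit 88) (nat_lit 10) (nat_lit 0) (nat_lit 0),
  SI.mk (nat_lit 89) (nat_lit 7) (nat_lit 1) (nat_lit 0),
  SI.mk (nat_lit 90) (nat_lit 4) (nat_lit 2) (nat_lit 0),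
  SI.mk (nat_lit 90) (nat_lit 10) (nat_lit 0) (nat_lit 0),
  SI.mk (nat_lit 91) (nat_lit 7) (nat_lit 1) (nat_lit 0),
  SI.mk (nat_lit 92) (nat_lit 4) (nat_lit 2) (nat_lit 0),
  SI.mk (nat_lit 89) (nat_lit 9) (nat_lit 0) (nat_lit 0),
  SI.mk (nat_lit 90) (nat_lit 6) (nat_lit 1) (nat_lit 0),
  SI.mk (nat_lit 91) (nat_lit 3) (nat_lit 2) (nat_lit 0),
  SI.mk (nat_lit 87) (nat_lit 8) (nat_lit 0) (nat_lit 0),
  SI.mk (nat_lit 88) (nat_lit 5) (nat_lit 1) (nat_lit 0),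
  SI.mk (nat_lit 89) (nat_lit 2) (nat_lit 2) (nat_lit 0),
  SI.mk (nat_lit 89) (nat_lit 8) (nat_lit 0) (nat_lit 0),
  SI.mk (nat_lit 90) (nat_lit 5) (nat_lit 1) (nat_lit 0),
  SI.mk (nat_lit 91) (nat_lit 2) (nat_lit 2) (nat_lit 0),
  SI.mk (nat_lit 87) (nat_lit 7) (nat_lit 0) (nat_lit 0),
  SI.mk (nat_lit 88) (nat_lit 4) (nat_lit 1) (nat_lit 0),
  SI.mk (nat_lit 89) (nat_lit 1) (nat_lit 2) (nat_lit 0),
  SI.mk (nat_lit 89) (nat_lit 7) (nat_lit 0) (nat_lit 0),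
  SI.mk (nat_lit 90) (nat_lit 4) (nat_lit 1) (nat_lit 0),
  SI.mk (nat_lit 87) (nat_lit 3) (nat_lit 0) (nat_lit 0),
  SI.mk (nat_lit 89) (nat_lit 3) (nat_lit 0) (nat_lit 0),
  SI.mk (nat_lit 88) (nat_lit 2) (nat_lit 0) (nat_lit 0),
  SI.mk (nat_lit 90) (nat_lit 2) (nat_lit 0) (nat_lit 0),
  SI.mk (nat_lit 88) (nat_lit 1) (nat_lit 0) (nat_lit 0),
  SI.mk (nat_lit 90) (nat_lit 1) (nat_lit 0) (nat_lit 0),
  SI.mk (nat_lit 90) (nat_lit 1) (nat_lit 0) (nat_lit 0)]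

def q31_0 : List Nat := [nat_lit 11, nat_lit 10, nat_lit 10, nat_lit 9, nat_lit 9, nat_lit 8, nat_lit 7, nat_lit 7, nat_lit 6, nat_lit 6, nat_lit 2, nat_lit 2, nat_lit 1, nat_lit 1, nat_lit 0, nat_lit 0, nat_lit 0]

def b31_0 : List Nat := [nat_lit 0, nat_lit 5, nat_lit 10, nat_lit 15, nat_lit 18, nat_lit 21, nat_lit 24, nat_lit 27, nat_lit 30, nat_lit 33, nat_lit 35, nat_lit 36, nat_lit 37, nat_lit 38, nat_lit 39, nat_lit 40, nat_lit 41]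

def k32_0 : KP := KP.mk (nat_lit 90) (nat_lit 11) (nat_lit 228) (nat_lit 4) (nat_lit 98) [
  SI.mk (nat_lit 88) (nat_lit 11) (nat_lit 0) (nat_lit 0),
  SI.mk (nat_lit 89) (nat_lit 8) (nat_lit 1) (nat_lit 0),
  SI.mk (nat_lit 90) (nat_lit 5) (nat_lit 2) (nat_lit 0),
  SI.mk (nat_lit 91) (nat_lit 2) (nat_lit 3) (nat_lit 0),
  SI.mk (nat_lit 88) (nat_lit 1) (nat_lit 0) (nat_lit 1),
  SI.mk (nat_lit 90) (nat_lit 11) (nat_lit 0) (nat_lit 0),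
  SI.mk (nat_lit 91) (nat_lit 8) (nat_lit 1) (nat_lit 0),
  SI.mk (nat_lit 92) (nat_lit 5) (nat_lit 2) (nat_lit 0),
  SI.mk (nat_lit 93) (nat_lit 2) (nat_lit 3) (nat_lit 0),
  SI.mk (nat_lit 90) (nat_lit 1) (nat_lit 0) (nat_lit 1),
  SI.mk (nat_lit 88) (nat_lit 10) (nat_lit 0) (nat_lit 0),
  SI.mk (nat_lit 89) (nat_lit 7) (nat_lit 1) (nat_lit 0),
  SI.mk (nat_lit 90) (nat_lit 4) (nat_lit 2) (nat_lit 0),
  SI.mk (nat_lit 90) (nat_lit 10) (nat_lit 0) (nat_lit 0),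
  SI.mk (nat_lit 91) (nat_lit 7) (nat_lit 1) (nat_lit 0),
  SI.mk (nat_lit 92) (nat_lit 4) (nat_lit 2) (nat_lit 0),
  SI.mk (nat_lit 88) (nat_lit 9) (nat_lit 0) (nat_lit 0),
  SI.mk (nat_lit 89) (nat_lit 6) (nat_lit 1) (nat_lit 0),
  SI.mk (nat_lit 90) (nat_lit 3) (nat_lit 2) (nat_lit 0),
  SI.mk (nat_lit 90) (nat_lit 9) (nat_lit 0) (nat_lit 0),
  SI.mk (nat_lit 91) (nat_lit 6) (nat_lit 1) (nat_lit 0),
  SI.mk (nat_lit 92) (nat_lit 3) (nat_lit 2) (nat_lit 0),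
  SI.mk (nat_lit 88) (nat_lit 8) (nat_lit 0) (nat_lit 0),
  SI.mk (nat_lit 89) (nat_lit 5) (nat_lit 1) (nat_lit 0),
  SI.mk (nat_lit 90) (nat_lit 2) (nat_lit 2) (nat_lit 0),
  SI.mk (nat_lit 90) (nat_lit 8) (nat_lit 0) (nat_lit 0),
  SI.mk (nat_lit 91) (nat_lit 5) (nat_lit 1) (nat_lit 0),
  SI.mk (nat_lit 92) (nat_lit 2) (nat_lit 2) (nat_lit 0),
  SI.mk (nat_lit 88) (nat_lit 7) (nat_lit 0) (nat_lit 0),
  SI.mk (nat_lit 89) (nat_lit 4) (nat_lit 1) (nat_lit 0),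
  SI.mk (nat_lit 90) (nat_lit 1) (nat_lit 2) (nat_lit 0),
  SI.mk (nat_lit 90) (nat_lit 7) (nat_lit 0) (nat_lit 0),
  SI.mk (nat_lit 91) (nat_lit 4) (nat_lit 1) (nat_lit 0),
  SI.mk (nat_lit 89) (nat_lit 3) (nat_lit 0) (nat_lit 0),
  SI.mk (nat_lit 87) (nat_lit 2) (nat_lit 0) (nat_lit 0),
  SI.mk (nat_lit 89) (nat_lit 2) (nat_lit 0) (nat_lit 0),
  SI.mk (nat_lit 87) (nat_lit 1) (nat_lit 0) (nat_lit 0),
  SI.mk (nat_lit 89) (nat_lit 1) (nat_lit 0) (nat_lit 0)]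

def q32_0 : List Nat := [nat_lit 10, nat_lit 10, nat_lit 9, nat_lit 9, nat_lit 8, nat_lit 8, nat_lit 7, nat_lit 7, nat_lit 6, nat_lit 6, nat_lit 2, nat_lit 1, nat_lit 1, nat_lit 0, nat_lit 0]

def b32_0 : List Nat := [nat_lit 0, nat_lit 5, nat_lit 10, nat_lit 13, nat_lit 16, nat_lit 19, nat_lit 22, nat_lit 25, nat_lit 28, nat_lit 31, nat_lit 33, nat_lit 34, nat_lit 35, nat_lit 36, nat_lit 37]

def k33_0 : KP := KP.mk (nat_lit 90) (nat_lit 11) (nat_lit 210) (nat_lit 4) (nat_lit 97) [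
  SI.mk (nat_lit 89) (nat_lit 11) (nat_lit 0) (nat_lit 0),
  SI.mk (nat_lit 90) (nat_lit 8) (nat_lit 1) (nat_lit 0),
  SI.mk (nat_lit 91) (nat_lit 5) (nat_lit 2) (nat_lit 0),
  SI.mk (nat_lit 92) (nat_lit 2) (nat_lit 3) (nat_lit 0),
  SI.mk (nat_lit 89) (nat_lit 1) (nat_lit 0) (nat_lit 1),
  SI.mk (nat_lit 87) (nat_lit 10) (nat_lit 0) (nat_lit 0),
  SI.mk (nat_lit 88) (nat_lit 7) (nat_lit 1) (nat_lit 0),
  SI.mk (nat_lit 89) (nat_lit 4) (nat_lit 2) (nat_lit 0),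
  SI.mk (nat_lit 90) (nat_lit 1) (nat_lit 3) (nat_lit 0),
  SI.mk (nat_lit 89) (nat_lit 10) (nat_lit 0) (nat_lit 0),
  SI.mk (nat_lit 90) (nat_lit 7) (nat_lit 1) (nat_lit 0),
  SI.mk (nat_lit 91) (nat_lit 4) (nat_lit 2) (nat_lit 0),
  SI.mk (nat_lit 87) (nat_lit 9) (nat_lit 0) (nat_lit 0),
  SI.mk (nat_lit 88) (nat_lit 6) (nat_lit 1) (nat_lit 0),
  SI.mk (nat_lit 89) (nat_lit 3) (nat_lit 2) (nat_lit 0),
  SI.mk (nat_lit 89) (nat_lit 9) (nat_lit 0) (nat_lit 0),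
  SI.mk (nat_lit 90) (nat_lit 6) (nat_lit 1) (nat_lit 0),
  SI.mk (nat_lit 91) (nat_lit 3) (nat_lit 2) (nat_lit 0),
  SI.mk (nat_lit 88) (nat_lit 8) (nat_lit 0) (nat_lit 0),
  SI.mk (nat_lit 89) (nat_lit 5) (nat_lit 1) (nat_lit 0),
  SI.mk (nat_lit 90) (nat_lit 2) (nat_lit 2) (nat_lit 0),
  SI.mk (nat_lit 90) (nat_lit 8) (nat_lit 0) (nat_lit 0),
  SI.mk (nat_lit 91) (nat_lit 5) (nat_lit 1) (nat_lit 0),
  SI.mk (nat_lit 92) (nat_lit 2) (nat_lit 2) (nat_lit 0),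
  SI.mk (nat_lit 88) (nat_lit 7) (nat_lit 0) (nat_lit 0),
  SI.mk (nat_lit 89) (nat_lit 4) (nat_lit 1) (nat_lit 0),
  SI.mk (nat_lit 90) (nat_lit 1) (nat_lit 2) (nat_lit 0),
  SI.mk (nat_lit 90) (nat_lit 7) (nat_lit 0) (nat_lit 0),
  SI.mk (nat_lit 91) (nat_lit 4) (nat_lit 1) (nat_lit 0),
  SI.mk (nat_lit 88) (nat_lit 6) (nat_lit 0) (nat_lit 0),
  SI.mk (nat_lit 89) (nat_lit 3) (nat_lit 1) (nat_lit 0),
  SI.mk (nat_lit 90) (nat_lit 3) (nat_lit 0) (nat_lit 0),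
  SI.mk (nat_lit 88) (nat_lit 2) (nat_lit 0) (nat_lit 0),
  SI.mk (nat_lit 87) (nat_lit 1) (nat_lit 0) (nat_lit 0),
  SI.mk (nat_lit 89) (nat_lit 1) (nat_lit 0) (nat_lit 0)]

def q33_0 : List Nat := [nat_lit 10, nat_lit 9, nat_lit 9, nat_lit 8, nat_lit 8, nat_lit 7, nat_lit 7, nat_lit 6, nat_lit 6, nat_lit 5, nat_lit 2, nat_lit 1, nat_lit 0, nat_lit 0]

def b33_0 : List Nat := [nat_lit 0, nat_lit 5, nat_lit 9, nat_lit 12, nat_lit 15, nat_lit 18, nat_lit 21, nat_lit 24, nat_lit 27, nat_lit 29, nat_lit 31, nat_lit 32, nat_lit 33, nat_lit 34]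

def k34_0 : KP := KP.mk (nat_lit 90) (nat_lit 10) (nat_lit 192) (nat_lit 4) (nat_lit 96) [
  SI.mk (nat_lit 87) (nat_lit 10) (nat_lit 0) (nat_lit 0),
  SI.mk (nat_lit 88) (nat_lit 7) (nat_lit 1) (nat_lit 0),
  SI.mk (nat_lit 89) (nat_lit 4) (nat_lit 2) (nat_lit 0),
  SI.mk (nat_lit 90) (nat_lit 1) (nat_lit 3) (nat_lit 0),
  SI.mk (nat_lit 89) (nat_lit 10) (nat_lit 0) (nat_lit 0),
  SI.mk (nat_lit 90) (nat_lit 7) (nat_lit 1) (nat_lit 0),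
  SI.mk (nat_lit 91) (nat_lit 4) (nat_lit 2) (nat_lit 0),
  SI.mk (nat_lit 87) (nat_lit 9) (nat_lit 0) (nat_lit 0),
  SI.mk (nat_lit 88) (nat_lit 6) (nat_lit 1) (nat_lit 0),
  SI.mk (nat_lit 89) (nat_lit 3) (nat_lit 2) (nat_lit 0),
  SI.mk (nat_lit 89) (nat_lit 9) (nat_lit 0) (nat_lit 0),
  SI.mk (nat_lit 90) (nat_lit 6) (nat_lit 1) (nat_lit 0),
  SI.mk (nat_lit 91) (nat_lit 3) (nat_lit 2) (nat_lit 0),
  SI.mk (nat_lit 87) (nat_lit 8) (nat_lit 0) (nat_lit 0),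
  SI.mk (nat_lit 88) (nat_lit 5) (nat_lit 1) (nat_lit 0),
  SI.mk (nat_lit 89) (nat_lit 2) (nat_lit 2) (nat_lit 0),
  SI.mk (nat_lit 89) (nat_lit 8) (nat_lit 0) (nat_lit 0),
  SI.mk (nat_lit 90) (nat_lit 5) (nat_lit 1) (nat_lit 0),
  SI.mk (nat_lit 91) (nat_lit 2) (nat_lit 2) (nat_lit 0),
  SI.mk (nat_lit 87) (nat_lit 7) (nat_lit 0) (nat_lit 0),
  SI.mk (nat_lit 88) (nat_lit 4) (nat_lit 1) (nat_lit 0),
  SI.mk (nat_lit 89) (nat_lit 1) (nat_lit 2) (nat_lit 0),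
  SI.mk (nat_lit 89) (nat_lit 7) (nat_lit 0) (nat_lit 0),
  SI.mk (nat_lit 90) (nat_lit 4) (nat_lit 1) (nat_lit 0),
  SI.mk (nat_lit 87) (nat_lit 6) (nat_lit 0) (nat_lit 0),
  SI.mk (nat_lit 88) (nat_lit 3) (nat_lit 1) (nat_lit 0),
  SI.mk (nat_lit 89) (nat_lit 6) (nat_lit 0) (nat_lit 0),
  SI.mk (nat_lit 90) (nat_lit 3) (nat_lit 1) (nat_lit 0),
  SI.mk (nat_lit 88) (nat_lit 2) (nat_lit 0) (nat_lit 0),
  SI.mk (nat_lit 90) (nat_lit 2) (nat_lit 0) (nat_lit 0),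
  SI.mk (nat_lit 88) (nat_lit 1) (nat_lit 0) (nat_lit 0),
  SI.mk (nat_lit 90) (nat_lit 1) (nat_lit 0) (nat_lit 0)]

def q34_0 : List Nat := [nat_lit 9, nat_lit 9, nat_lit 8, nat_lit 8, nat_lit 7, nat_lit 7, nat_lit 6, nat_lit 6, nat_lit 5, nat_lit 5, nat_lit 1, nat_lit 1, nat_lit 0, nat_lit 0]

def b34_0 : List Nat := [nat_lit 0, nat_lit 4, nat_lit 7, nat_lit 10, nat_lit 13, nat_lit 16, nat_lit 19, nat_lit 22, nat_lit 24, nat_lit 26, nat_lit 28, nat_lit 29, nat_lit 30, nat_lit 31]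

end Vale.Agent.P236C.D

end
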