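import Vale.Agent.P236C.Exec

noncomputable section

namespace Vale.Agent.P236C.D

def ds0 : List Nat := [nat_lit 0]

def ds1 : List Nat := [nat_lit 1, nat_lit 3, nat_lit 9, nat_lit 27, nat_lit 81]

def ds2 : List Nat := [nat_lit 3, nat_lit 5, nat_lit 7, nat_lit 9, nat_lit 10, nat_lit 15, nat_lit 21, nat_lit 27, nat_lit 28, nat_lit 30, nat_lit 45, nat_lit 63, nat_lit 81, nat_lit 82, nat_lit 84, nat_lit 90]

def ds3 : List Nat := [nat_lit 4, nat_lit 6, nat_lit 8, nat_lit 10, nat_lit 12, nat_lit 15, nat_lit 18, nat_lit 21, nat_lit 23, nat_lit 24, nat_lit 28, nat_lit 30, nat_lit 30, nat_lit 32, nat_lit 34, nat_lit 36, nat_lit 45, nat_lit 46, nat_lit 54, nat_lit 61, nat_lit 63, nat_lit 64, nat_lit 69, nat_lit 72, nat_lit 82, nat_lit 84, nat_lit 84, nat_lit 86, nat_lit 88, nat_lit 90, nat_lit 90]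

def ds4 : List Nat := [nat_lit 6, nat_lit 8, nat_lit 10, nat_lit 12, nat_lit 14, nat_lit 16, nat_lit 18, nat_lit 22, nat_lit 24, nat_lit 24, nat_lit 30, nat_lit 30, nat_lit 31, nat_lit 32, nat_lit 33, nat_lit 35, nat_lit 36, nat_lit 37, nat_lit 42, nat_lit 46, nat_lit 48, nat_lit 54, nat_lit 58, nat_lit 62, nat_lit 64, nat_lit 64, nat_lit 66, nat_lit 69, nat_lit 70, nat_lit 72, nat_lit 72, nat_lit 73, nat_lit 82, nat_lit 84, nat_lit 85, nat_lit 86, nat_lit 87, nat_lit 88, nat_lit 89, nat_lit 90, nat_lit 90]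

def ds5 : List Nat := [nat_lit 7, nat_lit 9, nat_lit 11, nat_lit 13, nat_lit 15, nat_lit 18, nat_lit 20, nat_lit 22, nat_lit 24, nat_lit 26, nat_lit 30, nat_lit 31, nat_lit 33, nat_lit 33, nat_lit 35, nat_lit 36, nat_lit 37, nat_lit 39, nat_lit 42, nat_lit 45, nat_lit 48, nat_lit 50, nat_lit 55, nat_lit 62, nat_lit 64, nat_lit 64, nat_lit 66, nat_lit 66, nat_lit 68, nat_lit 70, nat_lit 70, nat_lit 71, nat_lit 72, nat_lit 73, nat_lit 76, nat_lit 78, nat_lit 82, nat_lit 85, nat_lit 85, nat_lit 87, nat_lit 87, nat_lit 88, nat_lit 89, nat_lit 89, nat_lit 90]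

def ds6 : List Nat := [nat_lit 9, nat_lit 11, nat_lit 13, nat_lit 15, nat_lit 17, nat_lit 19, nat_lit 21, nat_lit 23, nat_lit 25, nat_lit 27, nat_lit 33, nat_lit 34, nat_lit 36, nat_lit 38, nat_lit 39, nat_lit 44, nat_lit 45, nat_lit 49, nat_lit 51, nat_lit 55, nat_lit 61, nat_lit 63, nat_lit 65, nat_lit 66, nat_lit 67, nat_lit 68, nat_lit 69, nat_lit 70, nat_lit 71, nat_lit 72, nat_lit 73, nat_lit 74, nat_lit 76, nat_lit 76, nat_lit 78, nat_lit 79, nat_lit 82, nat_lit 84, nat_lit 85, nat_lit 87, nat_lit 88, nat_lit 89, nat_lit 89, nat_lit 90]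

def ds7 : List Nat := [nat_lit 10, nat_lit 12, nat_lit 14, nat_lit 16, nat_lit 18, nat_lit 21, nat_lit 23, nat_lit 25, nat_lit 27, nat_lit 29, nat_lit 38, nat_lit 40, nat_lit 45, nat_lit 45, nat_lit 51, nat_lit 56, nat_lit 58, nat_lit 62, nat_lit 63, nat_lit 65, nat_lit 67, nat_lit 67, nat_lit 69, nat_lit 70, nat_lit 71, nat_lit 72, nat_lit 73, nat_lit 73, nat_lit 75, nat_lit 77, nat_lit 78, nat_lit 79, nat_lit 80, nat_lit 82, nat_lit 83, nat_lit 84, nat_lit 85, nat_lit 88, nat_lit 89, nat_lit 90, nat_lit 90]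

def ds8 : List Nat := [nat_lit 12, nat_lit 14, nat_lit 16, nat_lit 18, nat_lit 20, nat_lit 22, nat_lit 24, nat_lit 26, nat_lit 28, nat_lit 30, nat_lit 41, nat_lit 45, nat_lit 46, nat_lit 51, nat_lit 56, nat_lit 57, nat_lit 58, nat_lit 60, nat_lit 62, nat_lit 63, nat_lit 64, nat_lit 64, nat_lit 66, nat_lit 66, nat_lit 68, nat_lit 70, nat_lit 71, nat_lit 72, nat_lit 75, nat_lit 77, nat_lit 79, nat_lit 81, nat_lit 81, nat_lit 83, nat_lit 83, nat_lit 85, nat_lit 85, nat_lit 88, nat_lit 90, nat_lit 90]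

def ds9 : List Nat := [nat_lit 13, nat_lit 15, nat_lit 17, nat_lit 19, nat_lit 21, nat_lit 24, nat_lit 26, nat_lit 28, nat_lit 30, nat_lit 32, nat_lit 46, nat_lit 48, nat_lit 51, nat_lit 54, nat_lit 57, nat_lit 57, nat_lit 59, nat_lit 59, nat_lit 60, nat_lit 61, nat_lit 63, nat_lit 64, nat_lit 65, nat_lit 66, nat_lit 66, nat_lit 68, nat_lit 68, nat_lit 70, nat_lit 70, nat_lit 72, nat_lit 72, nat_lit 74, nat_lit 76, nat_lit 79, nat_lit 81, nat_lit 81, nat_lit 82, nat_lit 83, nat_lit 84, nat_lit 85, nat_lit 87, nat_lit 89, nat_lit 90]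

def ds10 : List Nat := [nat_lit 15, nat_lit 17, nat_lit 19, nat_lit 21, nat_lit 23, nat_lit 25, nat_lit 27, nat_lit 29, nat_lit 31, nat_lit 33, nat_lit 48, nat_lit 50, nat_lit 52, nat_lit 54, nat_lit 58, nat_lit 59, nat_lit 60, nat_lit 60, nat_lit 61, nat_lit 63, nat_lit 65, nat_lit 66, nat_lit 66, nat_lit 67, nat_lit 67, nat_lit 68, nat_lit 69, nat_lit 69, nat_lit 71, nat_lit 71, nat_lit 72, nat_lit 73, nat_lit 73, nat_lit 75, nat_lit 78, nat_lit 78, nat_lit 80, nat_lit 82, nat_lit 82, nat_lit 84, nat_lit 84, nat_lit 86, nat_lit 88, nat_lit 90]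

def ds11 : List Nat := [nat_lit 16, nat_lit 18, nat_lit 20, nat_lit 22, nat_lit 24, nat_lit 27, nat_lit 29, nat_lit 31, nat_lit 33, nat_lit 35, nat_lit 49, nat_lit 51, nat_lit 54, nat_lit 56, nat_lit 58, nat_lit 60, nat_lit 60, nat_lit 62, nat_lit 62, nat_lit 64, nat_lit 66, nat_lit 66, nat_lit 67, nat_lit 68, nat_lit 69, nat_lit 69, nat_lit 71, nat_lit 71, nat_lit 72, nat_lit 73, nat_lit 73, nat_lit 75, nat_lit 75, nat_lit 77, nat_lit 78, nat_lit 79, nat_lit 81, nat_lit 82, nat_lit 84, nat_lit 84, nat_lit 86, nat_lit 86, nat_lit 88, nat_lit 90]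

def ds12 : List Nat := [nat_lit 18, nat_lit 20, nat_lit 22, nat_lit 24, nat_lit 26, nat_lit 28, nat_lit 30, nat_lit 32, nat_lit 34, nat_lit 36, nat_lit 51, nat_lit 53, nat_lit 55, nat_lit 57, nat_lit 59, nat_lit 61, nat_lit 62, nat_lit 63, nat_lit 64, nat_lit 66, nat_lit 68, nat_lit 69, nat_lit 70, nat_lit 70, nat_lit 72, nat_lit 72, nat_lit 74, nat_lit 74, nat_lit 75, nat_lit 76, nat_lit 78, nat_lit 80, nat_lit 81, nat_lit 81, nat_lit 83, nat_lit 85, nat_lit 85, nat_lit 87, nat_lit 87, nat_lit 89]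

def ds13 : List Nat := [nat_lit 19, nat_lit 21, nat_lit 23, nat_lit 25, nat_lit 27, nat_lit 30, nat_lit 32, nat_lit 34, nat_lit 36, nat_lit 38, nat_lit 52, nat_lit 54, nat_lit 57, nat_lit 59, nat_lit 61, nat_lit 63, nat_lit 63, nat_lit 65, nat_lit 65, nat_lit 67, nat_lit 69, nat_lit 71, nat_lit 74, nat_lit 74, nat_lit 76, nat_lit 76, nat_lit 78, nat_lit 80, nat_lit 81, nat_lit 82, nat_lit 85, nat_lit 87, nat_lit 87, nat_lit 89]

def ds14 : List Nat := [nat_lit 21, nat_lit 23, nat_lit 25, nat_lit 27, nat_lit 29, nat_lit 31, nat_lit 33, nat_lit 35, nat_lit 37, nat_lit 39, nat_lit 54, nat_lit 56, nat_lit 58, nat_lit 60, nat_lit 62, nat_lit 64, nat_lit 65, nat_lit 66, nat_lit 67, nat_lit 69, nat_lit 71, nat_lit 73, nat_lit 75, nat_lit 77, nat_lit 77, nat_lit 79, nat_lit 82, nat_lit 84, nat_lit 86, nat_lit 87, nat_lit 88, nat_lit 90]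

def ds15 : List Nat := [nat_lit 22, nat_lit 24, nat_lit 26, nat_lit 28, nat_lit 30, nat_lit 33, nat_lit 35, nat_lit 37, nat_lit 39, nat_lit 41, nat_lit 55, nat_lit 57, nat_lit 60, nat_lit 62, nat_lit 64, nat_lit 66, nat_lit 66, nat_lit 68, nat_lit 68, nat_lit 70, nat_lit 72, nat_lit 74, nat_lit 77, nat_lit 79, nat_lit 83, nat_lit 85, nat_lit 88, nat_lit 90, nat_lit 90]

def ds16 : List Nat := [nat_lit 24, nat_lit 26, nat_lit 28, nat_lit 30, nat_lit 32, nat_lit 34, nat_lit 36, nat_lit 38, nat_lit 40, nat_lit 42, nat_lit 57, nat_lit 59, nat_lit 61, nat_lit 63, nat_lit 65, nat_lit 67, nat_lit 68, nat_lit 69, nat_lit 70, nat_lit 72, nat_lit 74, nat_lit 76, nat_lit 78, nat_lit 80, nat_lit 89, nat_lit 90]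

def ds17 : List Nat := [nat_lit 25, nat_lit 27, nat_lit 29, nat_lit 31, nat_lit 33, nat_lit 36, nat_lit 38, nat_lit 40, nat_lit 42, nat_lit 44, nat_lit 58, nat_lit 60, nat_lit 63, nat_lit 65, nat_lit 67, nat_lit 69, nat_lit 69, nat_lit 71, nat_lit 71, nat_lit 73, nat_lit 75, nat_lit 77, nat_lit 80, nat_lit 82]

def ds18 : List Nat := [nat_lit 27, nat_lit 29, nat_lit 31, nat_lit 33, nat_lit 35, nat_lit 37, nat_lit 39, nat_lit 41, nat_lit 43, nat_lit 45, nat_lit 60, nat_lit 62, nat_lit 64, nat_lit 66, nat_lit 68, nat_lit 70, nat_lit 71, nat_lit 72, nat_lit 73, nat_lit 75, nat_lit 77, nat_lit 79, nat_lit 81, nat_lit 83]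

def ds19 : List Nat := [nat_lit 28, nat_lit 30, nat_lit 32, nat_lit 34, nat_lit 36, nat_lit 39, nat_lit 41, nat_lit 43, nat_lit 45, nat_lit 47, nat_lit 61, nat_lit 63, nat_lit 66, nat_lit 68, nat_lit 70, nat_lit 72, nat_lit 72, nat_lit 74, nat_lit 74, nat_lit 76, nat_lit 78, nat_lit 80, nat_lit 83, nat_lit 85]

def ds20 : List Nat := [nat_lit 30, nat_lit 32, nat_lit 34, nat_lit 36, nat_lit 38, nat_lit 40, nat_lit 42, nat_lit 44, nat_lit 46, nat_lit 48, nat_lit 63, nat_lit 65, nat_lit 67, nat_lit 69, nat_lit 71, nat_lit 73, nat_lit 74, nat_lit 75, nat_lit 76, nat_lit 78, nat_lit 80, nat_lit 82, nat_lit 84, nat_lit 86]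

def ds21 : List Nat := [nat_lit 31, nat_lit 33, nat_lit 35, nat_lit 37, nat_lit 39, nat_lit 42, nat_lit 44, nat_lit 46, nat_lit 48, nat_lit 50, nat_lit 64, nat_lit 66, nat_lit 69, nat_lit 71, nat_lit 73, nat_lit 75, nat_lit 75, nat_lit 77, nat_lit 77, nat_lit 79, nat_lit 81, nat_lit 83, nat_lit 86, nat_lit 88]

def ds22 : List Nat := [nat_lit 33, nat_lit 35, nat_lit 37, nat_lit 39, nat_lit 41, nat_lit 43, nat_lit 45, nat_lit 47, nat_lit 49, nat_lit 51, nat_lit 66, nat_lit 68, nat_lit 70, nat_lit 72, nat_lit 74, nat_lit 76, nat_lit 77, nat_lit 78, nat_lit 79, nat_lit 81, nat_lit 83, nat_lit 85, nat_lit 87, nat_lit 89]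

def ds23 : List Nat := [nat_lit 34, nat_lit 36, nat_lit 38, nat_lit 40, nat_lit 42, nat_lit 45, nat_lit 47, nat_lit 49, nat_lit 51, nat_lit 53, nat_lit 67, nat_lit 69, nat_lit 72, nat_lit 74, nat_lit 76, nat_lit 78, nat_lit 78, nat_lit 80, nat_lit 80, nat_lit 82, nat_lit 84, nat_lit 86, nat_lit 89]

def ds24 : List Nat := [nat_lit 36, nat_lit 38, nat_lit 40, nat_lit 42, nat_lit 44, nat_lit 46, nat_lit 48, nat_lit 50, nat_lit 52, nat_lit 54, nat_lit 69, nat_lit 71, nat_lit 73, nat_lit 75, nat_lit 77, nat_lit 79, nat_lit 80, nat_lit 81, nat_lit 82, nat_lit 84, nat_lit 86, nat_lit 88, nat_lit 90]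

def ds25 : List Nat := [nat_lit 37, nat_lit 39, nat_lit 41, nat_lit 43, nat_lit 45, nat_lit 48, nat_lit 50, nat_lit 52, nat_lit 54, nat_lit 56, nat_lit 70, nat_lit 72, nat_lit 75, nat_lit 77, nat_lit 79, nat_lit 81, nat_lit 81, nat_lit 83, nat_lit 83, nat_lit 85, nat_lit 87, nat_lit 89]

def ds26 : List Nat := [nat_lit 39, nat_lit 41, nat_lit 43, nat_lit 45, nat_lit 47, nat_lit 49, nat_lit 51, nat_lit 53, nat_lit 55, nat_lit 57, nat_lit 72, nat_lit 74, nat_lit 76, nat_lit 78, nat_lit 80, nat_lit 82, nat_lit 83, nat_lit 84, nat_lit 85, nat_lit 87, nat_lit 89]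

def ds27 : List Nat := [nat_lit 40, nat_lit 42, nat_lit 44, nat_lit 46, nat_lit 48, nat_lit 51, nat_lit 53, nat_lit 55, nat_lit 57, nat_lit 59, nat_lit 73, nat_lit 75, nat_lit 78, nat_lit 80, nat_lit 82, nat_lit 84, nat_lit 84, nat_lit 86, nat_lit 86, nat_lit 88, nat_lit 90]

def ds28 : List Nat := [nat_lit 42, nat_lit 44, nat_lit 46, nat_lit 48, nat_lit 50, nat_lit 52, nat_lit 54, nat_lit 56, nat_lit 58, nat_lit 60, nat_lit 75, nat_lit 77, nat_lit 79, nat_lit 81, nat_lit 83, nat_lit 85, nat_lit 86, nat_lit 87, nat_lit 88, nat_lit 90]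

def ds29 : List Nat := [nat_lit 43, nat_lit 45, nat_lit 47, nat_lit 49, nat_lit 51, nat_lit 54, nat_lit 56, nat_lit 58, nat_lit 60, nat_lit 62, nat_lit 76, nat_lit 78, nat_lit 81, nat_lit 83, nat_lit 85, nat_lit 87, nat_lit 87, nat_lit 89, nat_lit 89]

def ds30 : List Nat := [nat_lit 45, nat_lit 47, nat_lit 49, nat_lit 51, nat_lit 53, nat_lit 55, nat_lit 57, nat_lit 59, nat_lit 61, nat_lit 63, nat_lit 78, nat_lit 80, nat_lit 82, nat_lit 84, nat_lit 86, nat_lit 88, nat_lit 89, nat_lit 90]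

def ds31 : List Nat := [nat_lit 46, nat_lit 48, nat_lit 50, nat_lit 52, nat_lit 54, nat_lit 57, nat_lit 59, nat_lit 61, nat_lit 63, nat_lit 65, nat_lit 79, nat_lit 81, nat_lit 84, nat_lit 86, nat_lit 88, nat_lit 90, nat_lit 90]

def ds32 : List Nat := [nat_lit 48, nat_lit 50, nat_lit 52, nat_lit 54, nat_lit 56, nat_lit 58, nat_lit 60, nat_lit 62, nat_lit 64, nat_lit 66, nat_lit 81, nat_lit 83, nat_lit 85, nat_lit 87, nat_lit 89]

def ds33 : List Nat := [nat_lit 49, nat_lit 51, nat_lit 53, nat_lit 55, nat_lit 57, nat_lit 60, nat_lit 62, nat_lit 64, nat_lit 66, nat_lit 68, nat_lit 82, nat_lit 84, nat_lit 87, nat_lit 89]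

def ds34 : List Nat := [nat_lit 51, nat_lit 53, nat_lit 55, nat_lit 57, nat_lit 59, nat_lit 61, nat_lit 63, nat_lit 65, nat_lit 67, nat_lit 69, nat_lit 84, nat_lit 86, nat_lit 88, nat_lit 90]

def dsA (j : Nat) : List Nat := getL [] [ds0, ds1, ds2, ds3, ds4, ds5, ds6, ds7, ds8, ds9, ds10, ds11, ds12, ds13, ds14, ds15, ds16, ds17, ds18, ds19, ds20, ds21, ds22, ds23, ds24, ds25, ds26, ds27, ds28, ds29, ds30, ds31, ds32, ds33, ds34] j

end Vale.Agent.P236C.D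

end
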