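import Vale.Agent.P236C.Exec2
import Vale.Agent.P236C.D.L
import Vale.Agent.P236C.D.K

noncomputable section

namespace Vale.Agent.P236C.D

def y1_0 : List Nat := []

def z1_0 : List Nat := [nat_lit 1, nat_lit 3]

theorem pk1_0 : partOK (nat_lit 90) k1_0 q1_0 b1_0 ds1 y1_0 z1_0 (nat_lit 0) (nat_lit 2) = true := by
  decide +kernel

def y1_1 : List Nat := [nat_lit 1, nat_lit 3]

def z1_1 : List Nat := [nat_lit 9, nat_lit 27, nat_lit 81]

theorem pk1_1 : partOK (nat_lit 90) k1_1 q1_1 b1_1 ds1 y1_1 z1_1 (nat_lit 2) (nat_lit 5) = true := by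
  decide +kernel

def y2_0 : List Nat := []

def z2_0 : List Nat := [nat_lit 3, nat_lit 5, nat_lit 7, nat_lit 9]

theorem pk2_0 : partOK (nat_lit 90) k2_0 q2_0 b2_0 ds2 y2_0 z2_0 (nat_lit 0) (nat_lit 4) = true := by
  decide +kernel

def y2_1 : List Nat := [nat_lit 3, nat_lit 5, nat_lit 7, nat_lit 9]

def z2_1 : List Nat := [nat_lit 10, nat_lit 15, nat_lit 21, nat_lit 27, nat_lit 28, nat_lit 30, nat_lit 45, nat_lit 63, nat_lit 81, nat_lit 82, nat_lit 84, nat_lit 90]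

theorem pk2_1 : partOK (nat_lit 90) k2_1 q2_1 b2_1 ds2 y2_1 z2_1 (nat_lit 4) (nat_lit 16) = true := by
  decide +kernel

def y3_0 : List Nat := []

def z3_0 : List Nat := [nat_lit 4, nat_lit 6, nat_lit 8, nat_lit 10, nat_lit 12, nat_lit 15, nat_lit 18, nat_lit 21]

theorem pk3_0 : partOK (nat_lit 90) k3_0 q3_0 b3_0 ds3 y3_0 z3_0 (nat_lit 0) (nat_lit 8) = true := by
  decide +kernel

def y3_1 : List Nat := [nat_lit 4, nat_lit 6, nat_lit 8, nat_lit 10, nat_lit 12, nat_lit 15, nat_lit 18, nat_lit 21]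

def z3_1 : List Nat := [nat_lit 23, nat_lit 24, nat_lit 28, nat_lit 30, nat_lit 30, nat_lit 32, nat_lit 34, nat_lit 36, nat_lit 45, nat_lit 46, nat_lit 54, nat_lit 61, nat_lit 63, nat_lit 64, nat_lit 69, nat_lit 72, nat_lit 82, nat_lit 84, nat_lit 84, nat_lit 86, nat_lit 88, nat_lit 90, nat_lit 90]

theorem pk3_1 : partOK (nat_lit 90) k3_1 q3_1 b3_1 ds3 y3_1 z3_1 (nat_lit 8) (nat_lit 31) = true := by
  decide +kernel

def y4_0 : List Nat := []

def z4_0 : List Nat := [nat_lit 6, nat_lit 8, nat_lit 10, nat_lit 12, nat_lit 14, nat_lit 16, nat_lit 18, nat_lit 22, nat_lit 24, nat_lit 24]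

theorem pk4_0 : partOK (nat_lit 90) k4_0 q4_0 b4_0 ds4 y4_0 z4_0 (nat_lit 0) (nat_lit 10) = true := by
  decide +kernel

def y4_1 : List Nat := [nat_lit 6, nat_lit 8, nat_lit 10, nat_lit 12, nat_lit 14, nat_lit 16, nat_lit 18, nat_lit 22, nat_lit 24, nat_lit 24]

def z4_1 : List Nat := [nat_lit 30, nat_lit 30, nat_lit 31, nat_lit 32, nat_lit 33, nat_lit 35, nat_lit 36, nat_lit 37, nat_lit 42, nat_lit 46, nat_lit 48, nat_lit 54, nat_lit 58, nat_lit 62, nat_lit 64, nat_lit 64, nat_lit 66, nat_lit 69, nat_lit 70, nat_lit 72, nat_lit 72, nat_lit 73, nat_lit 82, nat_lit 84, nat_lit 85, nat_lit 86, nat_lit 87, nat_lit 88, nat_lit 89, nat_lit 90, nat_lit 90]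

theorem pk4_1 : partOK (nat_lit 90) k4_1 q4_1 b4_1 ds4 y4_1 z4_1 (nat_lit 10) (nat_lit 41) = true := by
  decide +kernel

def y5_0 : List Nat := []

def z5_0 : List Nat := [nat_lit 7, nat_lit 9, nat_lit 11, nat_lit 13, nat_lit 15, nat_lit 18, nat_lit 20, nat_lit 22, nat_lit 24, nat_lit 26]

theorem pk5_0 : partOK (nat_lit 90) k5_0 q5_0 b5_0 ds5 y5_0 z5_0 (nat_lit 0) (nat_lit 10) = true := by
  decide +kernel

def y5_1 : List Nat := [nat_lit 7, nat_lit 9, nat_lit 11, nat_lit 13, nat_lit 15, nat_lit 18, nat_lit 20, nat_lit 22, nat_lit 24, nat_lit 26]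

def z5_1 : List Nat := [nat_lit 30, nat_lit 31, nat_lit 33, nat_lit 33, nat_lit 35, nat_lit 36, nat_lit 37, nat_lit 39, nat_lit 42, nat_lit 45, nat_lit 48, nat_lit 50, nat_lit 55, nat_lit 62, nat_lit 64, nat_lit 64, nat_lit 66, nat_lit 66, nat_lit 68, nat_lit 70, nat_lit 70, nat_lit 71, nat_lit 72, nat_lit 73, nat_lit 76, nat_lit 78, nat_lit 82, nat_lit 85, nat_lit 85, nat_lit 87, nat_lit 87, nat_lit 88, nat_lit 89, nat_lit 89, nat_lit 90]

theorem pk5_1 : partOK (nat_lit 90) k5_1 q5_1 b5_1 ds5 y5_1 z5_1 (nat_lit 10) (nat_lit 45) = true := by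
  decide +kernel

def y6_0 : List Nat := []

def z6_0 : List Nat := [nat_lit 9, nat_lit 11, nat_lit 13, nat_lit 15, nat_lit 17, nat_lit 19, nat_lit 21, nat_lit 23, nat_lit 25, nat_lit 27]

theorem pk6_0 : partOK (nat_lit 90) k6_0 q6_0 b6_0 ds6 y6_0 z6_0 (nat_lit 0) (nat_lit 10) = true := by
  decide +kernel

def y6_1 : List Nat := [nat_lit 9, nat_lit 11, nat_lit 13, nat_lit 15, nat_lit 17, nat_lit 19, nat_lit 21, nat_lit 23, nat_lit 25, nat_lit 27]

def z6_1 : List Nat := [nat_lit 33, nat_lit 34, nat_lit 36, nat_lit 38, nat_lit 39, nat_lit 44, nat_lit 45, nat_lit 49, nat_lit 51, nat_lit 55, nat_lit 61, nat_lit 63, nat_lit 65, nat_lit 66, nat_lit 67, nat_lit 68, nat_lit 69, nat_lit 70, nat_lit 71, nat_lit 72, nat_lit 73, nat_lit 74, nat_lit 76, nat_lit 76, nat_lit 78, nat_lit 79, nat_lit 82, nat_lit 84, nat_lit 85, nat_lit 87, nat_lit 88, nat_lit 89, nat_lit 89, nat_lit 90]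

theorem pk6_1 : partOK (nat_lit 90) k6_1 q6_1 b6_1 ds6 y6_1 z6_1 (nat_lit 10) (nat_lit 44) = true := by
  decide +kernel

def y7_0 : List Nat := []

def z7_0 : List Nat := [nat_lit 10, nat_lit 12, nat_lit 14, nat_lit 16, nat_lit 18, nat_lit 21, nat_lit 23, nat_lit 25]

theorem pk7_0 : partOK (nat_lit 90) k7_0 q7_0 b7_0 ds7 y7_0 z7_0 (nat_lit 0) (nat_lit 8) = true := by
  decide +kernel

def y7_1 : List Nat := [nat_lit 10, nat_lit 12, nat_lit 14, nat_lit 16, nat_lit 18, nat_lit 21, nat_lit 23, nat_lit 25]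

def z7_1 : List Nat := [nat_lit 27, nat_lit 29, nat_lit 38, nat_lit 40, nat_lit 45, nat_lit 45, nat_lit 51, nat_lit 56, nat_lit 58, nat_lit 62, nat_lit 63, nat_lit 65, nat_lit 67, nat_lit 67, nat_lit 69, nat_lit 70, nat_lit 71, nat_lit 72, nat_lit 73, nat_lit 73, nat_lit 75, nat_lit 77, nat_lit 78, nat_lit 79, nat_lit 80, nat_lit 82, nat_lit 83, nat_lit 84, nat_lit 85, nat_lit 88, nat_lit 89, nat_lit 90, nat_lit 90]

theorem pk7_1 : partOK (nat_lit 90) k7_1 q7_1 b7_1 ds7 y7_1 z7_1 (nat_lit 8) (nat_lit 41) = true := by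
  decide +kernel

def y8_0 : List Nat := []

def z8_0 : List Nat := [nat_lit 12, nat_lit 14, nat_lit 16, nat_lit 18, nat_lit 20, nat_lit 22, nat_lit 24, nat_lit 26]

theorem pk8_0 : partOK (nat_lit 90) k8_0 q8_0 b8_0 ds8 y8_0 z8_0 (nat_lit 0) (nat_lit 8) = true := by
  decide +kernel

def y8_1 : List Nat := [nat_lit 12, nat_lit 14, nat_lit 16, nat_lit 18, nat_lit 20, nat_lit 22, nat_lit 24, nat_lit 26]

def z8_1 : List Nat := [nat_lit 28, nat_lit 30, nat_lit 41, nat_lit 45, nat_lit 46, nat_lit 51, nat_lit 56, nat_lit 57, nat_lit 58, nat_lit 60, nat_lit 62, nat_lit 63, nat_lit 64, nat_lit 64, nat_lit 66, nat_lit 66, nat_lit 68, nat_lit 70, nat_lit 71, nat_lit 72, nat_lit 75, nat_lit 77, nat_lit 79, nat_lit 81, nat_lit 81, nat_lit 83, nat_lit 83, nat_lit 85, nat_lit 85, nat_lit 88, nat_lit 90, nat_lit 90]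

theorem pk8_1 : partOK (nat_lit 90) k8_1 q8_1 b8_1 ds8 y8_1 z8_1 (nat_lit 8) (nat_lit 40) = true := by
  decide +kernel

def y9_0 : List Nat := []

def z9_0 : List Nat := [nat_lit 13, nat_lit 15, nat_lit 17, nat_lit 19, nat_lit 21, nat_lit 24, nat_lit 26, nat_lit 28, nat_lit 30]

theorem pk9_0 : partOK (nat_lit 90) k9_0 q9_0 b9_0 ds9 y9_0 z9_0 (nat_lit 0) (nat_lit 9) = true := by
  decide +kernel

def y9_1 : List Nat := [nat_lit 13, nat_lit 15, nat_lit 17, nat_lit 19, nat_lit 21, nat_lit 24, nat_lit 26, nat_lit 28, nat_lit 30]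

def z9_1 : List Nat := [nat_lit 32, nat_lit 46, nat_lit 48, nat_lit 51, nat_lit 54, nat_lit 57, nat_lit 57, nat_lit 59, nat_lit 59, nat_lit 60, nat_lit 61, nat_lit 63, nat_lit 64, nat_lit 65, nat_lit 66, nat_lit 66, nat_lit 68, nat_lit 68, nat_lit 70, nat_lit 70, nat_lit 72, nat_lit 72, nat_lit 74, nat_lit 76, nat_lit 79, nat_lit 81, nat_lit 81, nat_lit 82, nat_lit 83, nat_lit 84, nat_lit 85, nat_lit 87, nat_lit 89, nat_lit 90]

theorem pk9_1 : partOK (nat_lit 90) k9_1 q9_1 b9_1 ds9 y9_1 z9_1 (nat_lit 9) (nat_lit 43) = true := by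
  decide +kernel

def y10_0 : List Nat := []

def z10_0 : List Nat := [nat_lit 15, nat_lit 17, nat_lit 19, nat_lit 21, nat_lit 23, nat_lit 25, nat_lit 27, nat_lit 29, nat_lit 31]

theorem pk10_0 : partOK (nat_lit 90) k10_0 q10_0 b10_0 ds10 y10_0 z10_0 (nat_lit 0) (nat_lit 9) = true := by
  decide +kernel

def y10_1 : List Nat := [nat_lit 15, nat_lit 17, nat_lit 19, nat_lit 21, nat_lit 23, nat_lit 25, nat_lit 27, nat_lit 29, nat_lit 31]

def z10_1 : List Nat := [nat_lit 33, nat_lit 48, nat_lit 50, nat_lit 52, nat_lit 54, nat_lit 58, nat_lit 59, nat_lit 60, nat_lit 60, nat_lit 61, nat_lit 63, nat_lit 65, nat_lit 66, nat_lit 66, nat_lit 67, nat_lit 67, nat_lit 68, nat_lit 69, nat_lit 69, nat_lit 71, nat_lit 71, nat_lit 72, nat_lit 73, nat_lit 73, nat_lit 75, nat_lit 78, nat_lit 78, nat_lit 80, nat_lit 82, nat_lit 82, nat_lit 84, nat_lit 84, nat_lit 86, nat_lit 88, nat_lit 90]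

theorem pk10_1 : partOK (nat_lit 90) k10_1 q10_1 b10_1 ds10 y10_1 z10_1 (nat_lit 9) (nat_lit 44) = true := by
  decide +kernel

def y11_0 : List Nat := []

def z11_0 : List Nat := [nat_lit 16, nat_lit 18, nat_lit 20, nat_lit 22, nat_lit 24, nat_lit 27, nat_lit 29, nat_lit 31, nat_lit 33]

theorem pk11_0 : partOK (nat_lit 90) k11_0 q11_0 b11_0 ds11 y11_0 z11_0 (nat_lit 0) (nat_lit 9) = true := by
  decide +kernel

def y11_1 : List Nat := [nat_lit 16, nat_lit 18, nat_lit 20, nat_lit 22, nat_lit 24, nat_lit 27, nat_lit 29, nat_lit 31, nat_lit 33]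

def z11_1 : List Nat := [nat_lit 35, nat_lit 49, nat_lit 51, nat_lit 54, nat_lit 56, nat_lit 58, nat_lit 60, nat_lit 60, nat_lit 62, nat_lit 62, nat_lit 64, nat_lit 66, nat_lit 66, nat_lit 67, nat_lit 68, nat_lit 69, nat_lit 69, nat_lit 71, nat_lit 71, nat_lit 72, nat_lit 73, nat_lit 73, nat_lit 75, nat_lit 75, nat_lit 77, nat_lit 78, nat_lit 79, nat_lit 81, nat_lit 82, nat_lit 84, nat_lit 84, nat_lit 86, nat_lit 86, nat_lit 88, nat_lit 90]

theorem pk11_1 : partOK (nat_lit 90) k11_1 q11_1 b11_1 ds11 y11_1 z11_1 (nat_lit 9) (nat_lit 44) = true := by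
  decide +kernel

def y12_0 : List Nat := []

def z12_0 : List Nat := [nat_lit 18, nat_lit 20, nat_lit 22, nat_lit 24, nat_lit 26, nat_lit 28, nat_lit 30, nat_lit 32]

theorem pk12_0 : partOK (nat_lit 90) k12_0 q12_0 b12_0 ds12 y12_0 z12_0 (nat_lit 0) (nat_lit 8) = true := by
  decide +kernel

def y12_1 : List Nat := [nat_lit 18, nat_lit 20, nat_lit 22, nat_lit 24, nat_lit 26, nat_lit 28, nat_lit 30, nat_lit 32]

def z12_1 : List Nat := [nat_lit 34, nat_lit 36, nat_lit 51, nat_lit 53, nat_lit 55, nat_lit 57, nat_lit 59, nat_lit 61, nat_lit 62, nat_lit 63, nat_lit 64, nat_lit 66, nat_lit 68, nat_lit 69, nat_lit 70, nat_lit 70, nat_lit 72, nat_lit 72, nat_lit 74, nat_lit 74, nat_lit 75, nat_lit 76, nat_lit 78, nat_lit 80, nat_lit 81, nat_lit 81, nat_lit 83, nat_lit 85, nat_lit 85, nat_lit 87, nat_lit 87, nat_lit 89]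

theorem pk12_1 : partOK (nat_lit 90) k12_1 q12_1 b12_1 ds12 y12_1 z12_1 (nat_lit 8) (nat_lit 40) = true := by
  decide +kernel

def y13_0 : List Nat := []

def z13_0 : List Nat := [nat_lit 19, nat_lit 21, nat_lit 23, nat_lit 25, nat_lit 27, nat_lit 30, nat_lit 32]

theorem pk13_0 : partOK (nat_lit 90) k13_0 q13_0 b13_0 ds13 y13_0 z13_0 (nat_lit 0) (nat_lit 7) = true := by
  decide +kernel

def y13_1 : List Nat := [nat_lit 19, nat_lit 21, nat_lit 23, nat_lit 25, nat_lit 27, nat_lit 30, nat_lit 32]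

def z13_1 : List Nat := [nat_lit 34, nat_lit 36, nat_lit 38, nat_lit 52, nat_lit 54, nat_lit 57, nat_lit 59, nat_lit 61, nat_lit 63, nat_lit 63, nat_lit 65, nat_lit 65, nat_lit 67, nat_lit 69, nat_lit 71, nat_lit 74, nat_lit 74, nat_lit 76, nat_lit 76, nat_lit 78, nat_lit 80, nat_lit 81, nat_lit 82, nat_lit 85, nat_lit 87, nat_lit 87, nat_lit 89]

theorem pk13_1 : partOK (nat_lit 90) k13_1 q13_1 b13_1 ds13 y13_1 z13_1 (nat_lit 7) (nat_lit 34) = true := by
  decide +kernel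

def y14_0 : List Nat := []

def z14_0 : List Nat := [nat_lit 21, nat_lit 23, nat_lit 25, nat_lit 27, nat_lit 29, nat_lit 31, nat_lit 33]

theorem pk14_0 : partOK (nat_lit 90) k14_0 q14_0 b14_0 ds14 y14_0 z14_0 (nat_lit 0) (nat_lit 7) = true := by
  decide +kernel

def y14_1 : List Nat := [nat_lit 21, nat_lit 23, nat_lit 25, nat_lit 27, nat_lit 29, nat_lit 31, nat_lit 33]

def z14_1 : List Nat := [nat_lit 35, nat_lit 37, nat_lit 39, nat_lit 54, nat_lit 56, nat_lit 58, nat_lit 60, nat_lit 62, nat_lit 64, nat_lit 65, nat_lit 66, nat_lit 67, nat_lit 69, nat_lit 71, nat_lit 73, nat_lit 75, nat_lit 77, nat_lit 77, nat_lit 79, nat_lit 82, nat_lit 84, nat_lit 86, nat_lit 87, nat_lit 88, nat_lit 90]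

theorem pk14_1 : partOK (nat_lit 90) k14_1 q14_1 b14_1 ds14 y14_1 z14_1 (nat_lit 7) (nat_lit 32) = true := by
  decide +kernel

def y15_0 : List Nat := []

def z15_0 : List Nat := [nat_lit 22, nat_lit 24, nat_lit 26, nat_lit 28, nat_lit 30, nat_lit 33, nat_lit 35]

theorem pk15_0 : partOK (nat_lit 90) k15_0 q15_0 b15_0 ds15 y15_0 z15_0 (nat_lit 0) (nat_lit 7) = true := by
  decide +kernel

def y15_1 : List Nat := [nat_lit 22, nat_lit 24, nat_lit 26, nat_lit 28, nat_lit 30, nat_lit 33, nat_lit 35]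

def z15_1 : List Nat := [nat_lit 37, nat_lit 39, nat_lit 41, nat_lit 55, nat_lit 57, nat_lit 60, nat_lit 62, nat_lit 64, nat_lit 66, nat_lit 66, nat_lit 68, nat_lit 68, nat_lit 70, nat_lit 72, nat_lit 74, nat_lit 77, nat_lit 79, nat_lit 83, nat_lit 85, nat_lit 88, nat_lit 90, nat_lit 90]

theorem pk15_1 : partOK (nat_lit 90) k15_1 q15_1 b15_1 ds15 y15_1 z15_1 (nat_lit 7) (nat_lit 29) = true := by
  decide +kernel

def y16_0 : List Nat := []

def z16_0 : List Nat := [nat_lit 24, nat_lit 26, nat_lit 28, nat_lit 30, nat_lit 32, nat_lit 34, nat_lit 36, nat_lit 38, nat_lit 40, nat_lit 42, nat_lit 57, nat_lit 59, nat_lit 61, nat_lit 63, nat_lit 65, nat_lit 67, nat_lit 68, nat_lit 69, nat_lit 70, nat_lit 72, nat_lit 74, nat_lit 76, nat_lit 78, nat_lit 80, nat_lit 89, nat_lit 90]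

theorem pk16_0 : partOK (nat_lit 90) k16_0 q16_0 b16_0 ds16 y16_0 z16_0 (nat_lit 0) (nat_lit 26) = true := by
  decide +kernel

def y17_0 : List Nat := []

def z17_0 : List Nat := [nat_lit 25, nat_lit 27, nat_lit 29, nat_lit 31, nat_lit 33, nat_lit 36, nat_lit 38, nat_lit 40, nat_lit 42, nat_lit 44, nat_lit 58, nat_lit 60, nat_lit 63, nat_lit 65, nat_lit 67, nat_lit 69, nat_lit 69, nat_lit 71, nat_lit 71, nat_lit 73, nat_lit 75, nat_lit 77, nat_lit 80, nat_lit 82]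

theorem pk17_0 : partOK (nat_lit 90) k17_0 q17_0 b17_0 ds17 y17_0 z17_0 (nat_lit 0) (nat_lit 24) = true := by
  decide +kernel

def y18_0 : List Nat := []

def z18_0 : List Nat := [nat_lit 27, nat_lit 29, nat_lit 31, nat_lit 33, nat_lit 35, nat_lit 37, nat_lit 39, nat_lit 41, nat_lit 43, nat_lit 45, nat_lit 60, nat_lit 62, nat_lit 64, nat_lit 66, nat_lit 68, nat_lit 70, nat_lit 71, nat_lit 72, nat_lit 73, nat_lit 75, nat_lit 77, nat_lit 79, nat_lit 81, nat_lit 83]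

theorem pk18_0 : partOK (nat_lit 90) k18_0 q18_0 b18_0 ds18 y18_0 z18_0 (nat_lit 0) (nat_lit 24) = true := by
  decide +kernel

def y19_0 : List Nat := []

def z19_0 : List Nat := [nat_lit 28, nat_lit 30, nat_lit 32, nat_lit 34, nat_lit 36, nat_lit 39, nat_lit 41, nat_lit 43, nat_lit 45, nat_lit 47, nat_lit 61, nat_lit 63, nat_lit 66, nat_lit 68, nat_lit 70, nat_lit 72, nat_lit 72, nat_lit 74, nat_lit 74, nat_lit 76, nat_lit 78, nat_lit 80, nat_lit 83, nat_lit 85]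

theorem pk19_0 : partOK (nat_lit 90) k19_0 q19_0 b19_0 ds19 y19_0 z19_0 (nat_lit 0) (nat_lit 24) = true := by
  decide +kernel

def y20_0 : List Nat := []

def z20_0 : List Nat := [nat_lit 30, nat_lit 32, nat_lit 34, nat_lit 36, nat_lit 38, nat_lit 40, nat_lit 42, nat_lit 44, nat_lit 46, nat_lit 48, nat_lit 63, nat_lit 65, nat_lit 67, nat_lit 69, nat_lit 71, nat_lit 73, nat_lit 74, nat_lit 75, nat_lit 76, nat_lit 78, nat_lit 80, nat_lit 82, nat_lit 84, nat_lit 86]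

theorem pk20_0 : partOK (nat_lit 90) k20_0 q20_0 b20_0 ds20 y20_0 z20_0 (nat_lit 0) (nat_lit 24) = true := by
  decide +kernel

def y21_0 : List Nat := []

def z21_0 : List Nat := [nat_lit 31, nat_lit 33, nat_lit 35, nat_lit 37, nat_lit 39, nat_lit 42, nat_lit 44, nat_lit 46, nat_lit 48, nat_lit 50, nat_lit 64, nat_lit 66, nat_lit 69, nat_lit 71, nat_lit 73, nat_lit 75, nat_lit 75, nat_lit 77, nat_lit 77, nat_lit 79, nat_lit 81, nat_lit 83, nat_lit 86, nat_lit 88]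

theorem pk21_0 : partOK (nat_lit 90) k21_0 q21_0 b21_0 ds21 y21_0 z21_0 (nat_lit 0) (nat_lit 24) = true := by
  decide +kernel

def y22_0 : List Nat := []

def z22_0 : List Nat := [nat_lit 33, nat_lit 35, nat_lit 37, nat_lit 39, nat_lit 41, nat_lit 43, nat_lit 45, nat_lit 47, nat_lit 49, nat_lit 51, nat_lit 66, nat_lit 68, nat_lit 70, nat_lit 72, nat_lit 74, nat_lit 76, nat_lit 77, nat_lit 78, nat_lit 79, nat_lit 81, nat_lit 83, nat_lit 85, nat_lit 87, nat_lit 89]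

theorem pk22_0 : partOK (nat_lit 90) k22_0 q22_0 b22_0 ds22 y22_0 z22_0 (nat_lit 0) (nat_lit 24) = true := by
  decide +kernel

def y23_0 : List Nat := []

def z23_0 : List Nat := [nat_lit 34, nat_lit 36, nat_lit 38, nat_lit 40, nat_lit 42, nat_lit 45, nat_lit 47, nat_lit 49, nat_lit 51, nat_lit 53, nat_lit 67, nat_lit 69, nat_lit 72, nat_lit 74, nat_lit 76, nat_lit 78, nat_lit 78, nat_lit 80, nat_lit 80, nat_lit 82, nat_lit 84, nat_lit 86, nat_lit 89]

theorem pk23_0 : partOK (nat_lit 90) k23_0 q23_0 b23_0 ds23 y23_0 z23_0 (nat_lit 0) (nat_lit 23) = true := by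
  decide +kernel

def y24_0 : List Nat := []

def z24_0 : List Nat := [nat_lit 36, nat_lit 38, nat_lit 40, nat_lit 42, nat_lit 44, nat_lit 46, nat_lit 48, nat_lit 50, nat_lit 52, nat_lit 54, nat_lit 69, nat_lit 71, nat_lit 73, nat_lit 75, nat_lit 77, nat_lit 79, nat_lit 80, nat_lit 81, nat_lit 82, nat_lit 84, nat_lit 86, nat_lit 88, nat_lit 90]

theorem pk24_0 : partOK (nat_lit 90) k24_0 q24_0 b24_0 ds24 y24_0 z24_0 (nat_lit 0) (nat_lit 23) = true := by
  decide +kernel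

def y25_0 : List Nat := []

def z25_0 : List Nat := [nat_lit 37, nat_lit 39, nat_lit 41, nat_lit 43, nat_lit 45, nat_lit 48, nat_lit 50, nat_lit 52, nat_lit 54, nat_lit 56, nat_lit 70, nat_lit 72, nat_lit 75, nat_lit 77, nat_lit 79, nat_lit 81, nat_lit 81, nat_lit 83, nat_lit 83, nat_lit 85, nat_lit 87, nat_lit 89]

theorem pk25_0 : partOK (nat_lit 90) k25_0 q25_0 b25_0 ds25 y25_0 z25_0 (nat_lit 0) (nat_lit 22) = true := by
  decide +kernel

def y26_0 : List Nat := []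

def z26_0 : List Nat := [nat_lit 39, nat_lit 41, nat_lit 43, nat_lit 45, nat_lit 47, nat_lit 49, nat_lit 51, nat_lit 53, nat_lit 55, nat_lit 57, nat_lit 72, nat_lit 74, nat_lit 76, nat_lit 78, nat_lit 80, nat_lit 82, nat_lit 83, nat_lit 84, nat_lit 85, nat_lit 87, nat_lit 89]

theorem pk26_0 : partOK (nat_lit 90) k26_0 q26_0 b26_0 ds26 y26_0 z26_0 (nat_lit 0) (nat_lit 21) = true := by
  decide +kernel

def y27_0 : List Nat := []

def z27_0 : List Nat := [nat_lit 40, nat_lit 42, nat_lit 44, nat_lit 46, nat_lit 48, nat_lit 51, nat_lit 53, nat_lit 55, nat_lit 57, nat_lit 59, nat_lit 73, nat_lit 75, nat_lit 78, nat_lit 80, nat_lit 82, nat_lit 84, nat_lit 84, nat_lit 86, nat_lit 86, nat_lit 88, nat_lit 90]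

theorem pk27_0 : partOK (nat_lit 90) k27_0 q27_0 b27_0 ds27 y27_0 z27_0 (nat_lit 0) (nat_lit 21) = true := by
  decide +kernel

def y28_0 : List Nat := []

def z28_0 : List Nat := [nat_lit 42, nat_lit 44, nat_lit 46, nat_lit 48, nat_lit 50, nat_lit 52, nat_lit 54, nat_lit 56, nat_lit 58, nat_lit 60, nat_lit 75, nat_lit 77, nat_lit 79, nat_lit 81, nat_lit 83, nat_lit 85, nat_lit 86, nat_lit 87, nat_lit 88, nat_lit 90]

theorem pk28_0 : partOK (nat_lit 90) k28_0 q28_0 b28_0 ds28 y28_0 z28_0 (nat_lit 0) (nat_lit 20) = true := by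
  decide +kernel

def y29_0 : List Nat := []

def z29_0 : List Nat := [nat_lit 43, nat_lit 45, nat_lit 47, nat_lit 49, nat_lit 51, nat_lit 54, nat_lit 56, nat_lit 58, nat_lit 60, nat_lit 62, nat_lit 76, nat_lit 78, nat_lit 81, nat_lit 83, nat_lit 85, nat_lit 87, nat_lit 87, nat_lit 89, nat_lit 89]

theorem pk29_0 : partOK (nat_lit 90) k29_0 q29_0 b29_0 ds29 y29_0 z29_0 (nat_lit 0) (nat_lit 19) = true := by
  decide +kernel

def y30_0 : List Nat := []

def z30_0 : List Nat := [nat_lit 45, nat_lit 47, nat_lit 49, nat_lit 51, nat_lit 53, nat_lit 55, nat_lit 57, nat_lit 59, nat_lit 61, nat_lit 63, nat_lit 78, nat_lit 80, nat_lit 82, nat_lit 84, nat_lit 86, nat_lit 88, nat_lit 89, nat_lit 90]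

theorem pk30_0 : partOK (nat_lit 90) k30_0 q30_0 b30_0 ds30 y30_0 z30_0 (nat_lit 0) (nat_lit 18) = true := by
  decide +kernel

def y31_0 : List Nat := []

def z31_0 : List Nat := [nat_lit 46, nat_lit 48, nat_lit 50, nat_lit 52, nat_lit 54, nat_lit 57, nat_lit 59, nat_lit 61, nat_lit 63, nat_lit 65, nat_lit 79, nat_lit 81, nat_lit 84, nat_lit 86, nat_lit 88, nat_lit 90, nat_lit 90]

theorem pk31_0 : partOK (nat_lit 90) k31_0 q31_0 b31_0 ds31 y31_0 z31_0 (nat_lit 0) (nat_lit 17) = true := by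
  decide +kernel

def y32_0 : List Nat := []

def z32_0 : List Nat := [nat_lit 48, nat_lit 50, nat_lit 52, nat_lit 54, nat_lit 56, nat_lit 58, nat_lit 60, nat_lit 62, nat_lit 64, nat_lit 66, nat_lit 81, nat_lit 83, nat_lit 85, nat_lit 87, nat_lit 89]

theorem pk32_0 : partOK (nat_lit 90) k32_0 q32_0 b32_0 ds32 y32_0 z32_0 (nat_lit 0) (nat_lit 15) = true := by
  decide +kernel

def y33_0 : List Nat := []

def z33_0 : List Nat := [nat_lit 49, nat_lit 51, nat_lit 53, nat_lit 55, nat_lit 57, nat_lit 60, nat_lit 62, nat_lit 64, nat_lit 66, nat_lit 68, nat_lit 82, nat_lit 84, nat_lit 87, nat_lit 89]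

theorem pk33_0 : partOK (nat_lit 90) k33_0 q33_0 b33_0 ds33 y33_0 z33_0 (nat_lit 0) (nat_lit 14) = true := by
  decide +kernel

def y34_0 : List Nat := []

def z34_0 : List Nat := [nat_lit 51, nat_lit 53, nat_lit 55, nat_lit 57, nat_lit 59, nat_lit 61, nat_lit 63, nat_lit 65, nat_lit 67, nat_lit 69, nat_lit 84, nat_lit 86, nat_lit 88, nat_lit 90]

theorem pk34_0 : partOK (nat_lit 90) k34_0 q34_0 b34_0 ds34 y34_0 z34_0 (nat_lit 0) (nat_lit 14) = true := by
  decide +kernel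

end Vale.Agent.P236C.D

end
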