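import Vale.Agent.P236C.D.X1_0

noncomputable section

namespace Vale.Agent.P236C.D

def xs1 : List XD := [x1_0, x1_1, x1_2, x1_3, x1_4]

end Vale.Agent.P236C.D

end
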