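import Vale.Agent.P236C.D.X10_0

noncomputable section

namespace Vale.Agent.P236C.D

def xs10 : List XD := [x10_0, x10_1, x10_2, x10_3, x10_4, x10_5, x10_6, x10_7, x10_8, x10_9, x10_10, x10_11, x10_12, x10_13, x10_14, x10_15, x10_16, x10_17, x10_18, x10_19, x10_20, x10_21, x10_22, x10_23, x10_24, x10_25, x10_26, x10_27, x10_28, x10_29, x10_30, x10_31, x10_32, x10_33, x10_34, x10_35, x10_36, x10_37, x10_38, x10_39, x10_40, x10_41, x10_42, x10_43]

end Vale.Agent.P236C.D

end
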