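import Vale.Agent.P236C.D.X11_0

noncomputable section

namespace Vale.Agent.P236C.D

def xs11 : List XD := [x11_0, x11_1, x11_2, x11_3, x11_4, x11_5, x11_6, x11_7, x11_8, x11_9, x11_10, x11_11, x11_12, x11_13, x11_14, x11_15, x11_16, x11_17, x11_18, x11_19, x11_20, x11_21, x11_22, x11_23, x11_24, x11_25, x11_26, x11_27, x11_28, x11_29, x11_30, x11_31, x11_32, x11_33, x11_34, x11_35, x11_36, x11_37, x11_38, x11_39, x11_40, x11_41, x11_42, x11_43]

end Vale.Agent.P236C.D

end
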