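import Vale.Agent.P236C.D.X12_0

noncomputable section

namespace Vale.Agent.P236C.D

def xs12 : List XD := [x12_0, x12_1, x12_2, x12_3, x12_4, x12_5, x12_6, x12_7, x12_8, x12_9, x12_10, x12_11, x12_12, x12_13, x12_14, x12_15, x12_16, x12_17, x12_18, x12_19, x12_20, x12_21, x12_22, x12_23, x12_24, x12_25, x12_26, x12_27, x12_28, x12_29, x12_30, x12_31, x12_32, x12_33, x12_34, x12_35, x12_36, x12_37, x12_38, x12_39]

end Vale.Agent.P236C.D

end
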