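import Vale.Agent.P236C.D.X13_0

noncomputable section

namespace Vale.Agent.P236C.D

def xs13 : List XD := [x13_0, x13_1, x13_2, x13_3, x13_4, x13_5, x13_6, x13_7, x13_8, x13_9, x13_10, x13_11, x13_12, x13_13, x13_14, x13_15, x13_16, x13_17, x13_18, x13_19, x13_20, x13_21, x13_22, x13_23, x13_24, x13_25, x13_26, x13_27, x13_28, x13_29, x13_30, x13_31, x13_32, x13_33]

end Vale.Agent.P236C.D

end
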