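import Vale.Agent.P236C.D.X14_0

noncomputable section

namespace Vale.Agent.P236C.D

def xs14 : List XD := [x14_0, x14_1, x14_2, x14_3, x14_4, x14_5, x14_6, x14_7, x14_8, x14_9, x14_10, x14_11, x14_12, x14_13, x14_14, x14_15, x14_16, x14_17, x14_18, x14_19, x14_20, x14_21, x14_22, x14_23, x14_24, x14_25, x14_26, x14_27, x14_28, x14_29, x14_30, x14_31]

end Vale.Agent.P236C.D

end
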