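import Vale.Agent.P236C.D.X15_0

noncomputable section

namespace Vale.Agent.P236C.D

def xs15 : List XD := [x15_0, x15_1, x15_2, x15_3, x15_4, x15_5, x15_6, x15_7, x15_8, x15_9, x15_10, x15_11, x15_12, x15_13, x15_14, x15_15, x15_16, x15_17, x15_18, x15_19, x15_20, x15_21, x15_22, x15_23, x15_24, x15_25, x15_26, x15_27, x15_28]

end Vale.Agent.P236C.D

end
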