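import Vale.Agent.P236C.D.X17_0

noncomputable section

namespace Vale.Agent.P236C.D

def xs17 : List XD := [x17_0, x17_1, x17_2, x17_3, x17_4, x17_5, x17_6, x17_7, x17_8, x17_9, x17_10, x17_11, x17_12, x17_13, x17_14, x17_15, x17_16, x17_17, x17_18, x17_19, x17_20, x17_21, x17_22, x17_23]

end Vale.Agent.P236C.D

end
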