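import Vale.Agent.P236C.D.X18_0

noncomputable section

namespace Vale.Agent.P236C.D

def xs18 : List XD := [x18_0, x18_1, x18_2, x18_3, x18_4, x18_5, x18_6, x18_7, x18_8, x18_9, x18_10, x18_11, x18_12, x18_13, x18_14, x18_15, x18_16, x18_17, x18_18, x18_19, x18_20, x18_21, x18_22, x18_23]

end Vale.Agent.P236C.D

end
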