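import Vale.Agent.P236C.D.X19_0

noncomputable section

namespace Vale.Agent.P236C.D

def xs19 : List XD := [x19_0, x19_1, x19_2, x19_3, x19_4, x19_5, x19_6, x19_7, x19_8, x19_9, x19_10, x19_11, x19_12, x19_13, x19_14, x19_15, x19_16, x19_17, x19_18, x19_19, x19_20, x19_21, x19_22, x19_23]

end Vale.Agent.P236C.D

end
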