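import Vale.Agent.P236C.D.X2_0

noncomputable section

namespace Vale.Agent.P236C.D

def xs2 : List XD := [x2_0, x2_1, x2_2, x2_3, x2_4, x2_5, x2_6, x2_7, x2_8, x2_9, x2_10, x2_11, x2_12, x2_13, x2_14, x2_15]

end Vale.Agent.P236C.D

end
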