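import Vale.Agent.P236C.D.X20_0

noncomputable section

namespace Vale.Agent.P236C.D

def xs20 : List XD := [x20_0, x20_1, x20_2, x20_3, x20_4, x20_5, x20_6, x20_7, x20_8, x20_9, x20_10, x20_11, x20_12, x20_13, x20_14, x20_15, x20_16, x20_17, x20_18, x20_19, x20_20, x20_21, x20_22, x20_23]

end Vale.Agent.P236C.D

end
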