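import Vale.Agent.P236C.D.X21_0

noncomputable section

namespace Vale.Agent.P236C.D

def xs21 : List XD := [x21_0, x21_1, x21_2, x21_3, x21_4, x21_5, x21_6, x21_7, x21_8, x21_9, x21_10, x21_11, x21_12, x21_13, x21_14, x21_15, x21_16, x21_17, x21_18, x21_19, x21_20, x21_21, x21_22, x21_23]

end Vale.Agent.P236C.D

end
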