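import Vale.Agent.P236C.D.X22_0

noncomputable section

namespace Vale.Agent.P236C.D

def xs22 : List XD := [x22_0, x22_1, x22_2, x22_3, x22_4, x22_5, x22_6, x22_7, x22_8, x22_9, x22_10, x22_11, x22_12, x22_13, x22_14, x22_15, x22_16, x22_17, x22_18, x22_19, x22_20, x22_21, x22_22, x22_23]

end Vale.Agent.P236C.D

end
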