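import Vale.Agent.P236C.D.X23_0

noncomputable section

namespace Vale.Agent.P236C.D

def xs23 : List XD := [x23_0, x23_1, x23_2, x23_3, x23_4, x23_5, x23_6, x23_7, x23_8, x23_9, x23_10, x23_11, x23_12, x23_13, x23_14, x23_15, x23_16, x23_17, x23_18, x23_19, x23_20, x23_21, x23_22]

end Vale.Agent.P236C.D

end
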