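import Vale.Agent.P236C.D.X24_0

noncomputable section

namespace Vale.Agent.P236C.D

def xs24 : List XD := [x24_0, x24_1, x24_2, x24_3, x24_4, x24_5, x24_6, x24_7, x24_8, x24_9, x24_10, x24_11, x24_12, x24_13, x24_14, x24_15, x24_16, x24_17, x24_18, x24_19, x24_20, x24_21, x24_22]

end Vale.Agent.P236C.D

end
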