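import Vale.Agent.P236C.D.X25_0

noncomputable section

namespace Vale.Agent.P236C.D

def xs25 : List XD := [x25_0, x25_1, x25_2, x25_3, x25_4, x25_5, x25_6, x25_7, x25_8, x25_9, x25_10, x25_11, x25_12, x25_13, x25_14, x25_15, x25_16, x25_17, x25_18, x25_19, x25_20, x25_21]

end Vale.Agent.P236C.D

end
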