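import Vale.Agent.P236C.D.X26_0

noncomputable section

namespace Vale.Agent.P236C.D

def xs26 : List XD := [x26_0, x26_1, x26_2, x26_3, x26_4, x26_5, x26_6, x26_7, x26_8, x26_9, x26_10, x26_11, x26_12, x26_13, x26_14, x26_15, x26_16, x26_17, x26_18, x26_19, x26_20]

end Vale.Agent.P236C.D

end
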