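import Vale.Agent.P236C.D.X27_0

noncomputable section

namespace Vale.Agent.P236C.D

def xs27 : List XD := [x27_0, x27_1, x27_2, x27_3, x27_4, x27_5, x27_6, x27_7, x27_8, x27_9, x27_10, x27_11, x27_12, x27_13, x27_14, x27_15, x27_16, x27_17, x27_18, x27_19, x27_20]

end Vale.Agent.P236C.D

end
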