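import Vale.Agent.P236C.D.X28_0

noncomputable section

namespace Vale.Agent.P236C.D

def xs28 : List XD := [x28_0, x28_1, x28_2, x28_3, x28_4, x28_5, x28_6, x28_7, x28_8, x28_9, x28_10, x28_11, x28_12, x28_13, x28_14, x28_15, x28_16, x28_17, x28_18, x28_19]

end Vale.Agent.P236C.D

end
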