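import Vale.Agent.P236C.D.X29_0

noncomputable section

namespace Vale.Agent.P236C.D

def xs29 : List XD := [x29_0, x29_1, x29_2, x29_3, x29_4, x29_5, x29_6, x29_7, x29_8, x29_9, x29_10, x29_11, x29_12, x29_13, x29_14, x29_15, x29_16, x29_17, x29_18]

end Vale.Agent.P236C.D

end
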