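import Vale.Agent.P236C.D.X3_0
import Vale.Agent.P236C.D.X3_1

noncomputable section

namespace Vale.Agent.P236C.D

def xs3 : List XD := [x3_0, x3_1, x3_2, x3_3, x3_4, x3_5, x3_6, x3_7, x3_8, x3_9, x3_10, x3_11, x3_12, x3_13, x3_14, x3_15, x3_16, x3_17, x3_18, x3_19, x3_20, x3_21, x3_22, x3_23, x3_24, x3_25, x3_26, x3_27, x3_28, x3_29, x3_30]

end Vale.Agent.P236C.D

end
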