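import Vale.Agent.P236C.D.X30_0

noncomputable section

namespace Vale.Agent.P236C.D

def xs30 : List XD := [x30_0, x30_1, x30_2, x30_3, x30_4, x30_5, x30_6, x30_7, x30_8, x30_9, x30_10, x30_11, x30_12, x30_13, x30_14, x30_15, x30_16, x30_17]

end Vale.Agent.P236C.D

end
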