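import Vale.Agent.P236C.D.X31_0

noncomputable section

namespace Vale.Agent.P236C.D

def xs31 : List XD := [x31_0, x31_1, x31_2, x31_3, x31_4, x31_5, x31_6, x31_7, x31_8, x31_9, x31_10, x31_11, x31_12, x31_13, x31_14, x31_15, x31_16]

end Vale.Agent.P236C.D

end
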