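import Vale.Agent.P236C.D.X32_0

noncomputable section

namespace Vale.Agent.P236C.D

def xs32 : List XD := [x32_0, x32_1, x32_2, x32_3, x32_4, x32_5, x32_6, x32_7, x32_8, x32_9, x32_10, x32_11, x32_12, x32_13, x32_14]

end Vale.Agent.P236C.D

end
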