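import Vale.Agent.P236C.D.X4_0
import Vale.Agent.P236C.D.X4_1

noncomputable section

namespace Vale.Agent.P236C.D

def xs4 : List XD := [x4_0, x4_1, x4_2, x4_3, x4_4, x4_5, x4_6, x4_7, x4_8, x4_9, x4_10, x4_11, x4_12, x4_13, x4_14, x4_15, x4_16, x4_17, x4_18, x4_19, x4_20, x4_21, x4_22, x4_23, x4_24, x4_25, x4_26, x4_27, x4_28, x4_29, x4_30, x4_31, x4_32, x4_33, x4_34, x4_35, x4_36, x4_37, x4_38, x4_39, x4_40]

end Vale.Agent.P236C.D

end
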