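import Vale.Agent.P236C.D.X5_0
import Vale.Agent.P236C.D.X5_1

noncomputable section

namespace Vale.Agent.P236C.D

def xs5 : List XD := [x5_0, x5_1, x5_2, x5_3, x5_4, x5_5, x5_6, x5_7, x5_8, x5_9, x5_10, x5_11, x5_12, x5_13, x5_14, x5_15, x5_16, x5_17, x5_18, x5_19, x5_20, x5_21, x5_22, x5_23, x5_24, x5_25, x5_26, x5_27, x5_28, x5_29, x5_30, x5_31, x5_32, x5_33, x5_34, x5_35, x5_36, x5_37, x5_38, x5_39, x5_40, x5_41, x5_42, x5_43, x5_44]

end Vale.Agent.P236C.D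

end
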