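import Vale.Agent.P236C.D.X6_0

noncomputable section

namespace Vale.Agent.P236C.D

def xs6 : List XD := [x6_0, x6_1, x6_2, x6_3, x6_4, x6_5, x6_6, x6_7, x6_8, x6_9, x6_10, x6_11, x6_12, x6_13, x6_14, x6_15, x6_16, x6_17, x6_18, x6_19, x6_20, x6_21, x6_22, x6_23, x6_24, x6_25, x6_26, x6_27, x6_28, x6_29, x6_30, x6_31, x6_32, x6_33, x6_34, x6_35, x6_36, x6_37, x6_38, x6_39, x6_40, x6_41, x6_42, x6_43]

end Vale.Agent.P236C.D

end
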