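import Vale.Agent.P236C.D.X7_0

noncomputable section

namespace Vale.Agent.P236C.D

def xs7 : List XD := [x7_0, x7_1, x7_2, x7_3, x7_4, x7_5, x7_6, x7_7, x7_8, x7_9, x7_10, x7_11, x7_12, x7_13, x7_14, x7_15, x7_16, x7_17, x7_18, x7_19, x7_20, x7_21, x7_22, x7_23, x7_24, x7_25, x7_26, x7_27, x7_28, x7_29, x7_30, x7_31, x7_32, x7_33, x7_34, x7_35, x7_36, x7_37, x7_38, x7_39, x7_40]

end Vale.Agent.P236C.D

end
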