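import Vale.Agent.P236C.D.X8_0

noncomputable section

namespace Vale.Agent.P236C.D

def xs8 : List XD := [x8_0, x8_1, x8_2, x8_3, x8_4, x8_5, x8_6, x8_7, x8_8, x8_9, x8_10, x8_11, x8_12, x8_13, x8_14, x8_15, x8_16, x8_17, x8_18, x8_19, x8_20, x8_21, x8_22, x8_23, x8_24, x8_25, x8_26, x8_27, x8_28, x8_29, x8_30, x8_31, x8_32, x8_33, x8_34, x8_35, x8_36, x8_37, x8_38, x8_39]

end Vale.Agent.P236C.D

end
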