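import Vale.Agent.P236C.D.X9_0

noncomputable section

namespace Vale.Agent.P236C.D

def xs9 : List XD := [x9_0, x9_1, x9_2, x9_3, x9_4, x9_5, x9_6, x9_7, x9_8, x9_9, x9_10, x9_11, x9_12, x9_13, x9_14, x9_15, x9_16, x9_17, x9_18, x9_19, x9_20, x9_21, x9_22, x9_23, x9_24, x9_25, x9_26, x9_27, x9_28, x9_29, x9_30, x9_31, x9_32, x9_33, x9_34, x9_35, x9_36, x9_37, x9_38, x9_39, x9_40, x9_41, x9_42]

end Vale.Agent.P236C.D

end
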