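import Vale.Agent.P236C.D.X33_0

noncomputable section

namespace Vale.Agent.P236C.D

def xs33 : List XD := [x33_0, x33_1, x33_2, x33_3, x33_4, x33_5, x33_6, x33_7, x33_8, x33_9, x33_10, x33_11, x33_12, x33_13]

end Vale.Agent.P236C.D

end
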