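import Vale.Agent.P236C.Exec

noncomputable section

namespace Vale.Agent.P236C.D

def e0_0_0_0 : A3 := [[ RL.nil, RL.nil, RL.nil, RL.nil, RL.nil, RL.nil, RL.nil], [ RL.nil, RL.nil, RL.nil, RL.nil], [ RL.nil]]

end Vale.Agent.P236C.D

end
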