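import Vale.Agent.P236C.D.Xs0
import Vale.Agent.P236C.D.E0_0_0

noncomputable section

namespace Vale.Agent.P236C.D

def c0_0 : List (List (Nat × A3)) := [[(nat_lit 27, e0_0_0_0)]]

def j0_0 : List Job := jobsA (nat_lit 90) xs0 c0_0

end Vale.Agent.P236C.D

end
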