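import Vale.Agent.P236C.D.Xs10
import Vale.Agent.P236C.D.E10_0_0

noncomputable section

namespace Vale.Agent.P236C.D

def c10_0 : List (List (Nat × A3)) := [[(nat_lit 33, e10_0_0_0)],
  [(nat_lit 42, e10_0_1_0)]]

def j10_0 : List Job := jobsA (nat_lit 90) xs10 c10_0

end Vale.Agent.P236C.D

end
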