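import Vale.Agent.P236C.D.Xs10
import Vale.Agent.P236C.D.E10_1_0

noncomputable section

namespace Vale.Agent.P236C.D

def c10_1 : List (List (Nat × A3)) := [[(nat_lit 33, e10_1_0_0)],
  [(nat_lit 44, e10_1_1_0)]]

def j10_1 : List Job := jobsA (nat_lit 90) xs10 c10_1

end Vale.Agent.P236C.D

end
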