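import Vale.Agent.P236C.D.Xs13
import Vale.Agent.P236C.D.E13_0_0

noncomputable section

namespace Vale.Agent.P236C.D

def c13_0 : List (List (Nat × A3)) := [[(nat_lit 60, e13_0_0_0)]]

def j13_0 : List Job := jobsA (nat_lit 90) xs13 c13_0

end Vale.Agent.P236C.D

end
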