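import Vale.Agent.P236C.D.Xs1
import Vale.Agent.P236C.D.E1_0_0

noncomputable section

namespace Vale.Agent.P236C.D

def c1_0 : List (List (Nat × A3)) := [[(nat_lit 12, e1_0_0_0), (nat_lit 22, e1_0_0_1), (nat_lit 34, e1_0_0_2)],
  [(nat_lit 16, e1_0_1_0), (nat_lit 29, e1_0_1_1), (nat_lit 57, e1_0_1_2)],
  [(nat_lit 25, e1_0_2_0)]]

def j1_0 : List Job := jobsA (nat_lit 90) xs1 c1_0

end Vale.Agent.P236C.D

end
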