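import Vale.Agent.P236C.D.Xs23

noncomputable section

namespace Vale.Agent.P236C.D

def c23_0 : List (List (Nat × A3)) := []

def j23_0 : List Job := jobsA (nat_lit 90) xs23 c23_0

end Vale.Agent.P236C.D

end
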