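import Vale.Agent.P236C.D.Xs28

noncomputable section

namespace Vale.Agent.P236C.D

def c28_0 : List (List (Nat × A3)) := []

def j28_0 : List Job := jobsA (nat_lit 90) xs28 c28_0

end Vale.Agent.P236C.D

end
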