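import Vale.Agent.P236C.D.Xs2
import Vale.Agent.P236C.D.E2_0_0
import Vale.Agent.P236C.D.E2_0_1
import Vale.Agent.P236C.D.E2_0_2

noncomputable section

namespace Vale.Agent.P236C.D

def c2_0 : List (List (Nat × A3)) := [[(nat_lit 9, e2_0_0_0), (nat_lit 16, e2_0_0_1), (nat_lit 24, e2_0_0_2), (nat_lit 32, e2_0_0_3), (nat_lit 45, e2_0_0_4)],
  [(nat_lit 9, e2_0_1_0), (nat_lit 17, e2_0_1_1), (nat_lit 25, e2_0_1_2), (nat_lit 36, e2_0_1_3), (nat_lit 68, e2_0_1_4)],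
  [(nat_lit 10, e2_0_2_0), (nat_lit 20, e2_0_2_1), (nat_lit 30, e2_0_2_2), (nat_lit 48, e2_0_2_3)],
  [(nat_lit 18, e2_0_3_0), (nat_lit 33, e2_0_3_1)],
  [(nat_lit 8, e2_0_4_0), (nat_lit 16, e2_0_4_1), (nat_lit 25, e2_0_4_2), (nat_lit 39, e2_0_4_3)],
  [(nat_lit 18, e2_0_5_0), (nat_lit 37, e2_0_5_1)],
  [(nat_lit 31, e2_0_6_0)],
  [],
  [(nat_lit 30, e2_0_8_0)]]

def j2_0 : List Job := jobsA (nat_lit 90) xs2 c2_0

end Vale.Agent.P236C.D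

end
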