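import Vale.Agent.P236C.D.Xs2
import Vale.Agent.P236C.D.E2_1_0
import Vale.Agent.P236C.D.E2_1_1

noncomputable section

namespace Vale.Agent.P236C.D

def c2_1 : List (List (Nat × A3)) := [[(nat_lit 9, e2_1_0_0), (nat_lit 17, e2_1_0_1), (nat_lit 25, e2_1_0_2), (nat_lit 36, e2_1_0_3), (nat_lit 63, e2_1_0_4)],
  [(nat_lit 9, e2_1_1_0), (nat_lit 18, e2_1_1_1), (nat_lit 27, e2_1_1_2), (nat_lit 40, e2_1_1_3)],
  [(nat_lit 11, e2_1_2_0), (nat_lit 21, e2_1_2_1), (nat_lit 33, e2_1_2_2)],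
  [(nat_lit 18, e2_1_3_0), (nat_lit 36, e2_1_3_1)],
  [(nat_lit 9, e2_1_4_0), (nat_lit 18, e2_1_4_1), (nat_lit 28, e2_1_4_2), (nat_lit 51, e2_1_4_3)],
  [(nat_lit 19, e2_1_5_0), (nat_lit 45, e2_1_5_1)],
  [(nat_lit 37, e2_1_6_0)],
  [],
  [(nat_lit 39, e2_1_8_0)]]

def j2_1 : List Job := jobsA (nat_lit 90) xs2 c2_1

end Vale.Agent.P236C.D

end
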