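import Vale.Agent.P236C.D.Xs3
import Vale.Agent.P236C.D.E3_0_0
import Vale.Agent.P236C.D.E3_0_1
import Vale.Agent.P236C.D.E3_0_2
import Vale.Agent.P236C.D.E3_0_3

noncomputable section

namespace Vale.Agent.P236C.D

def c3_0 : List (List (Nat × A3)) := [[(nat_lit 4, e3_0_0_0), (nat_lit 9, e3_0_0_1), (nat_lit 13, e3_0_0_2), (nat_lit 18, e3_0_0_3), (nat_lit 22, e3_0_0_4), (nat_lit 27, e3_0_0_5), (nat_lit 33, e3_0_0_6), (nat_lit 42, e3_0_0_7), (nat_lit 64, e3_0_0_8)],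
  [(nat_lit 5, e3_0_1_0), (nat_lit 10, e3_0_1_1), (nat_lit 15, e3_0_1_2), (nat_lit 20, e3_0_1_3), (nat_lit 26, e3_0_1_4), (nat_lit 34, e3_0_1_5), (nat_lit 46, e3_0_1_6)],
  [(nat_lit 6, e3_0_2_0), (nat_lit 12, e3_0_2_1), (nat_lit 18, e3_0_2_2), (nat_lit 24, e3_0_2_3), (nat_lit 31, e3_0_2_4), (nat_lit 43, e3_0_2_5)],
  [(nat_lit 6, e3_0_3_0), (nat_lit 12, e3_0_3_1), (nat_lit 18, e3_0_3_2), (nat_lit 25, e3_0_3_3), (nat_lit 36, e3_0_3_4)],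
  [(nat_lit 8, e3_0_4_0), (nat_lit 16, e3_0_4_1), (nat_lit 24, e3_0_4_2), (nat_lit 36, e3_0_4_3)],
  [(nat_lit 23, e3_0_5_0)],
  [(nat_lit 10, e3_0_6_0), (nat_lit 19, e3_0_6_1), (nat_lit 30, e3_0_6_2)],
  [(nat_lit 36, e3_0_7_0)],
  [(nat_lit 18, e3_0_8_0)],
  [(nat_lit 16, e3_0_9_0), (nat_lit 38, e3_0_9_1)],
  [(nat_lit 19, e3_0_10_0)],
  [(nat_lit 43, e3_0_11_0)]]

def j3_0 : List Job := jobsA (nat_lit 90) xs3 c3_0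

end Vale.Agent.P236C.D

end
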