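import Vale.Agent.P236C.D.Xs4
import Vale.Agent.P236C.D.E4_0_0
import Vale.Agent.P236C.D.E4_0_1
import Vale.Agent.P236C.D.E4_0_2

noncomputable section

namespace Vale.Agent.P236C.D

def c4_0 : List (List (Nat × A3)) := [[(nat_lit 9, e4_0_0_0), (nat_lit 17, e4_0_0_1), (nat_lit 25, e4_0_0_2), (nat_lit 37, e4_0_0_3)],
  [(nat_lit 9, e4_0_1_0), (nat_lit 18, e4_0_1_1), (nat_lit 27, e4_0_1_2), (nat_lit 42, e4_0_1_3)],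
  [(nat_lit 9, e4_0_2_0), (nat_lit 18, e4_0_2_1), (nat_lit 30, e4_0_2_2), (nat_lit 79, e4_0_2_3)],
  [(nat_lit 11, e4_0_3_0), (nat_lit 23, e4_0_3_1), (nat_lit 43, e4_0_3_2)],
  [(nat_lit 12, e4_0_4_0), (nat_lit 24, e4_0_4_1), (nat_lit 57, e4_0_4_2)],
  [(nat_lit 8, e4_0_5_0), (nat_lit 18, e4_0_5_1), (nat_lit 30, e4_0_5_2)],
  [(nat_lit 15, e4_0_6_0), (nat_lit 31, e4_0_6_1)],
  [(nat_lit 10, e4_0_7_0), (nat_lit 24, e4_0_7_1)],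
  [(nat_lit 16, e4_0_8_0), (nat_lit 37, e4_0_8_1)],
  [(nat_lit 12, e4_0_9_0), (nat_lit 30, e4_0_9_1)],
  [(nat_lit 27, e4_0_10_0)],
  [(nat_lit 39, e4_0_11_0)],
  [(nat_lit 19, e4_0_12_0)],
  [],
  [(nat_lit 22, e4_0_14_0)],
  [(nat_lit 28, e4_0_15_0)]]

def j4_0 : List Job := jobsA (nat_lit 90) xs4 c4_0

end Vale.Agent.P236C.D

end
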