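import Vale.Agent.P236C.D.Xs4
import Vale.Agent.P236C.D.E4_1_0
import Vale.Agent.P236C.D.E4_1_1

noncomputable section

namespace Vale.Agent.P236C.D

def c4_1 : List (List (Nat × A3)) := [[(nat_lit 9, e4_1_0_0), (nat_lit 18, e4_1_0_1), (nat_lit 27, e4_1_0_2), (nat_lit 42, e4_1_0_3)],
  [(nat_lit 10, e4_1_1_0), (nat_lit 21, e4_1_1_1), (nat_lit 33, e4_1_1_2)],
  [(nat_lit 11, e4_1_2_0), (nat_lit 23, e4_1_2_1), (nat_lit 42, e4_1_2_2)],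
  [(nat_lit 12, e4_1_3_0), (nat_lit 24, e4_1_3_1), (nat_lit 53, e4_1_3_2)],
  [(nat_lit 13, e4_1_4_0), (nat_lit 30, e4_1_4_1)],
  [(nat_lit 9, e4_1_5_0), (nat_lit 19, e4_1_5_1), (nat_lit 34, e4_1_5_2)],
  [(nat_lit 16, e4_1_6_0), (nat_lit 36, e4_1_6_1)],
  [(nat_lit 12, e4_1_7_0), (nat_lit 30, e4_1_7_1)],
  [(nat_lit 18, e4_1_8_0), (nat_lit 55, e4_1_8_1)],
  [(nat_lit 13, e4_1_9_0), (nat_lit 40, e4_1_9_1)],
  [(nat_lit 32, e4_1_10_0)],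
  [],
  [(nat_lit 24, e4_1_12_0)],
  [],
  [(nat_lit 29, e4_1_14_0)],
  [(nat_lit 42, e4_1_15_0)]]

def j4_1 : List Job := jobsA (nat_lit 90) xs4 c4_1

end Vale.Agent.P236C.D

end
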