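import Vale.Agent.P236C.D.Xs5
import Vale.Agent.P236C.D.E5_0_0
import Vale.Agent.P236C.D.E5_0_1

noncomputable section

namespace Vale.Agent.P236C.D

def c5_0 : List (List (Nat × A3)) := [[(nat_lit 9, e5_0_0_0), (nat_lit 18, e5_0_0_1), (nat_lit 28, e5_0_0_2), (nat_lit 46, e5_0_0_3)],
  [(nat_lit 9, e5_0_1_0), (nat_lit 18, e5_0_1_1), (nat_lit 30, e5_0_1_2), (nat_lit 66, e5_0_1_3)],
  [(nat_lit 10, e5_0_2_0), (nat_lit 21, e5_0_2_1), (nat_lit 37, e5_0_2_2)],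
  [(nat_lit 10, e5_0_3_0), (nat_lit 22, e5_0_3_1), (nat_lit 45, e5_0_3_2)],
  [(nat_lit 12, e5_0_4_0), (nat_lit 27, e5_0_4_1)],
  [(nat_lit 21, e5_0_5_0)],
  [(nat_lit 24, e5_0_6_0)],
  [(nat_lit 29, e5_0_7_0)],
  [(nat_lit 33, e5_0_8_0)],
  [],
  [],
  [(nat_lit 39, e5_0_11_0)],
  [],
  [(nat_lit 27, e5_0_13_0)]]

def j5_0 : List Job := jobsA (nat_lit 90) xs5 c5_0

end Vale.Agent.P236C.D

end
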