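import Vale.Agent.P236C.D.Xs5
import Vale.Agent.P236C.D.E5_1_0
import Vale.Agent.P236C.D.E5_1_1

noncomputable section

namespace Vale.Agent.P236C.D

def c5_1 : List (List (Nat × A3)) := [[(nat_lit 9, e5_1_0_0), (nat_lit 18, e5_1_0_1), (nat_lit 28, e5_1_0_2), (nat_lit 49, e5_1_0_3)],
  [(nat_lit 10, e5_1_1_0), (nat_lit 21, e5_1_1_1), (nat_lit 36, e5_1_1_2)],
  [(nat_lit 10, e5_1_2_0), (nat_lit 22, e5_1_2_1), (nat_lit 42, e5_1_2_2)],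
  [(nat_lit 12, e5_1_3_0), (nat_lit 25, e5_1_3_1)],
  [(nat_lit 12, e5_1_4_0), (nat_lit 28, e5_1_4_1)],
  [(nat_lit 22, e5_1_5_0)],
  [(nat_lit 25, e5_1_6_0)],
  [(nat_lit 33, e5_1_7_0)],
  [(nat_lit 39, e5_1_8_0)],
  [],
  [],
  [],
  [],
  [(nat_lit 33, e5_1_13_0)]]

def j5_1 : List Job := jobsA (nat_lit 90) xs5 c5_1

end Vale.Agent.P236C.D

end
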