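import Vale.Agent.P236C.D.Xs6
import Vale.Agent.P236C.D.E6_0_0

noncomputable section

namespace Vale.Agent.P236C.D

def c6_0 : List (List (Nat × A3)) := [[(nat_lit 18, e6_0_0_0), (nat_lit 45, e6_0_0_1)],
  [(nat_lit 19, e6_0_1_0)],
  [(nat_lit 21, e6_0_2_0)],
  [(nat_lit 23, e6_0_3_0)],
  [(nat_lit 26, e6_0_4_0)],
  [(nat_lit 19, e6_0_5_0)],
  [(nat_lit 22, e6_0_6_0)],
  [(nat_lit 25, e6_0_7_0)],
  [(nat_lit 31, e6_0_8_0)],
  [(nat_lit 45, e6_0_9_0)]]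

def j6_0 : List Job := jobsA (nat_lit 90) xs6 c6_0

end Vale.Agent.P236C.D

end
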