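import Vale.Agent.P236C.D.Xs6
import Vale.Agent.P236C.D.E6_1_0

noncomputable section

namespace Vale.Agent.P236C.D

def c6_1 : List (List (Nat × A3)) := [[(nat_lit 18, e6_1_0_0), (nat_lit 47, e6_1_0_1)],
  [(nat_lit 19, e6_1_1_0)],
  [(nat_lit 21, e6_1_2_0)],
  [(nat_lit 24, e6_1_3_0)],
  [(nat_lit 27, e6_1_4_0)],
  [(nat_lit 19, e6_1_5_0)],
  [(nat_lit 22, e6_1_6_0)],
  [(nat_lit 26, e6_1_7_0)],
  [(nat_lit 33, e6_1_8_0)],
  [(nat_lit 58, e6_1_9_0)]]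

def j6_1 : List Job := jobsA (nat_lit 90) xs6 c6_1

end Vale.Agent.P236C.D

end
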