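import Vale.Agent.P236C.D.Xs7
import Vale.Agent.P236C.D.E7_0_0

noncomputable section

namespace Vale.Agent.P236C.D

def c7_0 : List (List (Nat × A3)) := [[(nat_lit 14, e7_0_0_0), (nat_lit 33, e7_0_0_1)],
  [(nat_lit 15, e7_0_1_0), (nat_lit 37, e7_0_1_1)],
  [(nat_lit 17, e7_0_2_0)],
  [(nat_lit 19, e7_0_3_0)],
  [(nat_lit 21, e7_0_4_0)]]

def j7_0 : List Job := jobsA (nat_lit 90) xs7 c7_0

end Vale.Agent.P236C.D

end
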