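import Vale.Agent.P236C.D.Xs8
import Vale.Agent.P236C.D.E8_0_0

noncomputable section

namespace Vale.Agent.P236C.D

def c8_0 : List (List (Nat × A3)) := [[(nat_lit 24, e8_0_0_0)],
  [(nat_lit 26, e8_0_1_0)],
  [(nat_lit 30, e8_0_2_0)],
  [(nat_lit 36, e8_0_3_0)],
  [],
  [(nat_lit 30, e8_0_5_0)],
  [(nat_lit 40, e8_0_6_0)]]

def j8_0 : List Job := jobsA (nat_lit 90) xs8 c8_0

end Vale.Agent.P236C.D

end
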