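import Vale.Agent.P236C.D.Xs9
import Vale.Agent.P236C.D.E9_0_0

noncomputable section

namespace Vale.Agent.P236C.D

def c9_0 : List (List (Nat × A3)) := [[(nat_lit 18, e9_0_0_0)],
  [(nat_lit 19, e9_0_1_0)],
  [(nat_lit 21, e9_0_2_0)],
  [(nat_lit 24, e9_0_3_0)],
  [(nat_lit 28, e9_0_4_0)]]

def j9_0 : List Job := jobsA (nat_lit 90) xs9 c9_0

end Vale.Agent.P236C.D

end
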