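import Vale.Agent.P236C.Exec

noncomputable section

namespace Vale.Agent.P236C.D

def u0_0_0 : A3 := [[
  RL.cons (nat_lit 0x1000000000000000000000040000000000000000000000000000000000000000000000000000000000000000000000000000000000000000000000000000000000000000000000000000000000000000000000000000000000000000000000000000000000000000000000000000000000000000000000000000000000000000000000000000000000000000000000000000000000000000000000000000000000000000000000000000000000000000000000000000000000000000000000000000000000000000000000000000000000000000000000000000000000000000000000000000000000000000000000000000000000000000000000000000000000000000000000000000000000000000000000000000000000000000000000000000000000000000000000000000000000000000000000000000000000000000000000000000000000000000000000000000000000000000000000000000000000000000000000000000000000000000000000000000000000000000000000000000000000000000000000000000000000000000000000000000000000000000000000000000000000000000000000000000000000000000000000000000000000000000000000000000000000000000000000000000000000000000000000000000000000000008dde318cf1bbcd84) (nat_lit 0x7220c2730e443238) ( RL.nil), RL.nil, RL.nil, RL.nil, RL.nil, RL.nil, RL.nil], [ RL.nil, RL.nil, RL.nil, RL.nil], [ RL.nil]]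

def u0_0 : A4 := [u0_0_0]

end Vale.Agent.P236C.D

end
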