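import Vale.Agent.P236C.D.X0_0

noncomputable section

namespace Vale.Agent.P236C.D

def xs0 : List XD := [x0_0]

end Vale.Agent.P236C.D

end
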