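import Vale.Agent.P236C.D.X16_0

noncomputable section

namespace Vale.Agent.P236C.D

def xs16 : List XD := [x16_0, x16_1, x16_2, x16_3, x16_4, x16_5, x16_6, x16_7, x16_8, x16_9, x16_10, x16_11, x16_12, x16_13, x16_14, x16_15, x16_16, x16_17, x16_18, x16_19, x16_20, x16_21, x16_22, x16_23, x16_24, x16_25]

end Vale.Agent.P236C.D

end
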