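import Vale.Agent.P236C.Exec

noncomputable section

namespace Vale.Agent.P236C.D

def x0_0_0 : List Nat := []

def x0_0_1 : List Nat := [nat_lit 0x1]

def x0_0_2 : List Nat := []

def x0_0_3 : List Nat := [nat_lit 0x4]

def x0_0_4 : List Nat := []

def x0_0_5 : List Nat := []

def x0_0_6 : List Nat := []

def x0_0_7 : List Nat := []

def x0_0_8 : List Nat := []

def x0_0_9 : List Nat := [nat_lit 0x40]

def x0_0_10 : List Nat := []

def x0_0_11 : List Nat := []

def x0_0_12 : List Nat := []

def x0_0_13 : List Nat := []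

def x0_0_14 : List Nat := []

def x0_0_15 : List Nat := []

def x0_0_16 : List Nat := []

def x0_0_17 : List Nat := []

def x0_0_18 : List Nat := []

def x0_0_19 : List Nat := []

def x0_0_20 : List Nat := []

def x0_0_21 : List Nat := []

def x0_0_22 : List Nat := []

def x0_0_23 : List Nat := []

def x0_0_24 : List Nat := []

def x0_0_25 : List Nat := []

def x0_0_26 : List Nat := []

def x0_0_27 : List Nat := [nat_lit 0x100000]

def x0_0_28 : List Nat := []

def x0_0_29 : List Nat := []

def x0_0_30 : List Nat := []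

def x0_0_31 : List Nat := []

def x0_0_32 : List Nat := []

def x0_0_33 : List Nat := []

def x0_0_34 : List Nat := []

def x0_0_35 : List Nat := []

def x0_0_36 : List Nat := []

def x0_0_37 : List Nat := []

def x0_0_38 : List Nat := []

def x0_0_39 : List Nat := []

def x0_0_40 : List Nat := []

def x0_0_41 : List Nat := []

def x0_0_42 : List Nat := []

def x0_0_43 : List Nat := []

def x0_0_44 : List Nat := []

def x0_0_45 : List Nat := []

def x0_0_46 : List Nat := []

def x0_0_47 : List Nat := []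

def x0_0_48 : List Nat := []

def x0_0_49 : List Nat := []

def x0_0_50 : List Nat := []

def x0_0_51 : List Nat := []

def x0_0_52 : List Nat := []

def x0_0_53 : List Nat := []

def x0_0_54 : List Nat := []

def x0_0_55 : List Nat := []

def x0_0_56 : List Nat := []

def x0_0_57 : List Nat := []

def x0_0_58 : List Nat := []

def x0_0_59 : List Nat := []

def x0_0_60 : List Nat := []

def x0_0_61 : List Nat := []

def x0_0_62 : List Nat := []

def x0_0_63 : List Nat := []

def x0_0_64 : List Nat := []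

def x0_0_65 : List Nat := []

def x0_0_66 : List Nat := []

def x0_0_67 : List Nat := []

def x0_0_68 : List Nat := []

def x0_0_69 : List Nat := []

def x0_0_70 : List Nat := []

def x0_0_71 : List Nat := []

def x0_0_72 : List Nat := []

def x0_0_73 : List Nat := []

def x0_0_74 : List Nat := []

def x0_0_75 : List Nat := []

def x0_0_76 : List Nat := []

def x0_0_77 : List Nat := []

def x0_0_78 : List Nat := []

def x0_0_79 : List Nat := []

def x0_0_80 : List Nat := []

def x0_0_81 : List Nat := [nat_lit 0x400000000000000000000000000]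

def x0_0_82 : List Nat := []

def x0_0_83 : List Nat := []

def x0_0_84 : List Nat := []

def x0_0_85 : List Nat := []

def x0_0_86 : List Nat := []

def x0_0_87 : List Nat := []

def x0_0_88 : List Nat := []

def x0_0_89 : List Nat := []

def x0_0_90 : List Nat := []

def x0_0 : XD := XD.mk (nat_lit 0) [x0_0_0, x0_0_1, x0_0_2, x0_0_3, x0_0_4, x0_0_5, x0_0_6, x0_0_7, x0_0_8, x0_0_9, x0_0_10, x0_0_11, x0_0_12, x0_0_13, x0_0_14, x0_0_15, x0_0_16, x0_0_17, x0_0_18, x0_0_19, x0_0_20, x0_0_21, x0_0_22, x0_0_23, x0_0_24, x0_0_25, x0_0_26, x0_0_27, x0_0_28, x0_0_29, x0_0_30, x0_0_31, x0_0_32, x0_0_33, x0_0_34, x0_0_35, x0_0_36, x0_0_37, x0_0_38, x0_0_39, x0_0_40, x0_0_41, x0_0_42, x0_0_43, x0_0_44, x0_0_45, x0_0_46, x0_0_47, x0_0_48, x0_0_49, x0_0_50, x0_0_51, x0_0_52, x0_0_53, x0_0_54, x0_0_55, x0_0_56, x0_0_57, x0_0_58, x0_0_59, x0_0_60, x0_0_61, x0_0_62, x0_0_63, x0_0_64, x0_0_65, x0_0_66, x0_0_67, x0_0_68, x0_0_69, x0_0_70, x0_0_71, x0_0_72, x0_0_73, x0_0_74, x0_0_75, x0_0_76, x0_0_77, x0_0_78, x0_0_79,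 x0_0_80, x0_0_81, x0_0_82, x0_0_83, x0_0_84, x0_0_85, x0_0_86, x0_0_87, x0_0_88, x0_0_89, x0_0_90]

end Vale.Agent.P236C.D

end
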