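import Vale.Agent.P236C.D.L
import Vale.Agent.P236C.D.Xs0
import Vale.Agent.P236C.D.Xs1
import Vale.Agent.P236C.D.Xs2
import Vale.Agent.P236C.D.Xs3
import Vale.Agent.P236C.D.Xs4
import Vale.Agent.P236C.D.Xs5
import Vale.Agent.P236C.D.Xs6
import Vale.Agent.P236C.D.Xs7
import Vale.Agent.P236C.D.Xs8
import Vale.Agent.P236C.D.Xs9
import Vale.Agent.P236C.D.Xs10
import Vale.Agent.P236C.D.Xs11
import Vale.Agent.P236C.D.Xs12
import Vale.Agent.P236C.D.Xs13
import Vale.Agent.P236C.D.Xs14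
import Vale.Agent.P236C.D.Xs15
import Vale.Agent.P236C.D.Xs16
import Vale.Agent.P236C.D.Xs17
import Vale.Agent.P236C.D.Xs18
import Vale.Agent.P236C.D.Xs19
import Vale.Agent.P236C.D.Xs20
import Vale.Agent.P236C.D.Xs21
import Vale.Agent.P236C.D.Xs22
import Vale.Agent.P236C.D.Xs23
import Vale.Agent.P236C.D.Xs24
import Vale.Agent.P236C.D.Xs25
import Vale.Agent.P236C.D.Xs26
import Vale.Agent.P236C.D.Xs27
import Vale.Agent.P236C.D.Xs28
import Vale.Agent.P236C.D.Xs29
import Vale.Agent.P236C.D.Xs30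
import Vale.Agent.P236C.D.Xs31
import Vale.Agent.P236C.D.Xs32
import Vale.Agent.P236C.D.Xs33

noncomputable section

namespace Vale.Agent.P236C.D

def xsA (j : Nat) : List XD := getL [] [xs0, xs1, xs2, xs3, xs4, xs5, xs6, xs7, xs8, xs9, xs10, xs11, xs12, xs13, xs14, xs15, xs16, xs17, xs18, xs19, xs20, xs21, xs22, xs23, xs24, xs25, xs26, xs27, xs28, xs29, xs30, xs31, xs32, xs33] j

end Vale.Agent.P236C.D

end
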